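import Vale.Agent.P371.Calib.TInt

/-!
# P371: concavity and monotonicity of the potential in `Q`

For fixed `B`, `v ↦ psiQ Q (v B)` vanishes with its derivative at `0`, and its second derivative
is `G (t Q⁻¹ + v B) - G (Q - v B)` with `G C = tr (B dlog_C B)`, the integral over `θ` of
`gTh θ`. As a supremum of affine functions `G` is convex and antitone in `C`; as an infimum of
monotone linear functions it is concave and monotone in `C⁻¹`, and `(t Q⁻¹ + v B)⁻¹` is an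
infimum of monotone affine functions of `Q`.
-/

namespace Vale.Agent.P371.Calib

open Matrix MeasureTheory Set Filter Finset
open Vale.Agent.LT (MatDerivAt matDerivAt_const)
open scoped ComplexOrder Topology

variable {n : ℕ}

/-! ## Linear bookkeeping -/

theorem trR_mul_nonneg {P Y : CMat n} (hP : P.PosSemidef) (hY : Y.PosSemidef) :
    0 ≤ trR (P * Y) := by
  obtain ⟨V, a, h⟩ := exists_spec hP.1
  rw [h.trR_mul]
  refine sum_nonneg fun k _ => mul_nonneg (h.posSemidef_iff.1 hP k) ?_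
  rw [← qf_colV]
  exact qf_nonneg hY _

theorem trR_mul_mono {P P' Y : CMat n} (h : (P' - P).PosSemidef) (hY : Y.PosSemidef) :
    trR (P * Y) ≤ trR (P' * Y) := by
  have := trR_mul_nonneg h hY
  rw [Matrix.sub_mul, trR_sub] at this
  linarith

theorem posSemidef_of_qf {H : CMat n} (hH : H.IsHermitian) (h : ∀ x, 0 ≤ qf H x) :
    H.PosSemidef := by
  obtain ⟨V, a, hs⟩ := exists_spec hH
  exact hs.posSemidef_iff.2 fun k => hs.le_eig (fun x => by simpa using h x) k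

/-! ## The two kernels -/

theorem intervalIntegral_affine_inv {a b : ℝ} (ha : 0 < a) (hb : 0 < b) :
    ∫ θ in (0 : ℝ)..1, (θ * a + (1 - θ) * b)⁻¹ =
      ∫ s in Ioi (0 : ℝ), (a + s)⁻¹ * (b + s)⁻¹ := by
  rcases eq_or_ne a b with rfl | hne
  · have h1 : ∀ θ : ℝ, θ * a + (1 - θ) * a = a := fun θ => by ring
    simp only [h1, intervalIntegral.integral_const, sub_zero, one_smul]
    rw [integral_Ioi_of_hasDerivAt_of_nonneg' (g := fun s => -(a + s)⁻¹) (l := 0) (fun s hs => ?_)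
      (fun s _ => mul_self_nonneg _) ?_]
    · simp
    · simpa using
        (tendsto_inv_atTop_zero.comp (tendsto_atTop_add_const_left _ a tendsto_id)).neg
    · have : a + s ≠ 0 := (add_pos_of_pos_of_nonneg ha hs).ne'
      exact (((hasDerivAt_id s).const_add a).inv this).neg.congr_deriv (by simp; field_simp)
  · have hpos : ∀ θ ∈ uIcc (0 : ℝ) 1, 0 < θ * a + (1 - θ) * b := fun θ hθ => by
      rw [Set.uIcc_of_le zero_le_one] at hθ
      exact convex_Ioi (0 : ℝ) ha hb hθ.1 (by linarith [hθ.2]) (by ring)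
    have hd : ∀ θ ∈ uIcc (0 : ℝ) 1, HasDerivAt (fun w => Real.log (w * a + (1 - w) * b))
        ((a - b) * (θ * a + (1 - θ) * b)⁻¹) θ := fun θ hθ => by
      have h1 := ((hasDerivAt_id θ).mul_const a).fun_add
        (((hasDerivAt_id θ).const_sub (1 : ℝ)).mul_const b)
      simp only [id] at h1
      refine (h1.log (hpos θ hθ).ne').congr_deriv ?_
      rw [div_eq_mul_inv]; ring
    have hc : ContinuousOn (fun θ => (a - b) * (θ * a + (1 - θ) * b)⁻¹) (uIcc (0 : ℝ) 1) :=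
      continuousOn_const.mul ((by fun_prop : Continuous fun θ => θ * a + (1 - θ) * b).continuousOn.inv₀
        fun θ hθ => (hpos θ hθ).ne')
    have := intervalIntegral.integral_eq_sub_of_hasDerivAt hd hc.intervalIntegrable
    rw [intervalIntegral.integral_const_mul] at this
    refine mul_left_cancel₀ (sub_ne_zero.2 hne) (this.trans ?_)
    rw [log_sub_log ha hb]
    norm_num

/-- `∑ |B_ij|² / (θ c_i + (1 - θ) c_j)` in a basis. -/
noncomputable def gTh (B : CMat n) (θ : ℝ) (V : CMat n) (c : Fin n → ℝ) : ℝ :=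
  ∑ i, ∑ j, Complex.normSq ((Vᴴ * B * V) i j) / (θ * c i + (1 - θ) * c j)

/-- `tr (B dlog_C B)`. -/
noncomputable def gDir (B C : CMat n) : ℝ := trR (dlogM C B * B)

theorem trR_conj {A V : CMat n} {a : Fin n → ℝ} (h : Spec A V a) (X Y : CMat n) :
    trR (X * Y) = ∑ i, ∑ j, ((Vᴴ * X * V) i j * (Vᴴ * Y * V) j i).re := by
  have e : Vᴴ * (X * Y) * V = (Vᴴ * X * V) * (Vᴴ * Y * V) := by
    calc Vᴴ * (X * Y) * V = Vᴴ * X * (V * Vᴴ) * Y * V := by
          rw [h.2.1, Matrix.mul_one]; simp only [Matrix.mul_assoc]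
      _ = _ := by simp only [Matrix.mul_assoc]
  rw [trR, ← h.trace_conj, e]
  simp [Matrix.trace, Matrix.mul_apply, Complex.re_sum]

theorem gDir_eq {B C V : CMat n} {c : Fin n → ℝ} (hB : B.IsHermitian) (h : Spec C V c)
    (hc : ∀ i, 0 < c i) : gDir B C = ∫ θ in (0 : ℝ)..1, gTh B θ V c := by
  have hint : ∀ i j, IntervalIntegrable
      (fun θ : ℝ => Complex.normSq ((Vᴴ * B * V) i j) / (θ * c i + (1 - θ) * c j)) volume 0 1 :=
    fun i j => (continuousOn_const.div (by fun_prop) fun θ hθ => (by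
      rw [Set.uIcc_of_le zero_le_one] at hθ
      exact ne_of_gt (convex_Ioi (0 : ℝ) (hc i) (hc j) hθ.1 (by linarith [hθ.2])
        (by ring)))).intervalIntegrable
  have hsum : ∀ i, IntervalIntegrable
      (fun θ : ℝ => ∑ j, Complex.normSq ((Vᴴ * B * V) i j) / (θ * c i + (1 - θ) * c j))
      volume 0 1 := fun i => by
    have := IntervalIntegrable.sum Finset.univ fun j _ => hint i j
    simpa only [Finset.sum_fn] using this
  unfold gTh
  rw [gDir, trR_conj h, intervalIntegral.integral_finsetSum fun i _ => hsum i]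
  refine sum_congr rfl fun i _ => ?_
  rw [intervalIntegral.integral_finsetSum fun j _ => hint i j]
  refine sum_congr rfl fun j _ => ?_
  have hH : (Vᴴ * B * V) j i = starRingEnd ℂ ((Vᴴ * B * V) i j) :=
    ((isHermitian_conjTranspose_mul_mul V hB).apply j i).symm
  simp only [div_eq_mul_inv]
  rw [intervalIntegral.integral_const_mul, intervalIntegral_affine_inv (hc i) (hc j),
    dlogM_spec h hc, hH, mul_assoc, Complex.mul_conj, ← Complex.ofReal_mul, Complex.ofReal_re,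
    mul_comm]

/-! ## Variational forms -/

theorem trR_quad_left {C V : CMat n} {c : Fin n → ℝ} (h : Spec C V c) (X : CMat n) :
    trR (C * (X * Xᴴ)) = ∑ i, ∑ j, c i * Complex.normSq ((Vᴴ * X * V) i j) := by
  have e : Vᴴ * (X * Xᴴ) * V = (Vᴴ * X * V) * (Vᴴ * X * V)ᴴ := by
    calc Vᴴ * (X * Xᴴ) * V = Vᴴ * X * (V * Vᴴ) * Xᴴ * V := by
          rw [h.2.1, Matrix.mul_one]; simp only [Matrix.mul_assoc]
      _ = _ := by simp only [conjTranspose_mul, conjTranspose_conjTranspose, Matrix.mul_assoc]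
  rw [h.trR_mul, e]
  refine sum_congr rfl fun i _ => ?_
  rw [Matrix.mul_apply, Complex.re_sum, mul_sum]
  exact sum_congr rfl fun j _ => by
    rw [conjTranspose_apply, RCLike.star_def, Complex.mul_conj, Complex.ofReal_re]

theorem trR_quad_right {C V : CMat n} {c : Fin n → ℝ} (h : Spec C V c) (X : CMat n) :
    trR (C * (Xᴴ * X)) = ∑ i, ∑ j, c j * Complex.normSq ((Vᴴ * X * V) i j) := by
  have e : Vᴴ * Xᴴ * V = (Vᴴ * X * V)ᴴ := by
    simp only [conjTranspose_mul, conjTranspose_conjTranspose, Matrix.mul_assoc]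
  have := trR_quad_left h Xᴴ
  rw [conjTranspose_conjTranspose, e] at this
  rw [this, Finset.sum_comm]
  simp only [conjTranspose_apply, RCLike.star_def, Complex.normSq_conj]

theorem gTh_sup {B C V : CMat n} {c : Fin n → ℝ} (h : Spec C V c) (hc : ∀ i, 0 < c i) {θ : ℝ}
    (h0 : 0 < θ) (h1 : θ < 1) :
    ∃ (k : ℝ) (Y : CMat n), Y.PosSemidef ∧ gTh B θ V c = k - trR (C * Y) ∧
      ∀ (C' V' : CMat n) (c' : Fin n → ℝ), Spec C' V' c' → (∀ i, 0 < c' i) →
        k - trR (C' * Y) ≤ gTh B θ V' c' := by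
  have hd : ∀ {d : Fin n → ℝ}, (∀ i, 0 < d i) → ∀ i j, 0 < θ * d i + (1 - θ) * d j :=
    fun hd i j => add_pos (mul_pos h0 (hd i)) (mul_pos (sub_pos.2 h1) (hd j))
  set X' : CMat n := Matrix.of fun i j =>
    ((θ * c i + (1 - θ) * c j)⁻¹ : ℝ) * (Vᴴ * B * V) i j with hX'
  set X : CMat n := V * X' * Vᴴ with hX
  have hXV : Vᴴ * X * V = X' := by
    simp only [hX, ← Matrix.mul_assoc, h.1, Matrix.one_mul]
    rw [Matrix.mul_assoc, h.1, Matrix.mul_one]
  refine ⟨2 * trR (Xᴴ * B), (θ : ℂ) • (X * Xᴴ) + ((1 - θ : ℝ) : ℂ) • (Xᴴ * X),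
    ((posSemidef_self_mul_conjTranspose X).smul (Complex.zero_le_real.2 h0.le)).add
      ((posSemidef_conjTranspose_mul_self X).smul
        (Complex.zero_le_real.2 (sub_nonneg.2 h1.le))), ?_⟩
  have key : ∀ (C' V' : CMat n) (c' : Fin n → ℝ), Spec C' V' c' →
      2 * trR (Xᴴ * B) - trR (C' * ((θ : ℂ) • (X * Xᴴ) + ((1 - θ : ℝ) : ℂ) • (Xᴴ * X))) =
        ∑ i, ∑ j, (2 * (starRingEnd ℂ ((V'ᴴ * X * V') i j) * (V'ᴴ * B * V') i j).re -
          (θ * c' i + (1 - θ) * c' j) * Complex.normSq ((V'ᴴ * X * V') i j)) := by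
    intro C' V' c' h'
    rw [Matrix.mul_add, Matrix.mul_smul, Matrix.mul_smul, trR_add, trR_smul, trR_smul,
      trR_quad_left h', trR_quad_right h', trR_conj h' Xᴴ B, Finset.sum_comm]
    have e : V'ᴴ * Xᴴ * V' = (V'ᴴ * X * V')ᴴ := by
      simp only [conjTranspose_mul, conjTranspose_conjTranspose, Matrix.mul_assoc]
    simp only [e, conjTranspose_apply, RCLike.star_def, mul_sum, ← sum_add_distrib,
      ← sum_sub_distrib]
    exact sum_congr rfl fun i _ => sum_congr rfl fun j _ => by ring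
  refine ⟨?_, fun C' V' c' h' hc' => ?_⟩
  · rw [key C V c h, gTh]
    refine sum_congr rfl fun i _ => sum_congr rfl fun j _ => ?_
    have hD := (hd hc i j).ne'
    rw [hXV]
    simp only [hX', Matrix.of_apply, map_mul, Complex.conj_ofReal, Complex.normSq_ofReal]
    simp only [Complex.normSq_apply, Complex.mul_re, Complex.mul_im, Complex.ofReal_re,
      Complex.ofReal_im, Complex.conj_re, Complex.conj_im]
    field_simp
    ring
  · rw [key C' V' c' h', gTh]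
    refine sum_le_sum fun i _ => sum_le_sum fun j _ => ?_
    have hD := hd hc' i j
    set x := (V'ᴴ * X * V') i j
    set β := (V'ᴴ * B * V') i j
    set D := θ * c' i + (1 - θ) * c' j
    rw [le_div_iff₀ hD]
    simp only [Complex.normSq_apply, Complex.mul_re, Complex.conj_re, Complex.conj_im]
    nlinarith [sq_nonneg (D * x.re - β.re), sq_nonneg (D * x.im - β.im)]

theorem gTh_inf {B C V : CMat n} {c : Fin n → ℝ} (h : Spec C V c) (hc : ∀ i, 0 < c i) {θ : ℝ}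
    (h0 : 0 < θ) (h1 : θ < 1) :
    ∃ Y : CMat n, Y.PosSemidef ∧ gTh B θ V c = trR (C⁻¹ * Y) ∧
      ∀ (C' V' : CMat n) (c' : Fin n → ℝ), Spec C' V' c' → (∀ i, 0 < c' i) →
        gTh B θ V' c' ≤ trR (C'⁻¹ * Y) := by
  have h1' : 0 < 1 - θ := sub_pos.2 h1
  have hd : ∀ {d : Fin n → ℝ}, (∀ i, 0 < d i) → ∀ i j, 0 < θ * d i + (1 - θ) * d j :=
    fun hd i j => add_pos (mul_pos h0 (hd i)) (mul_pos h1' (hd j))
  set X' : CMat n := Matrix.of fun i j =>
    ((θ * c i / (θ * c i + (1 - θ) * c j)) : ℝ) * (Vᴴ * B * V) i j with hX'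
  set X : CMat n := V * X' * Vᴴ with hX
  have hXV : Vᴴ * X * V = X' := by
    simp only [hX, ← Matrix.mul_assoc, h.1, Matrix.one_mul]
    rw [Matrix.mul_assoc, h.1, Matrix.mul_one]
  refine ⟨((θ⁻¹ : ℝ) : ℂ) • (X * Xᴴ) + (((1 - θ)⁻¹ : ℝ) : ℂ) • ((B - X)ᴴ * (B - X)),
    ((posSemidef_self_mul_conjTranspose X).smul (Complex.zero_le_real.2 (inv_nonneg.2 h0.le))).add
      ((posSemidef_conjTranspose_mul_self (B - X)).smul
        (Complex.zero_le_real.2 (inv_nonneg.2 h1'.le))), ?_⟩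
  have key : ∀ (C' V' : CMat n) (c' : Fin n → ℝ), Spec C' V' c' → (∀ i, 0 < c' i) →
      trR (C'⁻¹ * (((θ⁻¹ : ℝ) : ℂ) • (X * Xᴴ) +
          (((1 - θ)⁻¹ : ℝ) : ℂ) • ((B - X)ᴴ * (B - X)))) =
        ∑ i, ∑ j, (Complex.normSq ((V'ᴴ * X * V') i j) / (θ * c' i) +
          Complex.normSq ((V'ᴴ * B * V') i j - (V'ᴴ * X * V') i j) / ((1 - θ) * c' j)) := by
    intro C' V' c' h' hc'
    have hi := h'.inv fun i => (hc' i).ne'
    rw [Matrix.mul_add, Matrix.mul_smul, Matrix.mul_smul, trR_add, trR_smul, trR_smul,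
      trR_quad_left hi, trR_quad_right hi, mul_sum, mul_sum, ← sum_add_distrib]
    refine sum_congr rfl fun i _ => ?_
    rw [mul_sum, mul_sum, ← sum_add_distrib]
    refine sum_congr rfl fun j _ => ?_
    rw [Matrix.mul_sub, Matrix.sub_mul, Matrix.sub_apply, div_eq_mul_inv, div_eq_mul_inv,
      mul_inv, mul_inv]
    ring
  refine ⟨?_, fun C' V' c' h' hc' => ?_⟩
  · rw [key C V c h hc, gTh]
    refine sum_congr rfl fun i _ => sum_congr rfl fun j _ => ?_
    have hD := (hd hc i j).ne'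
    have := (hc i).ne'
    have := (hc j).ne'
    rw [hXV]
    simp only [hX', Matrix.of_apply]
    rw [← one_sub_mul, ← Complex.ofReal_one, ← Complex.ofReal_sub, Complex.normSq_mul,
      Complex.normSq_mul, Complex.normSq_ofReal, Complex.normSq_ofReal]
    field_simp
    ring
  · rw [key C' V' c' h' hc', gTh]
    refine sum_le_sum fun i _ => sum_le_sum fun j _ => ?_
    set x := (V'ᴴ * X * V') i j
    set β := (V'ᴴ * B * V') i j
    have hp : 0 < θ * c' i := mul_pos h0 (hc' i)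
    have hq : 0 < (1 - θ) * c' j := mul_pos h1' (hc' j)
    set p := θ * c' i
    set q := (1 - θ) * c' j
    rw [div_add_div _ _ hp.ne' hq.ne', div_le_div_iff₀ (add_pos hp hq) (mul_pos hp hq)]
    simp only [Complex.normSq_apply, Complex.sub_re, Complex.sub_im]
    nlinarith [sq_nonneg (q * x.re - p * (β.re - x.re)), sq_nonneg (q * x.im - p * (β.im - x.im))]

/-! ## The inverse of `t Q⁻¹ + v B` -/

/-- `(t Q⁻¹ + W²)⁻¹` is the least `(1-WU)ᴴ (Q/t) (1-WU) + UᴴU`. -/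
theorem inv_add_le {W : CMat n} (hW : W.IsHermitian) {J X : CMat n} (hJ : J.PosDef)
    (hJX : J * X = 1) (hC : (X + W * W).PosDef) (U : CMat n) :
    ((1 - W * U)ᴴ * J * (1 - W * U) + Uᴴ * U - (X + W * W)⁻¹).PosSemidef ∧
      (U = W * (X + W * W)⁻¹ →
        (X + W * W)⁻¹ = (1 - W * U)ᴴ * J * (1 - W * U) + Uᴴ * U) := by
  set Ci := (X + W * W)⁻¹
  set S : CMat n := 1 + W * J * W with hS
  set U₀ := W * Ci with hU₀
  have hinv : (X + W * W) * Ci = 1 := Matrix.mul_nonsing_inv _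
    ((Matrix.isUnit_iff_isUnit_det _).1 hC.isUnit)
  have hSW : S * W = W * J * (X + W * W) := by
    simp only [hS, Matrix.add_mul, Matrix.one_mul, Matrix.mul_add, Matrix.mul_assoc, hJX,
      Matrix.mul_one]
  have h1 : S * U₀ = W * J := by
    rw [hU₀, ← Matrix.mul_assoc, hSW, Matrix.mul_assoc, hinv, Matrix.mul_one]
  have hSh : Sᴴ = S := by
    simp only [hS, conjTranspose_add, conjTranspose_one, conjTranspose_mul, hW.eq, hJ.1.eq,
      Matrix.mul_assoc]
  have h2 : U₀ᴴ * S = J * W := by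
    have := congrArg Matrix.conjTranspose h1
    simpa only [conjTranspose_mul, hSh, hW.eq, hJ.1.eq] using this
  have h3 : J - J * W * U₀ = Ci := by
    have e : J * ((X + W * W) * Ci) = Ci + J * (W * W) * Ci := by
      rw [← Matrix.mul_assoc, Matrix.mul_add, hJX, Matrix.add_mul, Matrix.one_mul]
    rw [hinv, Matrix.mul_one] at e
    rw [hU₀]
    conv_lhs => enter [1]; rw [e]
    simp only [Matrix.mul_assoc, add_sub_cancel_right]
  have expand : ∀ U : CMat n, (1 - W * U)ᴴ * J * (1 - W * U) + Uᴴ * U - Ci =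
      (U - U₀)ᴴ * S * (U - U₀) := by
    intro U
    have r : (U - U₀)ᴴ * S * (U - U₀) = Uᴴ * S * U - Uᴴ * (W * J) - J * W * U + J * W * U₀ := by
      simp only [conjTranspose_sub, Matrix.sub_mul, Matrix.mul_sub]
      rw [Matrix.mul_assoc Uᴴ S U₀, h1, h2]
      abel
    rw [r, ← h3]
    simp only [hS, conjTranspose_sub, conjTranspose_one, conjTranspose_mul, hW.eq, Matrix.sub_mul,
      Matrix.mul_sub, Matrix.add_mul, Matrix.mul_add, Matrix.one_mul, Matrix.mul_one,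
      Matrix.mul_assoc]
    abel
  refine ⟨?_, fun hU => ?_⟩
  · rw [expand U]
    refine PosSemidef.conjTranspose_mul_mul_same (Matrix.PosSemidef.one.add ?_) _
    simpa only [hW.eq] using hJ.posSemidef.conjTranspose_mul_mul_same W
  · have e := expand U
    rw [hU, sub_self, Matrix.mul_zero] at e
    rw [hU]
    exact (sub_eq_zero.1 e).symm

/-- An affine monotone majorant of `Q ↦ (t Q⁻¹ + v B)⁻¹`, exact at `Q`. -/
theorem inv_majorant {B Q : CMat n} {t v : ℝ} (hB : B.PosSemidef) (hQ : Q.PosDef) (ht : 0 < t)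
    (hv : 0 ≤ v) :
    ∃ M N : CMat n, ((t : ℂ) • Q⁻¹ + (v : ℂ) • B)⁻¹ = Mᴴ * Q * M + N ∧
      ∀ Q' : CMat n, Q'.PosDef →
        (Mᴴ * Q' * M + N - ((t : ℂ) • Q'⁻¹ + (v : ℂ) • B)⁻¹).PosSemidef := by
  have hvB : ((v : ℂ) • B).PosSemidef := hB.smul (Complex.zero_le_real.2 hv)
  obtain ⟨V, b, hs⟩ := exists_spec hvB.1
  set W := sqrtM ((v : ℂ) • B)
  have hWW : W * W = (v : ℂ) • B := (hs.sqrtM.mul hs.sqrtM).eq hs fun i =>
    Real.mul_self_sqrt (hs.posSemidef_iff.1 hvB i)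
  have hW : W.IsHermitian := hs.sqrtM.isHermitian
  have hti : (0 : ℂ) < ((t⁻¹ : ℝ) : ℂ) := Complex.zero_lt_real.2 (inv_pos.2 ht)
  have htc : (0 : ℂ) < (t : ℂ) := Complex.zero_lt_real.2 ht
  have inst : ∀ Q' : CMat n, Q'.PosDef → (((t⁻¹ : ℝ) : ℂ) • Q').PosDef ∧
      (((t⁻¹ : ℝ) : ℂ) • Q') * ((t : ℂ) • Q'⁻¹) = 1 ∧
      ((t : ℂ) • Q'⁻¹ + W * W).PosDef := fun Q' hQ' => by
    refine ⟨hQ'.smul hti, ?_, ?_⟩
    · rw [Matrix.smul_mul, Matrix.mul_smul, Matrix.mul_nonsing_inv _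
        ((Matrix.isUnit_iff_isUnit_det _).1 hQ'.isUnit), smul_smul, ← Complex.ofReal_mul,
        inv_mul_cancel₀ ht.ne', Complex.ofReal_one, one_smul]
    · rw [hWW]
      exact (hQ'.inv.smul htc).add_posSemidef hvB
  set U := W * ((t : ℂ) • Q⁻¹ + W * W)⁻¹
  refine ⟨((√t⁻¹ : ℝ) : ℂ) • (1 - W * U), Uᴴ * U, ?_, fun Q' hQ' => ?_⟩
  all_goals
    have eM : ∀ P : CMat n,
        (((√t⁻¹ : ℝ) : ℂ) • (1 - W * U))ᴴ * P * (((√t⁻¹ : ℝ) : ℂ) • (1 - W * U)) =
          (1 - W * U)ᴴ * (((t⁻¹ : ℝ) : ℂ) • P) * (1 - W * U) := fun P => by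
      rw [conjTranspose_smul, RCLike.star_def, Complex.conj_ofReal, Matrix.smul_mul,
        Matrix.smul_mul, Matrix.mul_smul, smul_smul, ← Complex.ofReal_mul,
        Real.mul_self_sqrt (inv_nonneg.2 ht.le), Matrix.mul_smul, Matrix.smul_mul]
  · obtain ⟨a, b, c⟩ := inst Q hQ
    rw [eM, ← hWW]
    exact (inv_add_le hW a b c U).2 rfl
  · obtain ⟨a, b, c⟩ := inst Q' hQ'
    rw [eM, ← hWW]
    exact (inv_add_le hW a b c U).1

/-! ## Concavity of the second derivative -/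

theorem integral_mono_Ioo {f g : ℝ → ℝ} (hf : IntervalIntegrable f volume 0 1)
    (hg : IntervalIntegrable g volume 0 1) (h : ∀ x ∈ Ioo (0 : ℝ) 1, f x ≤ g x) :
    ∫ x in (0 : ℝ)..1, f x ≤ ∫ x in (0 : ℝ)..1, g x :=
  intervalIntegral.integral_mono_on_of_le_Ioo zero_le_one hf hg h

theorem gTh_integrable {B V : CMat n} {c : Fin n → ℝ} (hc : ∀ i, 0 < c i) :
    IntervalIntegrable (fun θ => gTh B θ V c) volume 0 1 := by
  refine (continuousOn_finsetSum _ fun i _ => continuousOn_finsetSum _ fun j _ =>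
    continuousOn_const.div (by fun_prop) fun θ hθ => ?_).intervalIntegrable
  rw [Set.uIcc_of_le zero_le_one] at hθ
  exact ne_of_gt (convex_Ioi (0 : ℝ) (hc i) (hc j) hθ.1 (by linarith [hθ.2]) (by ring))

theorem gDir_antitone {B C C' : CMat n} (hB : B.IsHermitian) (hC : C.PosDef)
    (hle : (C' - C).PosSemidef) : gDir B C' ≤ gDir B C := by
  obtain ⟨V, c, h⟩ := exists_spec hC.1
  have hC' : C'.PosDef := by simpa using hC.add_posSemidef hle
  obtain ⟨V', c', h'⟩ := exists_spec hC'.1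
  have hc := h.posDef_iff.1 hC
  have hc' := h'.posDef_iff.1 hC'
  rw [gDir_eq hB h hc, gDir_eq hB h' hc']
  refine integral_mono_Ioo (gTh_integrable hc') (gTh_integrable hc) fun θ hθ => ?_
  obtain ⟨k, Y, hY, e, le⟩ := gTh_sup (B := B) h' hc' hθ.1 hθ.2
  have := le C V c h hc
  have := trR_mul_mono hle hY
  linarith

theorem posDef_comb {A A' : CMat n} (hA : A.PosDef) (hA' : A'.PosDef) {a b : ℝ} (ha : 0 ≤ a)
    (hb : 0 ≤ b) (hab : a + b = 1) : ((a : ℂ) • A + (b : ℂ) • A').PosDef := by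
  rcases ha.eq_or_lt with rfl | ha
  · obtain rfl : b = 1 := by linarith
    simpa using hA'
  · exact (hA.smul (Complex.zero_lt_real.2 ha)).add_posSemidef
      (hA'.posSemidef.smul (Complex.zero_le_real.2 hb))

theorem gDir_convex {B C₀ C₁ : CMat n} (hB : B.IsHermitian) (h₀ : C₀.PosDef) (h₁ : C₁.PosDef)
    {a b : ℝ} (ha : 0 ≤ a) (hb : 0 ≤ b) (hab : a + b = 1) :
    gDir B ((a : ℂ) • C₀ + (b : ℂ) • C₁) ≤ a * gDir B C₀ + b * gDir B C₁ := by
  have hm := posDef_comb h₀ h₁ ha hb hab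
  obtain ⟨V₀, c₀, s₀⟩ := exists_spec h₀.1
  obtain ⟨V₁, c₁, s₁⟩ := exists_spec h₁.1
  obtain ⟨V, c, s⟩ := exists_spec hm.1
  have i₀ := gTh_integrable (B := B) (V := V₀) (s₀.posDef_iff.1 h₀)
  have i₁ := gTh_integrable (B := B) (V := V₁) (s₁.posDef_iff.1 h₁)
  rw [gDir_eq hB s₀ (s₀.posDef_iff.1 h₀), gDir_eq hB s₁ (s₁.posDef_iff.1 h₁),
    gDir_eq hB s (s.posDef_iff.1 hm), ← intervalIntegral.integral_const_mul,
    ← intervalIntegral.integral_const_mul,
    ← intervalIntegral.integral_add (i₀.const_mul a) (i₁.const_mul b)]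
  refine integral_mono_Ioo (gTh_integrable (s.posDef_iff.1 hm))
    ((i₀.const_mul a).add (i₁.const_mul b)) fun θ hθ => ?_
  obtain ⟨k, Y, _, e, le⟩ := gTh_sup (B := B) s (s.posDef_iff.1 hm) hθ.1 hθ.2
  have l₀ := mul_le_mul_of_nonneg_left (le C₀ V₀ c₀ s₀ (s₀.posDef_iff.1 h₀)) ha
  have l₁ := mul_le_mul_of_nonneg_left (le C₁ V₁ c₁ s₁ (s₁.posDef_iff.1 h₁)) hb
  rw [e, Matrix.add_mul, Matrix.smul_mul, Matrix.smul_mul, trR_add, trR_smul, trR_smul]
  have hk : k = a * k + b * k := by rw [← add_mul, hab, one_mul]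
  linarith

/-- `t Q⁻¹ + v B`. -/
noncomputable def cPlus (B : CMat n) (t v : ℝ) (Q : CMat n) : CMat n :=
  (t : ℂ) • Q⁻¹ + (v : ℂ) • B

theorem cPlus_posDef {B Q : CMat n} {t v : ℝ} (hB : B.PosSemidef) (hQ : Q.PosDef) (ht : 0 < t)
    (hv : 0 ≤ v) : (cPlus B t v Q).PosDef :=
  (hQ.inv.smul (Complex.zero_lt_real.2 ht)).add_posSemidef (hB.smul (Complex.zero_le_real.2 hv))

theorem gPlus_mono {B Q Q' : CMat n} {t v : ℝ} (hB : B.PosSemidef) (hQ : Q.PosDef) (ht : 0 < t)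
    (hv : 0 ≤ v) (hle : (Q' - Q).PosSemidef) :
    gDir B (cPlus B t v Q) ≤ gDir B (cPlus B t v Q') := by
  have hQ' : Q'.PosDef := by simpa using hQ.add_posSemidef hle
  have hC := cPlus_posDef hB hQ ht hv
  have hC' := cPlus_posDef hB hQ' ht hv
  obtain ⟨V, c, s⟩ := exists_spec hC.1
  obtain ⟨V', c', s'⟩ := exists_spec hC'.1
  have hc := s.posDef_iff.1 hC
  have hc' := s'.posDef_iff.1 hC'
  rw [gDir_eq hB.1 s hc, gDir_eq hB.1 s' hc']
  refine integral_mono_Ioo (gTh_integrable hc) (gTh_integrable hc') fun θ hθ => ?_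
  obtain ⟨Y, hY, e, le⟩ := gTh_inf (B := B) s' hc' hθ.1 hθ.2
  refine (le _ V c s hc).trans ((trR_mul_mono ?_ hY).trans e.ge)
  obtain ⟨M, N, eN, hM⟩ := inv_majorant hB hQ' ht hv
  have h2 := (hle.conjTranspose_mul_mul_same M).add (hM Q hQ)
  simp only [cPlus] at eN ⊢
  rw [eN]
  convert h2 using 1
  rw [Matrix.mul_sub, Matrix.sub_mul]
  abel

theorem gPlus_concave {B Q₀ Q₁ : CMat n} {t v : ℝ} (hB : B.PosSemidef) (h₀ : Q₀.PosDef)
    (h₁ : Q₁.PosDef) (ht : 0 < t) (hv : 0 ≤ v) {a b : ℝ} (ha : 0 ≤ a) (hb : 0 ≤ b)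
    (hab : a + b = 1) :
    a * gDir B (cPlus B t v Q₀) + b * gDir B (cPlus B t v Q₁) ≤
      gDir B (cPlus B t v ((a : ℂ) • Q₀ + (b : ℂ) • Q₁)) := by
  have hQ := posDef_comb h₀ h₁ ha hb hab
  have k₀ := cPlus_posDef hB h₀ ht hv
  have k₁ := cPlus_posDef hB h₁ ht hv
  have k := cPlus_posDef hB hQ ht hv
  obtain ⟨V₀, c₀, s₀⟩ := exists_spec k₀.1
  obtain ⟨V₁, c₁, s₁⟩ := exists_spec k₁.1
  obtain ⟨V, c, s⟩ := exists_spec k.1
  have i₀ := gTh_integrable (B := B) (V := V₀) (s₀.posDef_iff.1 k₀)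
  have i₁ := gTh_integrable (B := B) (V := V₁) (s₁.posDef_iff.1 k₁)
  rw [gDir_eq hB.1 s₀ (s₀.posDef_iff.1 k₀), gDir_eq hB.1 s₁ (s₁.posDef_iff.1 k₁),
    gDir_eq hB.1 s (s.posDef_iff.1 k), ← intervalIntegral.integral_const_mul,
    ← intervalIntegral.integral_const_mul,
    ← intervalIntegral.integral_add (i₀.const_mul a) (i₁.const_mul b)]
  refine integral_mono_Ioo ((i₀.const_mul a).add (i₁.const_mul b))
    (gTh_integrable (s.posDef_iff.1 k)) fun θ hθ => ?_
  obtain ⟨Y, hY, e, le⟩ := gTh_inf (B := B) s (s.posDef_iff.1 k) hθ.1 hθ.2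
  have l₀ := mul_le_mul_of_nonneg_left (le _ V₀ c₀ s₀ (s₀.posDef_iff.1 k₀)) ha
  have l₁ := mul_le_mul_of_nonneg_left (le _ V₁ c₁ s₁ (s₁.posDef_iff.1 k₁)) hb
  obtain ⟨M, N, eN, hM⟩ := inv_majorant hB hQ ht hv
  have m₀ := mul_le_mul_of_nonneg_left (trR_mul_mono (hM Q₀ h₀) hY) ha
  have m₁ := mul_le_mul_of_nonneg_left (trR_mul_mono (hM Q₁ h₁) hY) hb
  simp only [cPlus] at e eN l₀ l₁ ⊢
  have lin : trR ((Mᴴ * ((a : ℂ) • Q₀ + (b : ℂ) • Q₁) * M + N) * Y) =
      a * trR ((Mᴴ * Q₀ * M + N) * Y) + b * trR ((Mᴴ * Q₁ * M + N) * Y) := by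
    simp only [Matrix.mul_add, Matrix.add_mul, Matrix.mul_smul, Matrix.smul_mul, trR_add, trR_smul]
    have hN : trR (N * Y) = a * trR (N * Y) + b * trR (N * Y) := by rw [← add_mul, hab, one_mul]
    linarith
  rw [e, eN, lin]
  linarith

/-! ## The potential along `v ↦ v B` -/

/-- The derivative in `v`. -/
noncomputable def psiD (Q B : CMat n) (t v : ℝ) : ℝ :=
  trR (logM (Q - (v : ℂ) • B) * B) + trR (logM (cPlus B t v Q) * B) - trR B * Real.log t

/-- The second derivative in `v`. -/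
noncomputable def psiDD (Q B : CMat n) (t v : ℝ) : ℝ :=
  gDir B (cPlus B t v Q) - gDir B (Q - (v : ℂ) • B)

theorem qMinus_posDef {Q B : CMat n} (hB : B.PosSemidef) (hQ : (Q - B).PosDef) {v : ℝ}
    (hv : v ≤ 1) : (Q - (v : ℂ) • B).PosDef := by
  have := hQ.add_posSemidef (hB.smul (Complex.zero_le_real.2 (sub_nonneg.2 hv)))
  convert this using 1
  push_cast; module

theorem posDef_of_sub {Q B : CMat n} (hB : B.PosSemidef) (hQ : (Q - B).PosDef) : Q.PosDef := by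
  simpa using hQ.add_posSemidef hB

theorem dlogM_neg (A H : CMat n) : dlogM A (-H) = -dlogM A H := by
  ext i j
  simp [dlogM, integral_neg]

section curve

variable {Q B : CMat n} {t v : ℝ}

theorem minus_deriv (hB : B.PosSemidef) (hQ : (Q - B).PosDef) (hv : v ∈ Icc (0 : ℝ) 1) :
    (∀ᶠ w in 𝓝 v, (Q - ((w : ℝ) : ℂ) • B).PosDef) ∧
      MatDerivAt (fun w : ℝ => Q - (w : ℂ) • B) (-B) v := by
  refine ⟨?_, ?_⟩
  · have h := posDef_add_small (qMinus_posDef hB hQ hv.2) hB.1.neg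
    have ht : Tendsto (fun w : ℝ => w - v) (𝓝 v) (𝓝 0) :=
      (continuous_sub_right v).tendsto' v 0 (sub_self v)
    filter_upwards [ht.eventually h] with w hw
    convert hw using 1
    push_cast; module
  · have h := matDerivAt_line Q (-B) v
    simpa only [smul_neg, ← sub_eq_add_neg] using h

theorem plus_deriv (hB : B.PosSemidef) (hQ : Q.PosDef) (ht : 0 < t) (hv : 0 ≤ v) :
    (∀ᶠ w in 𝓝 v, (cPlus B t w Q).PosDef) ∧
      MatDerivAt (fun w : ℝ => cPlus B t w Q) B v := by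
  refine ⟨?_, matDerivAt_line _ B v⟩
  have h := posDef_add_small (cPlus_posDef hB hQ ht hv) hB.1
  have ht' : Tendsto (fun w : ℝ => w - v) (𝓝 v) (𝓝 0) :=
    (continuous_sub_right v).tendsto' v 0 (sub_self v)
  filter_upwards [ht'.eventually h] with w hw
  convert hw using 1
  simp only [cPlus]; push_cast; module

theorem psi_hasDeriv (hB : B.PosSemidef) (hQ : (Q - B).PosDef) (ht : 0 < t)
    (hv : v ∈ Icc (0 : ℝ) 1) :
    HasDerivAt (fun w : ℝ => psiQ Q ((w : ℂ) • B) t) (psiD Q B t v) v := by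
  obtain ⟨p₁, d₁⟩ := minus_deriv hB hQ hv
  obtain ⟨p₂, d₂⟩ := plus_deriv hB (posDef_of_sub hB hQ) ht hv.1
  have a₁ := trEta_deriv p₁ d₁
  have a₂ := trEta_deriv p₂ d₂
  rw [Matrix.mul_neg, show ∀ X : CMat n, trR (-X) = -trR X from fun X => by simp [trR]] at a₁
  have := (((a₁.const_sub (trF eta Q)).sub_const (trF eta ((t : ℂ) • Q⁻¹))).fun_add a₂).fun_sub
    (((hasDerivAt_id v).mul_const (trR B)).mul_const (Real.log t))
  simpa only [psiQ, psiD, trR_smul, cPlus, id, neg_neg, one_mul] using this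

theorem psiD_hasDeriv (hB : B.PosSemidef) (hQ : (Q - B).PosDef) (ht : 0 < t)
    (hv : v ∈ Icc (0 : ℝ) 1) :
    HasDerivAt (fun w : ℝ => psiD Q B t w) (psiDD Q B t v) v := by
  obtain ⟨p₁, d₁⟩ := minus_deriv hB hQ hv
  obtain ⟨p₂, d₂⟩ := plus_deriv hB (posDef_of_sub hB hQ) ht hv.1
  have a₁ := hasDerivAt_trR_mul (logM_deriv p₁ d₁) B
  have a₂ := hasDerivAt_trR_mul (logM_deriv p₂ d₂) B
  rw [dlogM_neg, Matrix.neg_mul,
    show ∀ X : CMat n, trR (-X) = -trR X from fun X => by simp [trR]] at a₁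
  refine ((a₁.fun_add a₂).sub_const (trR B * Real.log t)).congr_deriv ?_
  rw [psiDD, gDir, gDir]
  ring

theorem psiD_zero (hQ : Q.PosDef) (ht : 0 < t) : psiD Q B t 0 = 0 := by
  obtain ⟨V, q, h⟩ := exists_spec hQ.1
  have hq := h.posDef_iff.1 hQ
  have hs := (h.inv fun i => (hq i).ne').smul t
  have h1 : Spec (1 : CMat n) V fun _ => 1 := ⟨h.1, h.2.1, by simp [h.2.1]⟩
  have e : logM Q + logM ((t : ℂ) • Q⁻¹) = ((Real.log t : ℝ) : ℂ) • 1 :=
    (h.logM.add hs.logM).eq (h1.smul (Real.log t)) fun i => by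
      rw [Real.log_mul ht.ne' (inv_ne_zero (hq i).ne'), Real.log_inv]; ring
  have e' : trR (logM Q * B) + trR (logM ((t : ℂ) • Q⁻¹) * B) = Real.log t * trR B := by
    rw [← trR_add, ← Matrix.add_mul, e, Matrix.smul_mul, Matrix.one_mul, trR_smul]
  simp only [psiD, cPlus, Complex.ofReal_zero, zero_smul, sub_zero, add_zero]
  linarith

theorem psiQ_line_zero (Q B : CMat n) (t : ℝ) : psiQ Q (((0 : ℝ) : ℂ) • B) t = 0 := by
  simp [psiQ, trR]

end curve

/-- From a nonnegative second derivative and vanishing data at `0`. -/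
theorem nonneg_of_second {f f' f'' : ℝ → ℝ} (h0 : f 0 = 0) (h0' : f' 0 = 0)
    (hf : ∀ v ∈ Icc (0 : ℝ) 1, HasDerivAt f (f' v) v)
    (hf' : ∀ v ∈ Icc (0 : ℝ) 1, HasDerivAt f' (f'' v) v)
    (hnn : ∀ v ∈ Icc (0 : ℝ) 1, 0 ≤ f'' v) : 0 ≤ f 1 := by
  have m1 : MonotoneOn f' (Icc 0 1) := monotoneOn_of_hasDerivWithinAt_nonneg (convex_Icc _ _)
    (fun v hv => (hf' v hv).continuousAt.continuousWithinAt)
    (fun v hv => (hf' v (interior_subset hv)).hasDerivWithinAt)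
    (fun v hv => hnn v (interior_subset hv))
  have m2 : MonotoneOn f (Icc 0 1) := monotoneOn_of_hasDerivWithinAt_nonneg (convex_Icc _ _)
    (fun v hv => (hf v hv).continuousAt.continuousWithinAt)
    (fun v hv => (hf v (interior_subset hv)).hasDerivWithinAt)
    fun v hv => h0' ▸ m1 (left_mem_Icc.2 zero_le_one) (interior_subset hv) (interior_subset hv).1
  exact h0 ▸ m2 (left_mem_Icc.2 zero_le_one) (right_mem_Icc.2 zero_le_one) zero_le_one

theorem psiQ_mono {B Q₀ Q₁ : CMat n} {t : ℝ} (ht : 0 < t) (hB : B.PosSemidef)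
    (h₀ : (Q₀ - B).PosDef) (hle : (Q₁ - Q₀).PosSemidef) : psiQ Q₀ B t ≤ psiQ Q₁ B t := by
  have h₁ : (Q₁ - B).PosDef := by
    convert h₀.add_posSemidef hle using 1
    abel
  have := nonneg_of_second
    (f := fun v : ℝ => psiQ Q₁ ((v : ℂ) • B) t - psiQ Q₀ ((v : ℂ) • B) t)
    (f' := fun v => psiD Q₁ B t v - psiD Q₀ B t v)
    (f'' := fun v => psiDD Q₁ B t v - psiDD Q₀ B t v)
    (by simp only [psiQ_line_zero, sub_zero])
    (by simp only [psiD_zero (posDef_of_sub hB h₀) ht, psiD_zero (posDef_of_sub hB h₁) ht,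
      sub_zero])
    (fun v hv => (psi_hasDeriv hB h₁ ht hv).fun_sub (psi_hasDeriv hB h₀ ht hv))
    (fun v hv => (psiD_hasDeriv hB h₁ ht hv).fun_sub (psiD_hasDeriv hB h₀ ht hv))
    (fun v hv => ?_)
  · simpa using this
  · have a := gPlus_mono hB (posDef_of_sub hB h₀) ht hv.1 hle
    have b := gDir_antitone (B := B) hB.1 (qMinus_posDef hB h₀ hv.2)
      (C' := Q₁ - (v : ℂ) • B) (by rwa [sub_sub_sub_cancel_right])
    simp only [psiDD]
    linarith

theorem psiQ_concave {B Q₀ Q₁ : CMat n} {t : ℝ} (ht : 0 < t) (hB : B.PosSemidef)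
    (h₀ : (Q₀ - B).PosDef) (h₁ : (Q₁ - B).PosDef) {a b : ℝ} (ha : 0 ≤ a) (hb : 0 ≤ b)
    (hab : a + b = 1) :
    a * psiQ Q₀ B t + b * psiQ Q₁ B t ≤ psiQ ((a : ℂ) • Q₀ + (b : ℂ) • Q₁) B t := by
  have hab' : (a : ℂ) + (b : ℂ) = 1 := by rw [← Complex.ofReal_add, hab, Complex.ofReal_one]
  have em : ∀ X : CMat n, (a : ℂ) • Q₀ + (b : ℂ) • Q₁ - X =
      (a : ℂ) • (Q₀ - X) + (b : ℂ) • (Q₁ - X) := fun X => by
    have hX : (a : ℂ) • X + (b : ℂ) • X = X := by rw [← add_smul, hab', one_smul]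
    conv_lhs => rw [← hX]
    rw [smul_sub, smul_sub]
    abel
  set Qm := (a : ℂ) • Q₀ + (b : ℂ) • Q₁ with hQm
  have hm : (Qm - B).PosDef := by rw [em]; exact posDef_comb h₀ h₁ ha hb hab
  have := nonneg_of_second
    (f := fun v : ℝ => psiQ Qm ((v : ℂ) • B) t -
      (a * psiQ Q₀ ((v : ℂ) • B) t + b * psiQ Q₁ ((v : ℂ) • B) t))
    (f' := fun v => psiD Qm B t v - (a * psiD Q₀ B t v + b * psiD Q₁ B t v))
    (f'' := fun v => psiDD Qm B t v - (a * psiDD Q₀ B t v + b * psiDD Q₁ B t v))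
    (by simp only [psiQ_line_zero, mul_zero, add_zero, sub_zero])
    (by simp only [psiD_zero (posDef_of_sub hB hm) ht, psiD_zero (posDef_of_sub hB h₀) ht,
      psiD_zero (posDef_of_sub hB h₁) ht, mul_zero, add_zero, sub_zero])
    (fun v hv => (psi_hasDeriv hB hm ht hv).fun_sub
      (((psi_hasDeriv hB h₀ ht hv).const_mul a).fun_add ((psi_hasDeriv hB h₁ ht hv).const_mul b)))
    (fun v hv => (psiD_hasDeriv hB hm ht hv).fun_sub
      (((psiD_hasDeriv hB h₀ ht hv).const_mul a).fun_add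
        ((psiD_hasDeriv hB h₁ ht hv).const_mul b)))
    (fun v hv => ?_)
  · simp only [Complex.ofReal_one, one_smul] at this
    linarith
  · have p := gPlus_concave hB (posDef_of_sub hB h₀) (posDef_of_sub hB h₁) ht hv.1 ha hb hab
    have m := gDir_convex (B := B) hB.1 (qMinus_posDef hB h₀ hv.2) (qMinus_posDef hB h₁ hv.2)
      ha hb hab
    rw [← em] at m
    simp only [psiDD]
    linarith

end Vale.Agent.P371.Calib
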