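import Vale.Agent.P371.Calib.KDet
import Vale.Agent.P371.Calib.Concave

/-!
# P371: the trace bound for the matrix of the derivative of the logarithm
-/

namespace Vale.Agent.P371.Calib

open Matrix MeasureTheory Set
open scoped ComplexOrder

variable {n : ℕ}

theorem comm_trace_le {C S : CMat n} (hC : C.PosDef) (hSh : S.IsHermitian) (hCS : C * S = 1)
    (hSC : S * C = 1) (d : Fin n → ℝ) :
    ∑ i, ∑ j, (C i j * S j i).re * (d i - d j) ^ 2 ≤ 0 := by
  set D : CMat n := diagonal fun i => (d i : ℂ) with hD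
  have hDh : D.IsHermitian := by
    rw [hD]; exact isHermitian_diagonal_of_self_adjoint _ (by ext i; simp)
  set Y := D * S - S * D with hY
  have h0 : 0 ≤ (C * Y * C * Yᴴ).trace.re := by
    have hp := (hC.posSemidef.mul_mul_conjTranspose_same Y)
    have := trR_mul_nonneg hC.posSemidef hp
    simpa only [trR, Matrix.mul_assoc] using this
  have e : (C * Y * C * Yᴴ).trace =
      2 * (C * D * S * D).trace - (D * D * (C * S)).trace - (C * D * D * S).trace := by
    have e1 : C * Y * C = C * D - D * C := by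
      rw [hY, Matrix.mul_sub, Matrix.sub_mul]
      simp only [Matrix.mul_assoc, hSC, Matrix.mul_one]
      rw [← Matrix.mul_assoc C S, hCS, Matrix.one_mul]
    have e2 : Yᴴ = S * D - D * S := by
      rw [hY, conjTranspose_sub, conjTranspose_mul, conjTranspose_mul, hSh.eq, hDh.eq]
    rw [e1, e2, Matrix.sub_mul, Matrix.mul_sub, Matrix.mul_sub, Matrix.trace_sub, Matrix.trace_sub,
      Matrix.trace_sub]
    have c1 : (D * C * (D * S)).trace = (C * D * S * D).trace := by
      rw [Matrix.trace_mul_comm (C * D * S) D]; simp only [Matrix.mul_assoc]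
    have c2 : (D * C * (S * D)).trace = (D * D * (C * S)).trace := by
      simp only [hCS, Matrix.mul_one, ← Matrix.mul_assoc]
      rw [Matrix.mul_assoc D C S, hCS, Matrix.mul_one]
    rw [c1, c2]
    simp only [Matrix.mul_assoc]
    ring
  have s : ∀ M : CMat n, M.trace = ∑ i, M i i := fun M => rfl
  have e3 : (C * D * S * D).trace = ∑ i, ∑ j, (d i : ℂ) * d j * (C i j * S j i) := by
    rw [s]
    refine Finset.sum_congr rfl fun i _ => ?_
    rw [hD, mul_diagonal, Matrix.mul_apply, Finset.sum_mul]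
    refine Finset.sum_congr rfl fun j _ => ?_
    rw [mul_diagonal]; ring
  have e4 : (D * D * (C * S)).trace = ∑ i, ∑ j, (d i : ℂ) * d i * (C i j * S j i) := by
    rw [s]
    refine Finset.sum_congr rfl fun i _ => ?_
    rw [hD, diagonal_mul_diagonal, diagonal_mul, Matrix.mul_apply, Finset.mul_sum]
  have e5 : (C * D * D * S).trace = ∑ i, ∑ j, (d j : ℂ) * d j * (C i j * S j i) := by
    rw [s]
    refine Finset.sum_congr rfl fun i _ => ?_
    rw [Matrix.mul_apply]
    refine Finset.sum_congr rfl fun j _ => ?_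
    rw [hD, mul_diagonal, mul_diagonal]; ring
  rw [e, e3, e4, e5, Finset.mul_sum, ← Finset.sum_sub_distrib, ← Finset.sum_sub_distrib,
    Complex.re_sum] at h0
  refine le_trans (le_of_eq ?_) (neg_nonpos.2 h0)
  rw [← Finset.sum_neg_distrib]
  refine Finset.sum_congr rfl fun i _ => ?_
  rw [Finset.mul_sum, ← Finset.sum_sub_distrib, ← Finset.sum_sub_distrib, Complex.re_sum,
    ← Finset.sum_neg_distrib]
  refine Finset.sum_congr rfl fun j _ => ?_
  rw [← Complex.ofReal_mul, ← Complex.ofReal_mul, ← Complex.ofReal_mul, Complex.sub_re,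
    Complex.sub_re, Complex.re_ofReal_mul, Complex.re_ofReal_mul,
    show ((2 : ℂ)) = ((2 : ℝ) : ℂ) by norm_num, Complex.re_ofReal_mul, Complex.re_ofReal_mul]
  ring

theorem half_sum_kernel {a b : ℝ} (ha : 0 < a) (hb : 0 < b) :
    IntegrableOn (fun s : ℝ => s * ((a + s)⁻¹ - (b + s)⁻¹) ^ 2) (Ioi 0) ∧
      ∫ s in Ioi (0 : ℝ), s * ((a + s)⁻¹ - (b + s)⁻¹) ^ 2 =
        (a + b) * (∫ s in Ioi (0 : ℝ), (a + s)⁻¹ * (b + s)⁻¹) - 2 := by
  have e : EqOn (fun s : ℝ => s * ((a + s)⁻¹ - (b + s)⁻¹) ^ 2)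
      (fun s => (a + b) * ((a + s)⁻¹ * (b + s)⁻¹) - a * ((a + s)⁻¹ * (a + s)⁻¹) -
        b * ((b + s)⁻¹ * (b + s)⁻¹)) (Ioi 0) := fun s (hs : 0 < s) => by
    have : a + s ≠ 0 := by positivity
    have : b + s ≠ 0 := by positivity
    field_simp
    ring
  have i1 : IntegrableOn (fun s : ℝ => (a + b) * ((a + s)⁻¹ * (b + s)⁻¹)) (Ioi 0) :=
    (integrableOn_kernel ha hb).const_mul (a + b)
  have i2 : IntegrableOn (fun s : ℝ => a * ((a + s)⁻¹ * (a + s)⁻¹)) (Ioi 0) :=
    (integrableOn_kernel ha ha).const_mul a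
  have i3 : IntegrableOn (fun s : ℝ => b * ((b + s)⁻¹ * (b + s)⁻¹)) (Ioi 0) :=
    (integrableOn_kernel hb hb).const_mul b
  refine ⟨((i1.sub i2).sub i3).congr_fun e.symm measurableSet_Ioi, ?_⟩
  rw [setIntegral_congr_fun measurableSet_Ioi e, integral_sub, integral_sub i1 i2,
    integral_const_mul, integral_const_mul, integral_const_mul, kernel_self ha, kernel_self hb,
    mul_inv_cancel₀ ha.ne', mul_inv_cancel₀ hb.ne']
  · ring
  · exact i1.sub i2
  · exact i3

theorem dlogM_trace_le {A S : CMat n} (hA : A.PosDef) (hS : S.PosDef) :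
    trR (dlogM A S⁻¹ * (A * S + S * A)) ≤ 2 * n := by
  obtain ⟨V, a, h⟩ := exists_spec hA.1
  have ha := h.posDef_iff.1 hA
  set C := S⁻¹ with hC
  set C' := Vᴴ * C * V with hC'
  set S' := Vᴴ * S * V with hS'
  set P' := Vᴴ * dlogM A C * V with hP'
  set L : CMat n := diagonal fun i => (a i : ℂ) with hL
  have hcan : ∀ X Y : CMat n, Vᴴ * X * V * (Vᴴ * Y * V) = Vᴴ * (X * Y) * V := fun X Y => by
    simp only [Matrix.mul_assoc]
    congr 2
    rw [← Matrix.mul_assoc V, h.2.1, Matrix.one_mul]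
  have htr : ∀ X : CMat n, trR (Vᴴ * X * V) = trR X := fun X => by
    rw [trR, trR, Matrix.trace_mul_comm, ← Matrix.mul_assoc, h.2.1, Matrix.one_mul]
  have uS : IsUnit S.det := S.isUnit_iff_isUnit_det.1 hS.isUnit
  have hCS : C' * S' = 1 := by
    rw [hC', hS', hcan, hC, Matrix.nonsing_inv_mul _ uS, Matrix.mul_one, h.1]
  have hSC : S' * C' = 1 := by
    rw [hC', hS', hcan, hC, Matrix.mul_nonsing_inv _ uS, Matrix.mul_one, h.1]
  have e : trR (dlogM A C * (A * S + S * A)) = trR (P' * (L * S' + S' * L)) := by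
    rw [← htr, hL, ← h.conj_self, hS', hcan, hcan, ← Matrix.add_mul, ← Matrix.mul_add, hP', hcan]
  set r : Fin n → ℝ → ℝ := fun i s => (a i + s)⁻¹ with hr
  set z : Fin n → Fin n → ℝ := fun i j => (C' i j * S' j i).re with hz
  have e2 : trR (P' * (L * S' + S' * L)) =
      ∑ i, ∑ j, ((a i + a j) * ∫ s in Ioi (0 : ℝ), r i s * r j s) * z i j := by
    rw [trR, Matrix.trace, Complex.re_sum]
    refine Finset.sum_congr rfl fun i _ => ?_
    rw [diag_apply, Matrix.mul_apply, Complex.re_sum]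
    refine Finset.sum_congr rfl fun j _ => ?_
    rw [hP', dlogM_spec h ha C i j, Matrix.add_apply, hL, diagonal_mul, mul_diagonal]
    have : ∀ k : ℝ, (k : ℂ) * C' i j * ((a j : ℂ) * S' j i + S' j i * (a i : ℂ)) =
        (((a i + a j) * k : ℝ) : ℂ) * (C' i j * S' j i) := fun k => by push_cast; ring
    rw [← hC', this, Complex.re_ofReal_mul]
  have e3 : ∑ i, ∑ j, z i j = (n : ℝ) := by
    have : ((C' * S').trace).re = ∑ i, ∑ j, z i j := by
      rw [Matrix.trace, Complex.re_sum]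
      refine Finset.sum_congr rfl fun i _ => ?_
      rw [diag_apply, Matrix.mul_apply, Complex.re_sum]
    rw [← this, hCS, Matrix.trace_one, Fintype.card_fin, Complex.natCast_re]
  have hi : ∀ i j, IntegrableOn (fun s : ℝ => s * (r i s - r j s) ^ 2 * z i j) (Ioi 0) :=
    fun i j => (half_sum_kernel (ha i) (ha j)).1.mul_const _
  have e4 : ∑ i, ∑ j, ((a i + a j) * (∫ s in Ioi (0 : ℝ), r i s * r j s) - 2) * z i j =
      ∫ s in Ioi (0 : ℝ), ∑ i, ∑ j, s * (r i s - r j s) ^ 2 * z i j := by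
    rw [integral_finsetSum _ fun i _ => integrable_finsetSum _ fun j _ => hi i j]
    refine Finset.sum_congr rfl fun i _ => ?_
    rw [integral_finsetSum _ fun j _ => hi i j]
    refine Finset.sum_congr rfl fun j _ => ?_
    rw [integral_mul_const, (half_sum_kernel (ha i) (ha j)).2]
  have e5 : ∫ s in Ioi (0 : ℝ), ∑ i, ∑ j, s * (r i s - r j s) ^ 2 * z i j ≤ 0 := by
    refine setIntegral_nonpos measurableSet_Ioi fun s (hs : 0 < s) => ?_
    have hh := comm_trace_le (posDef_conj hS.inv h.1)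
      (isHermitian_conjTranspose_mul_mul V hS.1) hCS hSC fun i => r i s
    calc ∑ i, ∑ j, s * (r i s - r j s) ^ 2 * z i j
        = s * ∑ i, ∑ j, z i j * (r i s - r j s) ^ 2 := by
          simp only [Finset.mul_sum]
          exact Finset.sum_congr rfl fun i _ => Finset.sum_congr rfl fun j _ => by ring
      _ ≤ 0 := mul_nonpos_of_nonneg_of_nonpos hs.le hh
  rw [← e4] at e5
  simp only [sub_mul, Finset.sum_sub_distrib, ← Finset.mul_sum, e3] at e5
  rw [e, e2]
  linarith

/-- `tr (K (AB + BA)/2) ≤ n`. -/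
theorem kmat_trace (A B : CMat n) (hA : A.PosDef) (hB : B.PosDef) :
    trR (kmat A B * ((1 / 2 : ℂ) • (A * B + B * A))) ≤ n := by
  have hS : (A + B).PosDef := hA.add hB
  set S := A + B with hSdef
  have hP := dlogM_trace_le hA hS
  have hQ := dlogM_trace_le hB hS
  have tA := (dlogM_posDef hA hS.inv).2.2
  have tB := (dlogM_posDef hB hS.inv).2.2
  have uS : IsUnit S.det := S.isUnit_iff_isUnit_det.1 hS.isUnit
  have cyc : ∀ M X : CMat n, trR (X * M * X) = trR (M * (X * X)) := fun M X => by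
    rw [trR, trR, Matrix.mul_assoc, Matrix.trace_mul_comm, Matrix.mul_assoc]
  rw [cyc] at tA tB
  have hsum : trR (S⁻¹ * A) + trR (S⁻¹ * B) = n := by
    rw [← trR_add, ← Matrix.mul_add, ← hSdef, Matrix.nonsing_inv_mul _ uS]
    simp [trR]
  have eA : A * B + B * A = A * S + S * A - (A * A + A * A) := by
    rw [hSdef, Matrix.mul_add, Matrix.add_mul]; abel
  have eB : A * B + B * A = B * S + S * B - (B * B + B * B) := by
    rw [hSdef, Matrix.mul_add, Matrix.add_mul]; abel
  rw [Matrix.mul_smul, show (1 / 2 : ℂ) = ((1 / 2 : ℝ) : ℂ) by norm_num, trR_smul, kmat, ← hSdef,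
    Matrix.add_mul, trR_add]
  nth_rewrite 1 [eA]
  rw [eB, Matrix.mul_sub, Matrix.mul_sub, trR_sub, trR_sub, Matrix.mul_add (dlogM A S⁻¹) (A * A),
    Matrix.mul_add (dlogM B S⁻¹) (B * B), trR_add, trR_add, tA, tB]
  linarith

end Vale.Agent.P371.Calib
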