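import Mathlib

/-!
# The Golden–Thompson trace inequality
-/

namespace Vale.Agent.P371.Calib

open Matrix NormedSpace Filter Topology
open scoped Matrix.Norms.Operator

variable {n : Type*} [Fintype n] [DecidableEq n]

theorem norm_trace_mul_le (X Y : Matrix n n ℂ) :
    ‖trace (X * Y)‖ ≤ ((trace (Xᴴ * X)).re + (trace (Y * Yᴴ)).re) / 2 := by
  have h1 : (trace (Xᴴ * X)).re = ∑ i, ∑ k, ‖X i k‖ ^ 2 := by
    rw [Finset.sum_comm]
    simp [trace, mul_apply, Complex.sq_norm, Complex.normSq_apply]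
  have h2 : (trace (Y * Yᴴ)).re = ∑ i, ∑ k, ‖Y k i‖ ^ 2 := by
    rw [Finset.sum_comm]
    simp [trace, mul_apply, Complex.sq_norm, Complex.normSq_apply]
  rw [h1, h2, ← Finset.sum_add_distrib, Finset.sum_div]
  simp only [trace, diag_apply, mul_apply]
  refine (norm_sum_le _ _).trans (Finset.sum_le_sum fun i _ => ?_)
  refine (norm_sum_le _ _).trans ?_
  rw [← Finset.sum_add_distrib, Finset.sum_div]
  refine Finset.sum_le_sum fun k _ => ?_
  rw [norm_mul]
  nlinarith [sq_nonneg (‖X i k‖ - ‖Y k i‖)]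

theorem trace_pow_cyclic (A B : Matrix n n ℂ) (k : ℕ) :
    trace ((A * B) ^ k) = trace ((B * A) ^ k) := by
  rcases k with _ | k
  · simp
  · rw [pow_succ, ← mul_assoc, trace_mul_comm, ← mul_assoc, ← mul_pow_mul, mul_assoc, ← pow_succ]

/-- Power-of-two trace inequalities: `|tr M^(2q)| ≤ tr (M* M)^q` and, for Hermitian `P`, `Q`,
`|tr (PQ)^q| ≤ |tr P^q Q^q|`, `q = 2^j`. -/
theorem trace_power_two (j : ℕ) :
    (∀ M : Matrix n n ℂ, ‖trace (M ^ 2 ^ (j + 1))‖ ≤ (trace ((Mᴴ * M) ^ 2 ^ j)).re) ∧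
    ∀ P Q : Matrix n n ℂ, P.IsHermitian → Q.IsHermitian →
      ‖trace ((P * Q) ^ 2 ^ j)‖ ≤ ‖trace (P ^ 2 ^ j * Q ^ 2 ^ j)‖ := by
  induction j with
  | zero =>
    refine ⟨fun M => ?_, fun P Q _ _ => by simp⟩
    rw [show (2 : ℕ) ^ (0 + 1) = 2 from rfl, pow_zero, pow_one, pow_two]
    have h := norm_trace_mul_le M M
    rw [trace_mul_comm M Mᴴ] at h
    linarith
  | succ j ih =>
    obtain ⟨ihM, ihG⟩ := ih
    have hG : ∀ P Q : Matrix n n ℂ, P.IsHermitian → Q.IsHermitian →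
        ‖trace ((P * Q) ^ 2 ^ (j + 1))‖ ≤ ‖trace (P ^ 2 ^ (j + 1) * Q ^ 2 ^ (j + 1))‖ := by
      intro P Q hP hQ
      have h1 := ihM (P * Q)
      have h2 := ihG (P ^ 2) (Q ^ 2) (hP.pow 2) (hQ.pow 2)
      have e : trace (((P * Q)ᴴ * (P * Q)) ^ 2 ^ j) = trace ((P ^ 2 * Q ^ 2) ^ 2 ^ j) := by
        rw [conjTranspose_mul, hP.eq, hQ.eq, pow_two, pow_two, mul_assoc Q P, ← mul_assoc P P Q,
          trace_pow_cyclic Q, mul_assoc (P * P) Q Q]
      rw [e] at h1
      rw [show 2 ^ (j + 1) = 2 * 2 ^ j from pow_succ' 2 j] at h1 ⊢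
      rw [pow_mul P, pow_mul Q]
      exact h1.trans ((Complex.re_le_norm _).trans h2)
    refine ⟨fun M => ?_, hG⟩
    set P := Mᴴ * M with hP0
    set Q := M * Mᴴ with hQ0
    have hP : P.IsHermitian := isHermitian_conjTranspose_mul_self M
    have hQ : Q.IsHermitian := isHermitian_mul_conjTranspose_self M
    have h1 : ‖trace (M ^ 2 ^ (j + 1 + 1))‖ ≤ (trace (((M * M)ᴴ * (M * M)) ^ 2 ^ j)).re := by
      rw [show 2 ^ (j + 1 + 1) = 2 * 2 ^ (j + 1) from pow_succ' 2 (j + 1), pow_mul, pow_two]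
      exact ihM (M * M)
    have e : trace (((M * M)ᴴ * (M * M)) ^ 2 ^ j) = trace ((P * Q) ^ 2 ^ j) := by
      rw [conjTranspose_mul, hP0, hQ0, mul_assoc Mᴴ Mᴴ, ← mul_assoc Mᴴ M M,
        trace_pow_cyclic Mᴴ, mul_assoc (Mᴴ * M) M Mᴴ]
    rw [e] at h1
    refine h1.trans ((Complex.re_le_norm _).trans ((ihG P Q hP hQ).trans ?_))
    refine (norm_trace_mul_le _ _).trans (le_of_eq ?_)
    rw [(hP.pow _).eq, (hQ.pow _).eq, ← pow_add, ← pow_add,
      show 2 ^ j + 2 ^ j = 2 ^ (j + 1) by ring, hQ0, trace_pow_cyclic M Mᴴ]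
    ring

theorem norm_pow_sub_pow_le {R : Type*} [NormedRing R] (a b : R) {K : ℝ} (hK : 1 ≤ K)
    (ha : ‖a‖ ≤ K) (hb : ‖b‖ ≤ K) (k : ℕ) :
    ‖a ^ k - b ^ k‖ ≤ k * K ^ k * ‖a - b‖ := by
  have hK0 : 0 ≤ K := by linarith
  induction k with
  | zero => simp
  | succ k ih =>
    have e : a ^ (k + 1) - b ^ (k + 1) = a * (a ^ k - b ^ k) + (a - b) * b ^ k := by
      rw [pow_succ', pow_succ']
      noncomm_ring
    rw [e]
    refine (norm_add_le _ _).trans ?_
    have h1 : ‖a * (a ^ k - b ^ k)‖ ≤ K * (k * K ^ k * ‖a - b‖) :=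
      (norm_mul_le _ _).trans (mul_le_mul ha ih (norm_nonneg _) hK0)
    have h2 : ‖(a - b) * b ^ k‖ ≤ K ^ (k + 1) * ‖a - b‖ := by
      rcases k.eq_zero_or_pos with rfl | hk
      · simpa using le_mul_of_one_le_left (norm_nonneg (a - b)) hK
      · rw [mul_comm (K ^ (k + 1))]
        refine (norm_mul_le _ _).trans (mul_le_mul_of_nonneg_left ?_ (norm_nonneg _))
        exact ((norm_pow_le' b hk).trans (pow_le_pow_left₀ (norm_nonneg _) hb k)).trans
          (pow_le_pow_right₀ hK (Nat.le_succ k))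
    push_cast
    rw [pow_succ] at h2 ⊢
    linarith

/-- The Lie product formula along powers of two. -/
theorem lie_product {𝔸 : Type*} [NormedRing 𝔸] [NormedAlgebra ℂ 𝔸] [CompleteSpace 𝔸]
    [NormOneClass 𝔸] (A B : 𝔸) :
    Tendsto (fun j : ℕ => (exp (((2 : ℂ) ^ j)⁻¹ • A) * exp (((2 : ℂ) ^ j)⁻¹ • B)) ^ 2 ^ j)
      atTop (𝓝 (exp (A + B))) := by
  letI : NormedAlgebra ℚ 𝔸 := NormedAlgebra.restrictScalars ℚ ℂ 𝔸
  have hf : HasDerivAt (fun t : ℂ => exp (t • A) * exp (t • B)) (A + B) 0 := by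
    simpa using (hasDerivAt_exp_smul_const A (0 : ℂ)).fun_mul (hasDerivAt_exp_smul_const B (0 : ℂ))
  have hg : HasDerivAt (fun t : ℂ => exp (t • (A + B))) (A + B) 0 := by
    simpa using hasDerivAt_exp_smul_const (A + B) (0 : ℂ)
  set a : ℂ → 𝔸 := fun t => exp (t • A) * exp (t • B) with ha
  set b : ℂ → 𝔸 := fun t => exp (t • (A + B)) with hb
  set u : ℕ → ℂ := fun j => ((2 : ℂ) ^ j)⁻¹ with hu
  have hun : ∀ j : ℕ, ‖u j‖ = ((2 : ℝ) ^ j)⁻¹ := fun j => by simp [hu]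
  have hu0 : Tendsto u atTop (𝓝 0) := by
    rw [tendsto_zero_iff_norm_tendsto_zero]
    simp only [hun]
    exact tendsto_inv_atTop_zero.comp (tendsto_pow_atTop_atTop_of_one_lt one_lt_two)
  set C : ℝ := ‖A + B‖ + 1 with hC
  have hC0 : 0 < C := by positivity
  have hab : ∀ δ > 0, ∀ᶠ j in atTop,
      ‖a (u j)‖ ≤ 1 + C * ‖u j‖ ∧ ‖b (u j)‖ ≤ 1 + C * ‖u j‖ ∧ ‖a (u j) - b (u j)‖ ≤ δ * ‖u j‖ := by
    intro δ hδ
    have key : ∀ f : ℂ → 𝔸, f 0 = 1 → HasDerivAt f (A + B) 0 → ∀ η > 0,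
        ∀ᶠ j in atTop, ‖f (u j) - 1 - u j • (A + B)‖ ≤ η * ‖u j‖ := by
      intro f hf0 hf η hη
      have := (hasDerivAt_iff_isLittleO.1 hf).def hη
      simp only [sub_zero, hf0] at this
      exact hu0.eventually this
    filter_upwards [key a (by simp [ha]) hf (min (δ / 2) 1) (by positivity),
      key b (by simp [hb]) hg (min (δ / 2) 1) (by positivity)] with j h1 h2
    have bound : ∀ x : 𝔸, ‖x - 1 - u j • (A + B)‖ ≤ min (δ / 2) 1 * ‖u j‖ →
        ‖x‖ ≤ 1 + C * ‖u j‖ := by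
      intro x hx
      have e : x = (x - 1 - u j • (A + B)) + 1 + u j • (A + B) := by abel
      have h3 : ‖x‖ ≤ ‖x - 1 - u j • (A + B)‖ + ‖(1 : 𝔸)‖ + ‖u j • (A + B)‖ :=
        (congrArg norm e).le.trans (norm_add₃_le)
      rw [norm_smul, norm_one] at h3
      have : min (δ / 2) 1 * ‖u j‖ ≤ 1 * ‖u j‖ :=
        mul_le_mul_of_nonneg_right (min_le_right _ _) (norm_nonneg _)
      rw [hC]
      linarith
    refine ⟨bound _ h1, bound _ h2, ?_⟩
    have e : a (u j) - b (u j) =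
        (a (u j) - 1 - u j • (A + B)) - (b (u j) - 1 - u j • (A + B)) := by abel
    rw [e]
    refine (norm_sub_le _ _).trans ?_
    have : min (δ / 2) 1 * ‖u j‖ ≤ δ / 2 * ‖u j‖ :=
      mul_le_mul_of_nonneg_right (min_le_left _ _) (norm_nonneg _)
    linarith
  have hbpow : ∀ j : ℕ, b (u j) ^ 2 ^ j = exp (A + B) := fun j => by
    simp only [hb, hu]
    rw [← NormedSpace.exp_nsmul, ← Nat.cast_smul_eq_nsmul ℂ, smul_smul]
    simp
  rw [tendsto_iff_norm_sub_tendsto_zero, Metric.tendsto_nhds]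
  intro δ hδ
  filter_upwards [hab (δ / 2 / Real.exp C) (by positivity)] with j ⟨h1, h2, h3⟩
  rw [dist_zero_right, norm_norm]
  change ‖a (u j) ^ 2 ^ j - exp (A + B)‖ < δ
  rw [← hbpow j]
  have hK : 1 ≤ 1 + C * ‖u j‖ := le_add_of_nonneg_right (by positivity)
  have hp : (0 : ℝ) < 2 ^ j := by positivity
  have hKp : (1 + C * ‖u j‖) ^ 2 ^ j ≤ Real.exp C := by
    refine (pow_le_pow_left₀ (by positivity) (Real.add_one_le_exp (C * ‖u j‖) |>.trans'
      (le_of_eq (add_comm _ _))) _).trans (le_of_eq ?_)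
    rw [← Real.exp_nat_mul, hun]
    congr 1
    push_cast
    field_simp
  refine lt_of_le_of_lt ((norm_pow_sub_pow_le _ _ hK h1 h2 _).trans ?_) (half_lt_self hδ)
  calc ((2 ^ j : ℕ) : ℝ) * (1 + C * ‖u j‖) ^ 2 ^ j * ‖a (u j) - b (u j)‖
      ≤ ((2 ^ j : ℕ) : ℝ) * Real.exp C * (δ / 2 / Real.exp C * ‖u j‖) := by gcongr
    _ = δ / 2 := by
        rw [hun]
        push_cast
        field_simp

/-- Golden–Thompson: `tr exp (A + B) ≤ tr (exp A exp B)` for Hermitian matrices. -/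
theorem golden_thompson {A B : Matrix n n ℂ} (hA : A.IsHermitian) (hB : B.IsHermitian) :
    (trace (exp (A + B))).re ≤ (trace (exp A * exp B)).re := by
  rcases isEmpty_or_nonempty n with h | h
  · simp [trace]
  have hherm : ∀ (X : Matrix n n ℂ) (t : ℝ), X.IsHermitian → ((t : ℂ) • X).IsHermitian :=
    fun X t hX => hX.smul (by simp [IsSelfAdjoint, Complex.conj_ofReal])
  have hexp : ∀ X : Matrix n n ℂ, ∀ j : ℕ, exp (((2 : ℂ) ^ j)⁻¹ • X) ^ 2 ^ j = exp X := by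
    intro X j
    rw [← Matrix.exp_nsmul, ← Nat.cast_smul_eq_nsmul ℂ, smul_smul]
    simp
  have hpos : ‖trace (exp A * exp B)‖ = (trace (exp A * exp B)).re := by
    have e : ∀ X : Matrix n n ℂ, X.IsHermitian →
        ∃ S : Matrix n n ℂ, S.IsHermitian ∧ S * S = exp X := by
      intro X hX
      refine ⟨exp (((2 : ℂ) ^ 1)⁻¹ • X), ?_, ?_⟩
      · have h2 : ((2 : ℂ) ^ 1)⁻¹ = ((2⁻¹ : ℝ) : ℂ) := by simp
        rw [h2]
        exact (hherm X _ hX).exp
      · have := hexp X 1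
        simpa [pow_two] using this
    obtain ⟨S, hS, hSA⟩ := e A hA
    obtain ⟨T, hT, hTB⟩ := e B hB
    have e1 : trace (exp A * exp B) = trace ((S * T)ᴴ * (S * T)) := by
      rw [← hSA, ← hTB, conjTranspose_mul, hS.eq, hT.eq, ← mul_assoc (S * S) T T,
        trace_mul_comm, mul_assoc T S (S * T), ← mul_assoc S S T]
    have e2 : trace ((S * T)ᴴ * (S * T)) = ((∑ i, ∑ k, ‖(S * T) k i‖ ^ 2 : ℝ) : ℂ) := by
      generalize S * T = Z
      simp [trace, mul_apply, Complex.mul_conj', mul_comm]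
    rw [e1, e2, Complex.norm_real, Complex.ofReal_re, Real.norm_of_nonneg (by positivity)]
  refine le_of_tendsto (((Complex.continuous_re.comp
    (continuous_id.matrix_trace)).tendsto _).comp (lie_product A B))
    (Eventually.of_forall fun j => ?_)
  have hj : ((2 : ℂ) ^ j)⁻¹ = (((2 : ℝ) ^ j)⁻¹ : ℝ) := by simp
  have h1 := (trace_power_two (n := n) j).2 (exp (((2 : ℂ) ^ j)⁻¹ • A))
    (exp (((2 : ℂ) ^ j)⁻¹ • B)) (by rw [hj]; exact (hherm A _ hA).exp)
    (by rw [hj]; exact (hherm B _ hB).exp)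
  rw [hexp, hexp, hpos] at h1
  exact (Complex.re_le_norm _).trans h1

end Vale.Agent.P371.Calib

namespace Vale.Agent.P371.Calib

open Matrix NormedSpace

variable {n : Type*} [Fintype n] [DecidableEq n]

theorem exists_diagonal {L : Matrix n n ℂ} (hL : L.IsHermitian) :
    ∃ (U : Matrix n n ℂ) (x : n → ℝ), Uᴴ * U = 1 ∧ U * Uᴴ = 1 ∧
      L = U * diagonal (fun i => (x i : ℂ)) * Uᴴ ∧
      exp L = U * diagonal (fun i => (Real.exp (x i) : ℂ)) * Uᴴ := by
  set U : Matrix n n ℂ := ↑hL.eigenvectorUnitary with hU0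
  have h1 : Uᴴ * U = 1 := Unitary.coe_star_mul_self hL.eigenvectorUnitary
  have h2 : U * Uᴴ = 1 := Unitary.coe_mul_star_self hL.eigenvectorUnitary
  have e : L = U * diagonal (fun i => (hL.eigenvalues i : ℂ)) * Uᴴ := by
    conv_lhs => rw [hL.spectral_theorem]
    rw [Unitary.conjStarAlgAut_apply]
    rfl
  refine ⟨U, hL.eigenvalues, h1, h2, e, ?_⟩
  have hu : IsUnit U := IsUnit.of_mul_eq_one _ h2
  have hinv : U⁻¹ = Uᴴ := inv_eq_left_inv h1
  conv_lhs => rw [e, ← hinv, exp_conj U _ hu, exp_diagonal, hinv]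
  congr 3
  funext i
  simp [Pi.coe_exp, Complex.ofReal_exp, Complex.exp_eq_exp_ℂ]

theorem trace_conj_diagonal {U : Matrix n n ℂ} (hU : Uᴴ * U = 1) (f : n → ℝ) :
    (trace (U * diagonal (fun i => (f i : ℂ)) * Uᴴ)).re = ∑ i, f i := by
  rw [trace_mul_comm, ← mul_assoc, hU, one_mul]
  simp [trace]

theorem trace_conj_conj {U V : Matrix n n ℂ} (f g : n → ℝ) :
    (trace ((U * diagonal (fun i => (f i : ℂ)) * Uᴴ) * (V * diagonal (fun i => (g i : ℂ)) * Vᴴ))).re =
      ∑ k, ∑ l, f k * g l * ‖(Uᴴ * V) k l‖ ^ 2 := by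
  have e : trace ((U * diagonal (fun i => (f i : ℂ)) * Uᴴ) * (V * diagonal (fun i => (g i : ℂ)) * Vᴴ)) =
      trace (diagonal (fun i => (f i : ℂ)) * ((Uᴴ * V) * diagonal (fun i => (g i : ℂ)) * (Uᴴ * V)ᴴ)) := by
    rw [conjTranspose_mul, conjTranspose_conjTranspose]
    simp only [mul_assoc]
    rw [trace_mul_comm]
    simp only [mul_assoc]
  rw [e]
  generalize Uᴴ * V = W
  simp only [trace, diag_apply, diagonal_mul, Complex.re_sum, mul_apply (M := W * _),
    mul_diagonal, conjTranspose_apply, Finset.mul_sum]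
  refine Finset.sum_congr rfl fun k _ => Finset.sum_congr rfl fun l _ => ?_
  rw [Complex.sq_norm, Complex.normSq_apply]
  simp
  ring

theorem sum_norm_sq_row {W : Matrix n n ℂ} (h : W * Wᴴ = 1) (k : n) : ∑ l, ‖W k l‖ ^ 2 = 1 := by
  have := congrArg Complex.re (congrFun (congrFun h k) k)
  simpa [mul_apply, Complex.sq_norm, Complex.normSq_apply] using this

theorem sum_norm_sq_col {W : Matrix n n ℂ} (h : Wᴴ * W = 1) (l : n) : ∑ k, ‖W k l‖ ^ 2 = 1 := by
  have := congrArg Complex.re (congrFun (congrFun h l) l)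
  simpa [mul_apply, Complex.sq_norm, Complex.normSq_apply] using this

/-- Gibbs / Klein: `tr X (log X - H) ≥ tr X - tr exp H`. -/
theorem klein {LX H : Matrix n n ℂ} (hX : LX.IsHermitian) (hH : H.IsHermitian) :
    (trace (exp LX)).re - (trace (exp H)).re ≤ (trace (exp LX * (LX - H))).re := by
  obtain ⟨U, x, hU, hU', eX, eX'⟩ := exists_diagonal hX
  obtain ⟨V, h, hV, hV', eH, eH'⟩ := exists_diagonal hH
  have hW : (Uᴴ * V) * (Uᴴ * V)ᴴ = 1 := by
    rw [conjTranspose_mul, conjTranspose_conjTranspose, mul_assoc, ← mul_assoc V, hV', one_mul, hU]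
  have hW' : (Uᴴ * V)ᴴ * (Uᴴ * V) = 1 := by
    rw [conjTranspose_mul, conjTranspose_conjTranspose, mul_assoc, ← mul_assoc U, hU', one_mul, hV]
  have e1 : (trace (exp LX * LX)).re = ∑ i, Real.exp (x i) * x i := by
    rw [eX', eX]
    rw [mul_assoc, ← mul_assoc Uᴴ, ← mul_assoc Uᴴ, hU, one_mul, ← mul_assoc, mul_assoc U,
      diagonal_mul_diagonal]
    simpa [Complex.ofReal_exp] using trace_conj_diagonal hU fun i => Real.exp (x i) * x i
  have e2 : (trace (exp LX * H)).re = ∑ k, ∑ l, Real.exp (x k) * h l * ‖(Uᴴ * V) k l‖ ^ 2 := by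
    rw [eX', eH]
    exact trace_conj_conj _ _
  rw [mul_sub, trace_sub, Complex.sub_re, e1, e2, eX', eH', trace_conj_diagonal hU,
    trace_conj_diagonal hV]
  have key : 0 ≤ ∑ k, ∑ l, ‖(Uᴴ * V) k l‖ ^ 2 *
      (Real.exp (x k) * x k - Real.exp (x k) * h l - Real.exp (x k) + Real.exp (h l)) := by
    refine Finset.sum_nonneg fun k _ => Finset.sum_nonneg fun l _ => mul_nonneg (sq_nonneg _) ?_
    have h1 := mul_le_mul_of_nonneg_left (Real.add_one_le_exp (h l - x k)) (Real.exp_pos (x k)).le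
    rw [← Real.exp_add, add_sub_cancel] at h1
    linarith
  have e3 : ∀ a : n → ℝ, ∑ k, ∑ l, ‖(Uᴴ * V) k l‖ ^ 2 * a k = ∑ k, a k := fun a => by
    refine Finset.sum_congr rfl fun k _ => ?_
    rw [← Finset.sum_mul, sum_norm_sq_row hW, one_mul]
  have e4 : ∑ k, ∑ l, ‖(Uᴴ * V) k l‖ ^ 2 * Real.exp (h l) = ∑ l, Real.exp (h l) := by
    rw [Finset.sum_comm]
    refine Finset.sum_congr rfl fun l _ => ?_
    rw [← Finset.sum_mul, sum_norm_sq_col hW', one_mul]
  simp only [mul_add, mul_sub, Finset.sum_add_distrib, Finset.sum_sub_distrib, e3, e4] at key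
  have e5 : ∀ k l, ‖(Uᴴ * V) k l‖ ^ 2 * (Real.exp (x k) * h l) =
      Real.exp (x k) * h l * ‖(Uᴴ * V) k l‖ ^ 2 := fun k l => mul_comm _ _
  simp only [e5] at key
  linarith

/-- The log-form trace inequality `tr X (log X - log A - log B) ≥ tr X - tr (A B)`, stated with
the logarithms as data. -/
theorem trace_log_ineq {LX LA LB : Matrix n n ℂ} (hX : LX.IsHermitian) (hA : LA.IsHermitian)
    (hB : LB.IsHermitian) :
    (trace (exp LX)).re - (trace (exp LA * exp LB)).re ≤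
      (trace (exp LX * (LX - LA - LB))).re := by
  have h1 := klein hX (hA.add hB)
  have h2 := golden_thompson hA hB
  rw [sub_sub]
  linarith

section PosDef

open scoped MatrixOrder Matrix.Norms.L2Operator ComplexOrder

/-- The same with `CFC.log` of positive definite matrices. -/
theorem trace_log_ineq_posDef {X A B : Matrix n n ℂ} (hX : X.PosDef) (hA : A.PosDef)
    (hB : B.PosDef) :
    (trace X).re - (trace (A * B)).re ≤
      (trace (X * (CFC.log X - CFC.log A - CFC.log B))).re := by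
  have hs : ∀ {M : Matrix n n ℂ}, (CFC.log M).IsHermitian := fun {M} => IsSelfAdjoint.log
  have h := trace_log_ineq (hs (M := X)) (hs (M := A)) (hs (M := B))
  rwa [CFC.exp_log X hX.isStrictlyPositive, CFC.exp_log A hA.isStrictlyPositive,
    CFC.exp_log B hB.isStrictlyPositive] at h

end PosDef

end Vale.Agent.P371.Calib
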