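import Vale.Agent.P371.Calib.Defs
import Vale.Agent.P371.Calib.GoldenThompson

/-!
# P371: the log-form trace inequality `tr X (log X - log A - log B) ≥ tr X - tr (A B)`
-/

namespace Vale.Agent.P371.Calib

open Matrix
open scoped ComplexOrder MatrixOrder Matrix.Norms.L2Operator

/-- The statement `pinch_log` of the calibration note. -/
theorem pinch_log {n : ℕ} (X A B : CMat n) (hX : X.PosDef) (hA : A.PosDef) (hB : B.PosDef) :
    trR X - trR (A * B) ≤ trR (X * (logM X - logM A - logM B)) :=
  trace_log_ineq_posDef hX hA hB

end Vale.Agent.P371.Calib
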