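import Vale.Agent.P371.Calib.KDet
import Vale.Agent.P371.Calib.Pinch

/-!
# P371: the inequality at a fixed `t`
-/

namespace Vale.Agent.P371.Calib

open Matrix MeasureTheory Set Filter
open scoped ComplexOrder Topology

variable {n : ℕ}

theorem trR_logM {A : CMat n} (hA : A.PosDef) : trR (logM A) = Real.log A.det.re := by
  obtain ⟨V, a, h⟩ := exists_spec hA.1
  rw [h.logM.trR_eq, h.det_re, Real.log_prod fun i _ => (h.posDef_iff.1 hA i).ne']

/-- `n + log det K + log det X ≤ tr (X K)`. -/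
theorem log_det_le_trR {X K : CMat n} (hX : X.PosDef) (hK : K.PosDef) :
    (n : ℝ) + Real.log K.det.re + trR (logM X) ≤ trR (X * K) := by
  obtain ⟨hR, hRR⟩ := sqrtM_facts X hX.posSemidef
  set R := sqrtM X with hR0
  have hRu : IsUnit R := isUnit_of_mul_isUnit_left (y := R) (by rw [hRR]; exact hX.isUnit)
  have hM : (Rᴴ * K * R).PosDef :=
    hK.conjTranspose_mul_mul_same (Matrix.mulVec_injective_of_isUnit hRu)
  obtain ⟨W, m, hW⟩ := exists_spec hM.1
  have hm := hW.posDef_iff.1 hM
  have h1 : ∑ i, Real.log (m i) ≤ ∑ i, (m i - 1) :=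
    Finset.sum_le_sum fun i _ => Real.log_le_sub_one_of_pos (hm i)
  rw [← Real.log_prod fun i _ => (hm i).ne', ← hW.det_re, Finset.sum_sub_distrib, ← hW.trR_eq,
    hR.1.eq] at h1
  have e1 : (R * K * R).det = X.det * K.det := by rw [det_mul, det_mul, ← hRR, det_mul]; ring
  have e2 : trR (R * K * R) = trR (X * K) := by rw [trR_mul_comm, ← Matrix.mul_assoc, hRR]
  rw [e1, e2, Complex.mul_re, det_im hX.1, zero_mul, sub_zero,
    Real.log_mul (det_re_pos hX).ne' (det_re_pos hK).ne', ← trR_logM hX] at h1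
  simp only [Finset.sum_const, Finset.card_univ, Fintype.card_fin, nsmul_eq_mul, mul_one] at h1
  linarith

/-- The per-`t` inequality, from the trace bound on `kmat`. -/
theorem per_t_of_trace
    (hk : ∀ {n : ℕ} (A B : CMat n), A.PosDef → B.PosDef →
      trR (kmat A B * ((1 / 2 : ℂ) • (A * B + B * A))) ≤ n)
    (A B W : CMat n) (t : ℝ) (ht : 0 < t) (hA : A.PosDef) (hB : B.PosDef) (hW : W.PosSemidef) :
    trR ((logM A + logM B - (Real.log t : ℂ) • 1 + (1 - (t : ℂ) • kmat A B)) * W) -
        trF (fun w => w * Real.log (1 + w / t)) W ≤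
      trR ((1 - (t : ℂ) • kmat A B) * ((1 / 2 : ℂ) • (A * B + B * A) - (t : ℂ) • 1)) := by
  obtain ⟨hK, hKdet⟩ := kmat_det A B hA hB
  have hkn := hk A B hA hB
  obtain ⟨V, w, hs⟩ := exists_spec hW.1
  have hw := hs.posSemidef_iff.1 hW
  have hsX := hs.add_smul_one t
  set X := W + (t : ℂ) • (1 : CMat n) with hX
  have hXp : X.PosDef := hsX.posDef_iff.2 fun i => by linarith [hw i]
  have h1 := pinch_log X A B hXp hA hB
  have h2 := log_det_le_trR hXp hK
  have h3 : 0 ≤ Real.log (kmat A B).det.re + trR (logM A) + trR (logM B) := by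
    rw [trR_logM hA, trR_logM hB, ← Real.log_mul (det_re_pos hK).ne' (det_re_pos hA).ne',
      ← Real.log_mul (mul_pos (det_re_pos hK) (det_re_pos hA)).ne' (det_re_pos hB).ne']
    exact Real.log_nonneg hKdet
  have h4 : trF (fun w => w * Real.log (1 + w / t)) W = trR (W * logM X) - Real.log t * trR W := by
    rw [hs.trF_eq, (hs.mul hsX.logM).trR_eq, hs.trR_eq, Finset.mul_sum, ← Finset.sum_sub_distrib]
    refine Finset.sum_congr rfl fun i _ => ?_
    rw [show 1 + w i / t = (w i + t) / t by field_simp; ring,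
      Real.log_div (by linarith [hw i]) ht.ne']
    ring
  rw [h4]
  set K := kmat A B
  set T1 := logM A
  set T2 := logM B
  set LX := logM X
  have hc : ∀ P Q : CMat n, (P * Q).trace = (Q * P).trace := fun P Q => Matrix.trace_mul_comm P Q
  rw [hX] at h1 h2
  simp only [trR, Matrix.add_mul, Matrix.mul_add, Matrix.sub_mul, Matrix.mul_sub, Matrix.smul_mul,
    Matrix.mul_smul, Matrix.one_mul, Matrix.mul_one, Matrix.trace_add, Matrix.trace_sub,
    Matrix.trace_smul, Matrix.trace_one, smul_eq_mul, Complex.add_re, Complex.sub_re,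
    Complex.re_ofReal_mul, Complex.natCast_re, Fintype.card_fin] at h1 h2 h3 hkn ⊢
  norm_num at hkn ⊢
  rw [hc T1 W, hc T2 W, hc K W, hc B A] at *
  nlinarith [mul_le_mul_of_nonneg_left (show (0 : ℝ) ≤
    ((W * K).trace.re + t * K.trace.re) + T1.trace.re + T2.trace.re - LX.trace.re -
      n by linarith) ht.le, mul_le_mul_of_nonneg_left hkn ht.le]

end Vale.Agent.P371.Calib
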