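import Vale.Agent.P371.Calib.ValueOpt
import Vale.Agent.LT.MatCalc

/-!
# P371: the calibration is Lipschitz and grows slowly enough along the flow
-/

namespace Vale.Agent.P371.Calib

open Matrix MeasureTheory Set Filter
open scoped ComplexOrder Topology

variable {n : ℕ} {α ε δ T R₀ : ℝ}

/-! ### Lipschitz bound -/

theorem N1_add_le (X Y : CMat n) : N1 (X + Y) ≤ N1 X + N1 Y := by
  rw [N1, N1, N1, ← Finset.sum_add_distrib]
  refine Finset.sum_le_sum fun i _ => ?_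
  rw [← Finset.sum_add_distrib]
  exact Finset.sum_le_sum fun j _ => norm_add_le _ _

theorem N1_neg (X : CMat n) : N1 (-X) = N1 X := by simp [N1]

theorem N1_le_trR {X : CMat n} (hX : X.PosSemidef) : N1 X ≤ (n : ℝ) ^ 2 * trR X := by
  calc N1 X ≤ ∑ _i : Fin n, ∑ _j : Fin n, trR X :=
        Finset.sum_le_sum fun i _ => Finset.sum_le_sum fun j _ => norm_entry_le_trR hX i j
    _ = _ := by simp; ring

theorem N1_rM_le {L B : CMat n} (hF : Feasible L B) :
    N1 (rM L B) ≤ (n : ℝ) ^ 2 * (√(trR L) * n) + (n : ℝ) ^ 2 * trR B := by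
  have h := trR_mul_sqrtM_le (PosSemidef.one (n := Fin n) (R := ℂ)) hF.1
  rw [Matrix.one_mul, trR_one] at h
  rw [rM, sub_eq_add_neg]
  refine (N1_add_le _ _).trans (add_le_add ?_ (by rw [N1_neg]; exact N1_le_trR hF.2.1))
  exact (N1_le_trR (sqrtM_facts L hF.1).1).trans (mul_le_mul_of_nonneg_left h (sq_nonneg _))

theorem obj_sub_obj (P₀ P₁ G₀ G₁ L B : CMat n) :
    obj α ε P₀ G₀ L B - obj α ε P₁ G₁ L B =
      trR ((P₀ - P₁) * rM L B) - trR (L * (G₀ - G₁)) := by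
  simp only [obj, Matrix.sub_mul, Matrix.mul_sub, trR_sub]
  ring

theorem value_lipschitz (α ε δ T R : ℝ) (hα : 1 / 2 < α) (hα' : α < 1) (hε : 0 < ε)
    (hδ : 0 < δ) :
    ∃ C : ℝ, ∀ P₀ P₁ G₀ G₁ : CMat n, P₀.PosSemidef → P₁.PosSemidef → trR P₀ ≤ R → trR P₁ ≤ R →
      G₀ ∈ box δ T → G₁ ∈ box δ T →
      |value α ε P₀ G₀ - value α ε P₁ G₁| ≤
        C * ∑ i, ∑ j, (‖(P₀ - P₁) i j‖ + ‖(G₀ - G₁) i j‖) := by
  obtain ⟨β, hβ⟩ := exists_isMin (n := n) hα hα' hε hδ R T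
  obtain ⟨K, hK⟩ := isMax_bound (n := n) hα hα' hε hδ R T β
  set C : ℝ := (n : ℝ) ^ 2 * (√(|K|) * n) + (n : ℝ) ^ 2 * |β| + (n : ℝ) ^ 2 * |K|
  have one : ∀ P₀ P₁ G₀ G₁ : CMat n, InPar δ T R P₀ G₀ → InPar δ T R P₁ G₁ →
      value α ε P₀ G₀ - value α ε P₁ G₁ ≤ C * (N1 (P₀ - P₁) + N1 (G₀ - G₁)) := by
    intro P₀ P₁ G₀ G₁ h₀ h₁
    obtain ⟨B₀, hB₀⟩ := (hβ P₀ G₀ h₀).1
    obtain ⟨B, hB⟩ := (hβ P₁ G₁ h₁).1
    have hβB := (hβ P₁ G₁ h₁).2 B hB
    obtain ⟨L, hL⟩ := exists_isMax hα hα' hε hδ h₀ hB.1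
    have e1 : value α ε P₀ G₀ ≤ obj α ε P₀ G₀ L B := by
      rw [value_eq hB₀, ← innerV_eq hL]; exact hB₀.2 B hB.1
    have e2 : obj α ε P₁ G₁ L B ≤ value α ε P₁ G₁ := by
      rw [value_eq hB]; exact le_innerV hα hα' hε hδ h₁ hL.1
    have e3 := obj_sub_obj (α := α) (ε := ε) P₀ P₁ G₀ G₁ L B
    have hLK : trR L ≤ |K| := (hK P₀ G₀ B L h₀ hB.1 hβB hL).trans (le_abs_self K)
    have e4 := (abs_trR_mul_le_N1 (P₀ - P₁) (rM L B))
    have e5 := (abs_trR_mul_le_N1 L (G₀ - G₁))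
    have c1 : N1 (rM L B) ≤ C := by
      refine (N1_rM_le hL.1).trans (le_add_of_le_of_nonneg (add_le_add ?_ ?_) (by positivity))
      · gcongr
      · exact mul_le_mul_of_nonneg_left (hβB.trans (le_abs_self β)) (sq_nonneg _)
    have c2 : N1 L ≤ C :=
      ((N1_le_trR hL.1.1).trans (mul_le_mul_of_nonneg_left hLK (sq_nonneg _))).trans
        (le_add_of_nonneg_left (by positivity))
    have := mul_le_mul_of_nonneg_left c1 (N1_nonneg (P₀ - P₁))
    have := mul_le_mul_of_nonneg_right c2 (N1_nonneg (G₀ - G₁))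
    have := (abs_le.1 e4).2
    have := (abs_le.1 e5).1
    linarith
  refine ⟨C, fun P₀ P₁ G₀ G₁ hP₀ hP₁ r₀ r₁ g₀ g₁ => ?_⟩
  have es : ∑ i, ∑ j, (‖(P₀ - P₁) i j‖ + ‖(G₀ - G₁) i j‖) = N1 (P₀ - P₁) + N1 (G₀ - G₁) := by
    simp only [N1, Finset.sum_add_distrib]
  rw [es, abs_le]
  have h1 := one P₀ P₁ G₀ G₁ ⟨hP₀, r₀, g₀⟩ ⟨hP₁, r₁, g₁⟩
  have h2 := one P₁ P₀ G₁ G₀ ⟨hP₁, r₁, g₁⟩ ⟨hP₀, r₀, g₀⟩
  rw [← N1_neg (P₁ - P₀), neg_sub, ← N1_neg (G₁ - G₀), neg_sub] at h2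
  constructor <;> linarith

/-! ### The first variation at a minimiser -/

theorem feasible_segment {L B₀ B₁ : CMat n} (h₀ : Feasible L B₀) (h₁ : Feasible L B₁) {θ : ℝ}
    (hθ : θ ∈ Icc (0 : ℝ) 1) : Feasible L (B₀ + (θ : ℂ) • (B₁ - B₀)) := by
  have c0 : (0 : ℂ) ≤ ((1 - θ : ℝ) : ℂ) := Complex.zero_le_real.2 (by linarith [hθ.2])
  have c1 : (0 : ℂ) ≤ (θ : ℂ) := Complex.zero_le_real.2 hθ.1
  refine ⟨h₀.1, ?_, ?_⟩
  · rw [show B₀ + (θ : ℂ) • (B₁ - B₀) = ((1 - θ : ℝ) : ℂ) • B₀ + (θ : ℂ) • B₁ by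
      push_cast; module]
    exact (h₀.2.1.smul c0).add (h₁.2.1.smul c1)
  · rw [show (2 : ℂ) • sqrtM L - (B₀ + (θ : ℂ) • (B₁ - B₀)) =
      ((1 - θ : ℝ) : ℂ) • ((2 : ℂ) • sqrtM L - B₀) + (θ : ℂ) • ((2 : ℂ) • sqrtM L - B₁) by
      push_cast; module]
    exact (h₀.2.2.smul c0).add (h₁.2.2.smul c1)

theorem tendsto_segment {ι : Type*} {l : Filter ι} {θ : ι → ℝ} {D : ι → CMat n} (B₀ : CMat n)
    (hθ : ∀ i, θ i ∈ Icc (0 : ℝ) 1) (hD : Tendsto D l (𝓝 0)) :
    Tendsto (fun i => B₀ + (θ i : ℂ) • D i) l (𝓝 B₀) := by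
  have h : Tendsto (fun i => (θ i : ℂ) • D i) l (𝓝 0) := by
    refine tendsto_pi_nhds.2 fun a => tendsto_pi_nhds.2 fun b => ?_
    refine squeeze_zero_norm (a := fun i => ‖D i a b‖) (fun i => ?_) ?_
    · rw [Matrix.smul_apply, smul_eq_mul, norm_mul, Complex.norm_real, Real.norm_eq_abs,
        abs_of_nonneg (hθ i).1]
      exact mul_le_of_le_one_left (norm_nonneg _) (hθ i).2
    · simpa using (tendsto_pi_nhds.1 (tendsto_pi_nhds.1 hD a) b).norm
  simpa using h.const_add B₀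

theorem obj_sub_B (hα : 1 / 2 < α) (hα' : α < 1) {P G L B₀ B₁ : CMat n} (h₀ : Feasible L B₀)
    (h₁ : Feasible L B₁) : ∃ θ ∈ Icc (0 : ℝ) 1, obj α ε P G L B₁ - obj α ε P G L B₀ =
      trR (palM α L (B₀ + (θ : ℂ) • (B₁ - B₀)) * (B₁ - B₀)) - trR (P * (B₁ - B₀)) := by
  obtain ⟨θ, hθ, e⟩ := psiA_mvt hα hα' h₀ h₁
  refine ⟨θ, hθ, ?_⟩
  rw [← e]
  simp only [obj, rM, Matrix.mul_sub, trR_sub]
  ring

theorem tendsto_palM {ι : Type*} {l : Filter ι} (hα : 1 / 2 < α) (hα' : α < 1)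
    {L B : ι → CMat n} {L₀ B₀ : CMat n} (hL : Tendsto L l (𝓝 L₀)) (hB : Tendsto B l (𝓝 B₀))
    (hF : ∀ i, Feasible (L i) (B i)) (hF₀ : Feasible L₀ B₀) :
    Tendsto (fun i => palM α (L i) (B i)) l (𝓝 (palM α L₀ B₀)) := by
  have hm₀ : ((L₀, B₀) : CMat n × CMat n) ∈ {p : CMat n × CMat n | Feasible p.1 p.2} := hF₀
  have hc : ContinuousWithinAt (fun p : CMat n × CMat n => palM α p.1 p.2)
      {p : CMat n × CMat n | Feasible p.1 p.2} (L₀, B₀) := palM_continuousOn (show (0:ℝ) < α by linarith) hα' _ hm₀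
  exact Filter.Tendsto.comp (g := fun p : CMat n × CMat n => palM α p.1 p.2)
    (f := fun i => (L i, B i)) hc
    (tendsto_nhdsWithin_iff.2 ⟨hL.prodMk_nhds hB, Eventually.of_forall hF⟩)

theorem tendsto_step : Tendsto (fun k : ℕ => ((1 / ((k : ℝ) + 1) : ℝ) : ℂ)) atTop (𝓝 0) := by
  simpa [Function.comp_def] using (Complex.continuous_ofReal.tendsto 0).comp
    (tendsto_one_div_add_atTop_nhds_zero_nat (𝕜 := ℝ))

/-- Increasing `B` cannot lower the inner supremum: `palM ≥ P` against positive directions. -/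
theorem var_pos (hα : 1 / 2 < α) (hα' : α < 1) (hε : 0 < ε) (hδ : 0 < δ) {P G B L W : CMat n}
    (hp : InPar δ T R₀ P G) (hB : IsMin α ε P G B) (hL : IsMax α ε P G B L)
    (hW : W.PosSemidef) : trR (P * W) ≤ trR (palM α L B * W) := by
  set h : ℕ → ℝ := fun k => 1 / ((k : ℝ) + 1) with hh
  have hpos : ∀ k, 0 < h k := fun k => by positivity
  set Bk : ℕ → CMat n := fun k => B + (h k : ℂ) • W with hBk
  have hBkp : ∀ k, (Bk k).PosSemidef := fun k =>
    hB.1.add (hW.smul (Complex.zero_le_real.2 (hpos k).le))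
  choose Lk hLk using fun k => exists_isMax hα hα' hε hδ hp (hBkp k)
  have hBlim : Tendsto Bk atTop (𝓝 B) := by
    simpa [hBk, hh] using (tendsto_step.smul_const W).const_add B
  have hLlim := tendsto_isMax hα hα' hε hδ (fun _ => hp) hLk hp tendsto_const_nhds
    tendsto_const_nhds hBlim hL
  have hF : ∀ k, Feasible (Lk k) B := fun k => by
    refine ⟨(hLk k).1.1, hB.1, ?_⟩
    rw [show (2 : ℂ) • sqrtM (Lk k) - B =
      ((2 : ℂ) • sqrtM (Lk k) - Bk k) + (h k : ℂ) • W by simp only [hBk]; module]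
    exact (hLk k).1.2.2.add (hW.smul (Complex.zero_le_real.2 (hpos k).le))
  choose θ hθ hobj using fun k =>
    obj_sub_B (ε := ε) (P := P) (G := G) hα hα' (hF k) (hLk k).1
  have key : ∀ k, trR (P * W) ≤ trR (palM α (Lk k) (B + (θ k : ℂ) • (Bk k - B)) * W) := fun k => by
    have h1 := hB.2 (Bk k) (hBkp k)
    rw [innerV_eq (hLk k)] at h1
    have h2 := le_innerV hα hα' hε hδ hp (hF k)
    have h3 := hobj k
    have e : Bk k - B = (h k : ℂ) • W := by simp [hBk]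
    rw [e] at h3 ⊢
    simp only [Matrix.mul_smul, trR_smul] at h3
    nlinarith [hpos k]
  refine ge_of_tendsto (x := atTop) ?_ (Eventually.of_forall key)
  have hD : Tendsto (fun k => Bk k - B) atTop (𝓝 0) := by simpa using hBlim.sub_const B
  exact (continuous_trR.tendsto _).comp ((tendsto_palM hα hα' hLlim (tendsto_segment B hθ hD)
    (fun k => feasible_segment (hF k) (hLk k).1 (hθ k)) hL.1).mul tendsto_const_nhds)

theorem sub_sq_rM {L B : CMat n} (hL : L.PosSemidef) :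
    L - rM L B * rM L B =
      (1 / 2 : ℂ) • (((2 : ℂ) • sqrtM L - B) * B + B * ((2 : ℂ) • sqrtM L - B)) := by
  conv_lhs => arg 1; rw [← (sqrtM_facts L hL).2]
  simp only [rM, Matrix.sub_mul, Matrix.mul_sub, Matrix.smul_mul, Matrix.mul_smul, smul_add,
    smul_sub, smul_smul]
  module

/-- Moving weight from `B` to `2√L - B` cannot lower the inner supremum. -/
theorem var_mix (hα : 1 / 2 < α) (hα' : α < 1) (hε : 0 < ε) (hδ : 0 < δ) {P G B L : CMat n}
    (hp : InPar δ T R₀ P G) (hB : IsMin α ε P G B) (hL : IsMax α ε P G B L) :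
    trR (palM α L B * (L - rM L B * rM L B)) ≤ trR (P * (L - rM L B * rM L B)) := by
  rw [sub_sq_rM hL.1.1]
  set A₀ : CMat n := (2 : ℂ) • sqrtM L - B with hA₀
  set M : CMat n := (1 / 2 : ℂ) • (A₀ * B + B * A₀) with hM
  have hA₀h : A₀ᴴ = A₀ := hL.1.2.2.isHermitian
  have hBh : Bᴴ = B := hB.1.isHermitian
  set h : ℕ → ℝ := fun k => 1 / ((k : ℝ) + 1) with hh
  have hpos : ∀ k, 0 < h k := fun k => by positivity
  set c : ℕ → ℂ := fun k => ((h k / 2 : ℝ) : ℂ) with hc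
  set Ck : ℕ → CMat n := fun k => 1 - c k • A₀ with hCk
  set Xk : ℕ → CMat n := fun k => 1 - c k • B with hXk
  set Bk : ℕ → CMat n := fun k => Ck k * B * Ck k with hBk
  set Dk : ℕ → CMat n := fun k => -M + ((h k / 4 : ℝ) : ℂ) • (A₀ * B * A₀) with hDk
  have hherm : ∀ (H : CMat n) k, Hᴴ = H → (1 - c k • H)ᴴ = 1 - c k • H := fun H k e => by
    rw [conjTranspose_sub, conjTranspose_one, conjTranspose_smul, e, hc, Complex.star_def,
      Complex.conj_ofReal]
  have hBkp : ∀ k, (Bk k).PosSemidef := fun k => by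
    have := hB.1.mul_mul_conjTranspose_same (Ck k)
    rwa [hherm A₀ k hA₀h] at this
  have hBD : ∀ k, Bk k = B + (h k : ℂ) • Dk k := fun k => by
    simp only [hBk, hCk, hDk, hM, hc, Matrix.sub_mul, Matrix.mul_sub, Matrix.one_mul,
      Matrix.mul_one, Matrix.smul_mul, Matrix.mul_smul, smul_add, smul_neg, smul_smul]
    push_cast
    module
  have hlimh : Tendsto (fun k => (h k : ℂ)) atTop (𝓝 0) := tendsto_step
  have hDlim : Tendsto Dk atTop (𝓝 (-M)) := by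
    have h4 : Tendsto (fun k => ((h k / 4 : ℝ) : ℂ)) atTop (𝓝 0) := by
      simpa using hlimh.div_const 4
    simpa [hDk] using (h4.smul_const (A₀ * B * A₀)).const_add (-M)
  have hBlim : Tendsto Bk atTop (𝓝 B) := by
    have := (hlimh.smul hDlim).const_add B
    simp only [zero_smul, add_zero] at this
    exact this.congr fun k => (hBD k).symm
  choose Lk hLk using fun k => exists_isMax hα hα' hε hδ hp (hBkp k)
  have hLlim := tendsto_isMax hα hα' hε hδ (fun _ => hp) hLk hp tendsto_const_nhds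
    tendsto_const_nhds hBlim hL
  have hSlim : Tendsto (fun k => sqrtM (Lk k)) atTop (𝓝 (sqrtM L)) :=
    (sqrtM_cont L hL.1.1).tendsto.comp
      (tendsto_nhdsWithin_iff.2 ⟨hLlim, Eventually.of_forall fun k => (hLk k).1.1⟩)
  set Ak : ℕ → CMat n := fun k => (2 : ℂ) • sqrtM (Lk k) - Bk k with hAk
  have hAlim : Tendsto Ak atTop (𝓝 A₀) := (hSlim.const_smul (2 : ℂ)).sub hBlim
  set Ek : ℕ → CMat n := fun k => (1 / 2 : ℂ) • ((B * Ak k + Ak k * B) - (B * A₀ + A₀ * B)) +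
    ((h k / 4 : ℝ) : ℂ) • (A₀ * B * A₀ - B * Ak k * B) with hEk
  have hE : ∀ k, (2 : ℂ) • sqrtM (Lk k) - B = Xk k * Ak k * Xk k + (h k : ℂ) • Ek k := fun k => by
    have e : (2 : ℂ) • sqrtM (Lk k) = Ak k + Bk k := by simp [hAk]
    rw [e, hBD k]
    simp only [hXk, hDk, hEk, hM, hc, Matrix.sub_mul, Matrix.mul_sub, Matrix.one_mul,
      Matrix.mul_one, Matrix.smul_mul, Matrix.mul_smul, smul_add, smul_sub, smul_neg, smul_smul]
    push_cast
    module
  have hElim : Tendsto Ek atTop (𝓝 0) := by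
    have h4 : Tendsto (fun k => ((h k / 4 : ℝ) : ℂ)) atTop (𝓝 0) := by
      simpa using hlimh.div_const 4
    have t1 := ((((tendsto_const_nhds (x := B)).mul hAlim).add (hAlim.mul_const B)).sub_const
      (B * A₀ + A₀ * B)).const_smul (1 / 2 : ℂ)
    have t2 := h4.smul ((((tendsto_const_nhds (x := B)).mul hAlim).mul_const B).const_sub
      (A₀ * B * A₀))
    simpa [hEk] using t1.add t2
  set τ : ℕ → ℝ := fun k => h k * N1 (Ek k) / 2 with hτ
  have hτ0 : ∀ k, 0 ≤ τ k := fun k => by have := N1_nonneg (Ek k); have := hpos k; positivity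
  set L₂ : ℕ → CMat n := fun k =>
    (sqrtM (Lk k) + (τ k : ℂ) • 1) * (sqrtM (Lk k) + (τ k : ℂ) • 1)
  have hL₂ : ∀ k, (L₂ k).PosSemidef ∧ sqrtM (L₂ k) = sqrtM (Lk k) + (τ k : ℂ) • 1 := fun k =>
    sq_shift_sqrtM (hLk k).1.1 (hτ0 k)
  have hF₁ : ∀ k, Feasible (L₂ k) (Bk k) := fun k => by
    refine ⟨(hL₂ k).1, hBkp k, ?_⟩
    rw [(hL₂ k).2, show (2 : ℂ) • (sqrtM (Lk k) + (τ k : ℂ) • 1) - Bk k =
      ((2 : ℂ) • sqrtM (Lk k) - Bk k) + ((2 * τ k : ℝ) : ℂ) • 1 by push_cast; module]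
    exact (hLk k).1.2.2.add (PosSemidef.one.smul (Complex.zero_le_real.2 (by linarith [hτ0 k])))
  have hF₀ : ∀ k, Feasible (L₂ k) B := fun k => by
    refine ⟨(hL₂ k).1, hB.1, ?_⟩
    have hP1 : (Xk k * Ak k * Xk k).PosSemidef := by
      have := ((hLk k).1.2.2).mul_mul_conjTranspose_same (Xk k)
      rwa [hherm B k hBh] at this
    have hEh : ((h k : ℂ) • Ek k).IsHermitian := by
      rw [eq_sub_of_add_eq' (hE k).symm]
      have h2 : ((2 : ℂ) • sqrtM (Lk k) - B).IsHermitian := by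
        rw [show (2 : ℂ) • sqrtM (Lk k) - B =
          ((2 : ℂ) • sqrtM (Lk k) - Bk k) + (Bk k - B) by module]
        exact (hLk k).1.2.2.isHermitian.add ((hBkp k).isHermitian.sub hB.1.isHermitian)
      exact h2.sub hP1.isHermitian
    have hP2 := N1_smul_add_posSemidef hEh
    have eN : N1 ((h k : ℂ) • Ek k) = 2 * τ k := by
      simp only [hτ, N1, Matrix.smul_apply, smul_eq_mul, norm_mul, Complex.norm_real,
        Real.norm_eq_abs, abs_of_pos (hpos k), ← Finset.mul_sum]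
      ring
    rw [eN] at hP2
    rw [(hL₂ k).2, show (2 : ℂ) • (sqrtM (Lk k) + (τ k : ℂ) • 1) - B =
      ((2 : ℂ) • sqrtM (Lk k) - B) + ((2 * τ k : ℝ) : ℂ) • 1 by push_cast; module, hE k, add_assoc,
      add_comm ((h k : ℂ) • Ek k)]
    exact hP1.add hP2
  have hτlim : Tendsto τ atTop (𝓝 0) := by
    simpa [hτ, hh, N1_zero] using
      ((tendsto_one_div_add_atTop_nhds_zero_nat (𝕜 := ℝ)).mul
        ((continuous_N1.tendsto 0).comp hElim)).div_const 2
  have hL₂lim : Tendsto L₂ atTop (𝓝 L) := by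
    have h1 : Tendsto (fun k => sqrtM (Lk k) + (τ k : ℂ) • (1 : CMat n)) atTop
        (𝓝 (sqrtM L + ((0 : ℝ) : ℂ) • 1)) :=
      hSlim.add (((Complex.continuous_ofReal.tendsto 0).comp hτlim).smul_const _)
    simpa [L₂, (sqrtM_facts L hL.1.1).2] using h1.mul h1
  choose θ hθ hobj using fun k =>
    obj_sub_B (ε := ε) (P := P) (G := G) hα hα' (hF₀ k) (hF₁ k)
  have key : ∀ k, 0 ≤ trR (palM α (L₂ k) (B + (θ k : ℂ) • (Bk k - B)) * Dk k) - trR (P * Dk k)
      + |T| * (N1 (Ek k) * trR (sqrtM (Lk k)) + τ k * N1 (Ek k) / 2 * n) := fun k => by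
    have h1 := hB.2 (Bk k) (hBkp k)
    rw [innerV_eq (hLk k)] at h1
    have h2 := le_innerV hα hα' hε hδ hp (hF₀ k)
    have h3 := hobj k
    have hS := (sqrtM_facts (Lk k) (hLk k).1.1)
    have cost : obj α ε P G (Lk k) (Bk k) ≤ obj α ε P G (L₂ k) (Bk k) +
        |T| * (2 * τ k * trR (sqrtM (Lk k)) + τ k * τ k * n) := by
      have c1 : psiA α (Lk k) (Bk k) ≤ psiA α (L₂ k) (Bk k) := psiA_shift_mono (fun _ _ _ _ => psiQ_mono) hα hα' (hLk k).1 (hτ0 k)
      have c2 : ε * trR (L₂ k + 1)⁻¹ ≤ ε * trR (Lk k + 1)⁻¹ := mul_le_mul_of_nonneg_left (trInv_shift (Lk k) (τ k) (hLk k).1.1 (hτ0 k)) hε.le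
      have c3 : trR (P * rM (Lk k) (Bk k)) ≤ trR (P * rM (L₂ k) (Bk k)) := by
        simp only [rM, (hL₂ k).2, Matrix.mul_sub, Matrix.mul_add, trR_sub, trR_add]
        have := trR_mul_nonneg hp.1
          (PosSemidef.one.smul (Complex.zero_le_real.2 (hτ0 k)) : ((τ k : ℂ) • (1 : CMat n)).PosSemidef)
        linarith
      set X : CMat n := ((2 * τ k : ℝ) : ℂ) • sqrtM (Lk k) + ((τ k * τ k : ℝ) : ℂ) • 1 with hX
      have eX : L₂ k = Lk k + X := by
        simp only [L₂, hX, Matrix.add_mul, Matrix.mul_add, Matrix.smul_mul, Matrix.mul_smul,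
          Matrix.one_mul, Matrix.mul_one, hS.2]
        push_cast
        module
      have hXp : X.PosSemidef := (hS.1.smul (Complex.zero_le_real.2 (by linarith [hτ0 k]))).add
        (PosSemidef.one.smul (Complex.zero_le_real.2 (mul_self_nonneg _)))
      have c4 := (hp.trR_G hXp).2
      have e4 : trR X = 2 * τ k * trR (sqrtM (Lk k)) + τ k * τ k * n := by
        rw [hX, trR_add, trR_smul, trR_smul, trR_one]
      have e5 : trR (L₂ k * G) = trR (Lk k * G) + trR (X * G) := by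
        rw [eX, Matrix.add_mul, trR_add]
      rw [e4] at c4
      unfold obj
      linarith
    have e : Bk k - B = (h k : ℂ) • Dk k := by rw [hBD k]; abel
    rw [e] at h3 ⊢
    simp only [Matrix.mul_smul, trR_smul] at h3
    simp only [hτ] at cost ⊢
    by_contra hneg
    push Not at hneg
    have := mul_lt_mul_of_pos_left hneg (hpos k)
    nlinarith
  have hD : Tendsto (fun k => Bk k - B) atTop (𝓝 0) := by simpa using hBlim.sub_const B
  have lim1 : Tendsto (fun k => trR (palM α (L₂ k) (B + (θ k : ℂ) • (Bk k - B)) * Dk k) -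
      trR (P * Dk k) + |T| * (N1 (Ek k) * trR (sqrtM (Lk k)) + τ k * N1 (Ek k) / 2 * n)) atTop
      (𝓝 (trR (palM α L B * -M) - trR (P * -M) +
        |T| * (0 * trR (sqrtM L) + 0 * 0 / 2 * n))) := by
    have tp := tendsto_palM hα hα' hL₂lim (tendsto_segment B hθ hD)
      (fun k => feasible_segment (hF₀ k) (hF₁ k) (hθ k)) hL.1
    have tN : Tendsto (fun k => N1 (Ek k)) atTop (𝓝 0) := by
      simpa [N1_zero, Function.comp_def] using (continuous_N1.tendsto 0).comp hElim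
    exact (((continuous_trR.tendsto _).comp (tp.mul hDlim)).sub
      ((continuous_trR.tendsto _).comp (tendsto_const_nhds.mul hDlim))).add
      (((tN.mul ((continuous_trR.tendsto _).comp hSlim)).add
        (((hτlim.mul tN).div_const 2).mul_const (n : ℝ))).const_mul |T|)
  have := ge_of_tendsto lim1 (Eventually.of_forall key)
  have e : ∀ X : CMat n, trR (X * -M) = -trR (X * M) := fun X => by
    simp [trR]
  rw [e, e] at this
  linarith

theorem min_ineq (hper : ∀ (A B W : CMat n) (t : ℝ), 0 < t → A.PosDef → B.PosDef → W.PosSemidef →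
      trR ((logM A + logM B - (Real.log t : ℂ) • 1 + (1 - (t : ℂ) • kmat A B)) * W) -
          trF (fun w => w * Real.log (1 + w / t)) W ≤
        trR ((1 - (t : ℂ) • kmat A B) * ((1 / 2 : ℂ) • (A * B + B * A) - (t : ℂ) • 1)))
    (hα : 1 / 2 < α) (hα' : α < 1) (hε : 0 < ε) (hδ : 0 < δ) {P G B L : CMat n}
    (hp : InPar δ T R₀ P G) (hB : IsMin α ε P G B) (hL : IsMax α ε P G B L) :
    trF (fun r => r ^ (1 + 1 / α)) P ≤ trR (P * (L - rM L B * rM L B)) := by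
  obtain ⟨V, a, h⟩ := exists_spec hp.1.isHermitian
  have ha := h.posSemidef_iff.1 hp.1
  set W : CMat n := cfc (fun r : ℝ => r ^ (1 / α)) P
  have hWs := h.map (fun r : ℝ => r ^ (1 / α))
  have hW : W.PosSemidef := hWs.posSemidef_iff.2 fun i => Real.rpow_nonneg (ha i) _
  have hα0 : 0 < α := by linarith
  have e1 : trR (P * W) = trF (fun r => r ^ (1 + 1 / α)) P := by
    rw [(h.mul hWs).trR_eq, h.trF_eq]
    refine Finset.sum_congr rfl fun i _ => ?_
    rw [Real.rpow_add' (ha i) (by positivity), Real.rpow_one]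
  have e2 : trF (fun w => w ^ (1 + α)) W = trF (fun r => r ^ (1 + 1 / α)) P := by
    rw [hWs.trF_eq, h.trF_eq]
    refine Finset.sum_congr rfl fun i _ => ?_
    rw [← Real.rpow_mul (ha i)]
    congr 1
    field_simp
    ring
  have m1 := main_ineq hper hα hα' hL.1 hW
  have m2 := var_pos hα hα' hε hδ hp hB hL hW
  have m3 := var_mix hα hα' hε hδ hp hB hL
  rw [e1] at m2
  rw [e2] at m1
  have m4 := mul_le_mul_of_nonneg_left m2 (show 0 ≤ 1 + α by linarith)
  have m5 := mul_le_mul_of_nonneg_left m3 hα0.le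
  nlinarith

theorem completing_square {m : ℕ} (A D : Matrix (Fin m) (Fin n) ℂ) (R L : CMat n)
    (hR : R.IsHermitian) :
    trR ((Dᴴ * A + Aᴴ * D) * R) - trR (L * (Aᴴ * A)) ≤
      ((Dᴴ * D).trace).re - trR (Aᴴ * A * (L - R * R)) := by
  have h0 := (Complex.le_def.1 ((posSemidef_conjTranspose_mul_self (D - A * R)).trace_nonneg)).1
  have hR' : Rᴴ = R := hR
  rw [conjTranspose_sub, conjTranspose_mul, hR'] at h0
  simp only [Matrix.sub_mul, Matrix.mul_sub, Matrix.trace_sub, Complex.sub_re, Complex.zero_re]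
    at h0
  have c1 : (Dᴴ * (A * R)).trace = (Dᴴ * A * R).trace := by rw [Matrix.mul_assoc]
  have c2 : (R * Aᴴ * D).trace = (Aᴴ * D * R).trace := by
    rw [Matrix.mul_assoc, Matrix.trace_mul_comm]
  have c3 : (R * Aᴴ * (A * R)).trace = (Aᴴ * A * (R * R)).trace := by
    rw [Matrix.mul_assoc, Matrix.trace_mul_comm]
    simp only [Matrix.mul_assoc]
  rw [c1, c2, c3] at h0
  rw [trR_mul_comm L]
  simp only [trR, Matrix.add_mul, Matrix.mul_sub, Matrix.trace_add, Matrix.trace_sub,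
    Complex.add_re, Complex.sub_re]
  linarith

theorem value_deriv {m : ℕ} (hper : ∀ (A B W : CMat n) (t : ℝ), 0 < t → A.PosDef → B.PosDef → W.PosSemidef →
      trR ((logM A + logM B - (Real.log t : ℂ) • 1 + (1 - (t : ℂ) • kmat A B)) * W) -
          trF (fun w => w * Real.log (1 + w / t)) W ≤
        trR ((1 - (t : ℂ) • kmat A B) * ((1 / 2 : ℂ) • (A * B + B * A) - (t : ℂ) • 1)))
    (α ε δ T : ℝ) (hα : 1 / 2 < α) (hα' : α < 1) (hε : 0 < ε)
    (hδ : 0 < δ) (A : ℝ → Matrix (Fin m) (Fin n) ℂ) (A' : Matrix (Fin m) (Fin n) ℂ)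
    (G : ℝ → CMat n) (x d : ℝ) (hA : Vale.Agent.LT.MatDerivAt A A' x)
    (hG : Vale.Agent.LT.MatDerivAt G ((A x)ᴴ * A x) x) (hbox : ∀ y, G y ∈ box δ T)
    (hd : HasDerivAt (fun y => value α ε ((A y)ᴴ * A y) (G y)) d x) :
    d ≤ ((A'ᴴ * A').trace).re - trF (fun r => r ^ (1 + 1 / α)) ((A x)ᴴ * A x) := by
  set P : ℝ → CMat n := fun y => (A y)ᴴ * A y with hPdef
  have hP : Vale.Agent.LT.MatDerivAt P (A'ᴴ * A x + (A x)ᴴ * A') x := hA.conjTranspose.matMul hA
  have hPp : ∀ y, (P y).PosSemidef := fun y => posSemidef_conjTranspose_mul_self _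
  set R : ℝ := trR (P x) + 1 with hR
  have hPc : ContinuousAt (fun y => trR (P y)) x := by
    simp only [trR, Matrix.trace, Matrix.diag]
    exact Complex.continuous_re.continuousAt.comp
      (tendsto_finsetSum _ fun i _ => (hP i i).continuousAt.tendsto)
  obtain ⟨k0, hk0⟩ : ∃ k0 : ℕ, ∀ k : ℕ, trR (P (x + 1 / ((k + k0 : ℕ) + 1 : ℝ))) ≤ R := by
    have ht : Tendsto (fun k : ℕ => x + 1 / ((k : ℝ) + 1)) atTop (𝓝 x) := by
      simpa using (tendsto_one_div_add_atTop_nhds_zero_nat (𝕜 := ℝ)).const_add x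
    obtain ⟨k0, hk0⟩ := eventually_atTop.1 ((hPc.tendsto.comp ht).eventually
      (eventually_le_nhds (show trR (P x) < R by linarith)))
    exact ⟨k0, fun k => hk0 _ (Nat.le_add_left _ _)⟩
  set h : ℕ → ℝ := fun k => 1 / ((k + k0 : ℕ) + 1 : ℝ) with hh
  have hpos : ∀ k, 0 < h k := fun k => by positivity
  set y : ℕ → ℝ := fun k => x + h k with hy
  have hpk : ∀ k, InPar δ T R (P (y k)) (G (y k)) := fun k => ⟨hPp _, hk0 k, hbox _⟩
  have hpx : InPar δ T R (P x) (G x) := ⟨hPp x, by linarith, hbox x⟩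
  obtain ⟨β, hβ⟩ := exists_isMin (n := n) hα hα' hε hδ R T
  obtain ⟨B, hB⟩ := (hβ _ _ hpx).1
  obtain ⟨L, hL⟩ := exists_isMax hα hα' hε hδ hpx hB.1
  choose Bk hBk using fun k => (hβ _ _ (hpk k)).1
  choose Lk hLk using fun k => exists_isMax hα hα' hε hδ (hpk k) hB.1
  have hylim : Tendsto y atTop (𝓝[≠] x) := by
    refine tendsto_nhdsWithin_iff.2 ⟨?_, Eventually.of_forall fun k => ?_⟩
    · have := ((tendsto_one_div_add_atTop_nhds_zero_nat (𝕜 := ℝ)).comp
        (tendsto_add_atTop_nat k0)).const_add x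
      simpa [hy, hh, Function.comp_def] using this
    · simp [hy, (hpos k).ne']
  have slp : ∀ {F : ℝ → ℝ} {F' : ℝ}, HasDerivAt F F' x →
      Tendsto (fun k => (F (y k) - F x) / h k) atTop (𝓝 F') := fun {F F'} hF => by
    have := (hasDerivAt_iff_tendsto_slope.1 hF).comp hylim
    simpa [Function.comp_def, slope_def_field, hy] using this
  have slpM : ∀ {F : ℝ → CMat n} {F' : CMat n}, Vale.Agent.LT.MatDerivAt F F' x →
      Tendsto (fun k => ((h k)⁻¹ : ℂ) • (F (y k) - F x)) atTop (𝓝 F') := fun {F F'} hF => by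
    refine tendsto_pi_nhds.2 fun i => tendsto_pi_nhds.2 fun j => ?_
    have := (hasDerivAt_iff_tendsto_slope.1 (hF i j)).comp hylim
    refine this.congr fun k => ?_
    simp [slope_def_module, hy, Complex.real_smul]
  have hPlim : Tendsto (fun k => P (y k)) atTop (𝓝 (P x)) :=
    tendsto_pi_nhds.2 fun i => tendsto_pi_nhds.2 fun j =>
      (hP i j).continuousAt.tendsto.comp (tendsto_nhdsWithin_iff.1 hylim).1
  have hGlim : Tendsto (fun k => G (y k)) atTop (𝓝 (G x)) :=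
    tendsto_pi_nhds.2 fun i => tendsto_pi_nhds.2 fun j =>
      (hG i j).continuousAt.tendsto.comp (tendsto_nhdsWithin_iff.1 hylim).1
  have hLlim := tendsto_isMax hα hα' hε hδ hpk hLk hpx hPlim hGlim tendsto_const_nhds hL
  have hSlim : Tendsto (fun k => sqrtM (Lk k)) atTop (𝓝 (sqrtM L)) :=
    (sqrtM_cont L hL.1.1).tendsto.comp
      (tendsto_nhdsWithin_iff.2 ⟨hLlim, Eventually.of_forall fun k => (hLk k).1.1⟩)
  have key : ∀ k, (value α ε (P (y k)) (G (y k)) - value α ε (P x) (G x)) / h k ≤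
      trR ((((h k)⁻¹ : ℂ) • (P (y k) - P x)) * rM (Lk k) B) -
        trR (Lk k * (((h k)⁻¹ : ℂ) • (G (y k) - G x))) := fun k => by
    have e1 : value α ε (P (y k)) (G (y k)) ≤ obj α ε (P (y k)) (G (y k)) (Lk k) B := by
      rw [value_eq (hBk k), ← innerV_eq (hLk k)]; exact (hBk k).2 B hB.1
    have e2 : obj α ε (P x) (G x) (Lk k) B ≤ value α ε (P x) (G x) := by
      rw [value_eq hB]; exact le_innerV hα hα' hε hδ hpx (hLk k).1
    have e3 := obj_sub_obj (α := α) (ε := ε) (P (y k)) (P x) (G (y k)) (G x) (Lk k) B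
    rw [← Complex.ofReal_inv, Matrix.smul_mul, Matrix.mul_smul, trR_smul, trR_smul, ← mul_sub,
      div_eq_inv_mul]
    exact mul_le_mul_of_nonneg_left (by linarith) (inv_nonneg.2 (hpos k).le)
  have lim2 : Tendsto (fun k => trR ((((h k)⁻¹ : ℂ) • (P (y k) - P x)) * rM (Lk k) B) -
      trR (Lk k * (((h k)⁻¹ : ℂ) • (G (y k) - G x)))) atTop
      (𝓝 (trR ((A'ᴴ * A x + (A x)ᴴ * A') * rM L B) - trR (L * ((A x)ᴴ * A x)))) :=
    ((continuous_trR.tendsto _).comp ((slpM hP).mul (hSlim.sub_const B))).sub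
      ((continuous_trR.tendsto _).comp (hLlim.mul (slpM hG)))
  have h1 := le_of_tendsto_of_tendsto (slp hd) lim2 (Eventually.of_forall key)
  have hRh : (rM L B).IsHermitian :=
    (sqrtM_facts L hL.1.1).1.isHermitian.sub hB.1.isHermitian
  have h2 := completing_square (A x) A' (rM L B) L hRh
  have h3 := min_ineq hper hα hα' hε hδ hpx hB hL
  simp only [hPdef] at h3
  linarith

end Vale.Agent.P371.Calib
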