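import Vale.Agent.P371.Calib.Defs

/-!
# P371: the scalar integrals behind the endpoint values
-/

namespace Vale.Agent.P371.Calib.Endpoints

open MeasureTheory Set Filter
open scoped Topology

theorem integrableOn_logKernel {α : ℝ} (h0 : 0 < α) (h1 : α < 1) {x : ℝ} (hx : 0 ≤ x) :
    IntegrableOn (fun t : ℝ => t ^ (α - 1) * Real.log (1 + x / t)) (Ioi 0) := by
  have hm : Measurable fun t : ℝ => t ^ (α - 1) * Real.log (1 + x / t) := by fun_prop
  have hnn : ∀ t : ℝ, 0 < t → 0 ≤ t ^ (α - 1) * Real.log (1 + x / t) := fun t ht =>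
    mul_nonneg (Real.rpow_nonneg ht.le _)
      (Real.log_nonneg (by linarith [div_nonneg hx ht.le]))
  rw [← Ioc_union_Ioi_eq_Ioi zero_le_one, integrableOn_union]
  refine ⟨?_, ?_⟩
  · have hg : IntegrableOn (fun t : ℝ => (1 + x) ^ (α / 2) / (α / 2) * t ^ (α / 2 - 1))
        (Ioc 0 1) :=
      ((intervalIntegrable_iff_integrableOn_Ioc_of_le zero_le_one).1
        (intervalIntegral.intervalIntegrable_rpow' (by linarith))).const_mul _
    refine hg.mono' hm.aestronglyMeasurable ?_
    filter_upwards [ae_restrict_mem measurableSet_Ioc] with t ht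
    rw [Real.norm_of_nonneg (hnn t ht.1)]
    have e1 : Real.log (1 + x / t) ≤ ((1 + x) / t) ^ (α / 2) / (α / 2) := by
      refine le_trans (Real.log_le_log (by linarith [div_nonneg hx ht.1.le]) ?_)
        (Real.log_le_rpow_div (by positivity [ht.1]) (by linarith))
      rw [add_div]
      linarith [(one_le_div ht.1).2 ht.2]
    calc t ^ (α - 1) * Real.log (1 + x / t)
        ≤ t ^ (α - 1) * (((1 + x) / t) ^ (α / 2) / (α / 2)) :=
          mul_le_mul_of_nonneg_left e1 (Real.rpow_nonneg ht.1.le _)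
      _ = _ := by
          rw [Real.div_rpow (by linarith) ht.1.le,
            show α / 2 - 1 = (α - 1) - α / 2 by ring, Real.rpow_sub ht.1 (α - 1) (α / 2)]
          ring
  · have hg : IntegrableOn (fun t : ℝ => x * t ^ (α - 2)) (Ioi 1) :=
      (integrableOn_Ioi_rpow_of_lt (by linarith) zero_lt_one).const_mul _
    refine hg.mono' hm.aestronglyMeasurable ?_
    filter_upwards [ae_restrict_mem measurableSet_Ioi] with t ht
    have ht0 : 0 < t := zero_lt_one.trans ht
    rw [Real.norm_of_nonneg (hnn t ht0)]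
    have e1 : Real.log (1 + x / t) ≤ x / t := by
      linarith [Real.log_le_sub_one_of_pos (by linarith [div_nonneg hx ht0.le] : 0 < 1 + x / t)]
    calc t ^ (α - 1) * Real.log (1 + x / t) ≤ t ^ (α - 1) * (x / t) :=
          mul_le_mul_of_nonneg_left e1 (Real.rpow_nonneg ht0.le _)
      _ = _ := by
          rw [show t ^ (α - 1) = t ^ (α - 2) * t by
            rw [← Real.rpow_add_one ht0.ne']; ring_nf]
          field_simp

theorem logKernel_one_pos {α : ℝ} (h0 : 0 < α) (h1 : α < 1) :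
    0 < ∫ t in Ioi (0 : ℝ), t ^ (α - 1) * Real.log (1 + 1 / t) := by
  have hpos : ∀ t : ℝ, 0 < t → 0 < t ^ (α - 1) * Real.log (1 + 1 / t) := fun t ht =>
    mul_pos (Real.rpow_pos_of_pos ht _) (Real.log_pos (by linarith [one_div_pos.2 ht]))
  refine (setIntegral_pos_iff_support_of_nonneg_ae ?_
    (integrableOn_logKernel h0 h1 zero_le_one)).2 ?_
  · filter_upwards [ae_restrict_mem measurableSet_Ioi] with t ht
    exact (hpos t ht).le
  · rw [inter_eq_right.2 (show Ioi (0 : ℝ) ⊆ Function.support _ from fun t ht =>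
      Function.mem_support.2 (hpos t ht).ne')]
    simp

/-- `x ^ α = kconst α * ∫ t ^ (α - 1) log (1 + x / t)`. -/
theorem kconst_mul_logKernel {α : ℝ} (h0 : 0 < α) (h1 : α < 1) {x : ℝ} (hx : 0 ≤ x) :
    kconst α * (∫ t in Ioi (0 : ℝ), t ^ (α - 1) * Real.log (1 + x / t)) = x ^ α := by
  rcases hx.eq_or_lt with rfl | hx
  · simp [Real.zero_rpow h0.ne']
  · have hs := integral_comp_mul_left_Ioi (fun t => t ^ (α - 1) * Real.log (1 + x / t)) 0 hx
    rw [mul_zero, smul_eq_mul] at hs
    have e : ∫ u in Ioi (0 : ℝ), (x * u) ^ (α - 1) * Real.log (1 + x / (x * u)) =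
        x ^ (α - 1) * ∫ u in Ioi (0 : ℝ), u ^ (α - 1) * Real.log (1 + 1 / u) := by
      rw [← integral_const_mul]
      refine setIntegral_congr_fun measurableSet_Ioi fun u hu => ?_
      rw [Real.mul_rpow hx.le (le_of_lt hu),
        show x / (x * u) = 1 / u by rw [div_mul_eq_div_div, div_self hx.ne'], mul_assoc]
    rw [e] at hs
    have hI := logKernel_one_pos h0 h1
    rw [kconst]
    have hxx : x ^ α = x * x ^ (α - 1) := by
      rw [Real.rpow_sub_one hx.ne']
      field_simp
    rw [hxx]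
    field_simp at hs ⊢
    linarith

theorem kconst_pos {α : ℝ} (h0 : 0 < α) (h1 : α < 1) : 0 < kconst α :=
  inv_pos.2 (logKernel_one_pos h0 h1)

/-- One eigendirection of `psiQ` for commuting arguments, with `√L = s`, `B = b`. -/
noncomputable def psiS (s b t : ℝ) : ℝ :=
  eta (√(s ^ 2 + t) + s) - eta (√(s ^ 2 + t) + s - b) -
      eta (t * (√(s ^ 2 + t) + s)⁻¹) + eta (t * (√(s ^ 2 + t) + s)⁻¹ + b) - b * Real.log t

theorem hasDerivAt_eta {x : ℝ} (hx : x ≠ 0) : HasDerivAt eta (Real.log x) x := by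
  have h := (Real.hasDerivAt_mul_log hx).sub (hasDerivAt_id x)
  simp only [add_sub_cancel_right] at h
  exact h

theorem psiS_eq {s b t : ℝ} (hs : 0 ≤ s) (hb : 0 ≤ b) (hbs : b ≤ 2 * s) (ht : 0 < t) :
    psiS s b t = ∫ v in (0 : ℝ)..b, Real.log (1 + (s ^ 2 - (s - v) ^ 2) / t) := by
  set m := √(s ^ 2 + t) with hm
  have hmm : m * m = s ^ 2 + t := Real.mul_self_sqrt (by positivity)
  have hsm : s < m := by
    rw [hm, Real.lt_sqrt hs]
    linarith
  have hinv : t * (m + s)⁻¹ = m - s := by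
    field_simp [(by linarith : m + s ≠ 0)]
    linarith [show (m - s) * (m + s) = t by linear_combination hmm]
  let F := fun v => -eta (m + s - v) + eta (m - s + v) - v * Real.log t
  have hd : ∀ v ∈ uIcc (0 : ℝ) b,
      HasDerivAt F (Real.log (1 + (s ^ 2 - (s - v) ^ 2) / t)) v := by
    intro v hv
    rw [uIcc_of_le hb] at hv
    have p1 : 0 < m + s - v := by linarith [hv.2]
    have p2 : 0 < m - s + v := by linarith [hv.1]
    have d1 := ((hasDerivAt_eta p1.ne').comp v ((hasDerivAt_id v).const_sub (m + s))).neg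
    have d2 := (hasDerivAt_eta p2.ne').comp v ((hasDerivAt_id v).const_add (m - s))
    have d3 := ((hasDerivAt_id v).mul_const (Real.log t))
    refine ((d1.add d2).sub d3).congr_deriv ?_
    have e : 1 + (s ^ 2 - (s - v) ^ 2) / t = (m + s - v) * (m - s + v) / t := by
      field_simp
      linear_combination -hmm
    rw [e, Real.log_div (by positivity) ht.ne', Real.log_mul p1.ne' p2.ne']
    ring
  have hc : ContinuousOn (fun v => Real.log (1 + (s ^ 2 - (s - v) ^ 2) / t)) (uIcc 0 b) := by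
    refine ContinuousOn.log (Continuous.continuousOn (by fun_prop)) fun v hv => ?_
    rw [uIcc_of_le hb] at hv
    have : 0 ≤ (s ^ 2 - (s - v) ^ 2) / t := div_nonneg (by nlinarith [hv.1, hv.2]) ht.le
    positivity
  rw [intervalIntegral.integral_eq_sub_of_hasDerivAt hd hc.intervalIntegrable]
  simp only [psiS, F, ← hm, hinv, sub_zero, add_zero, zero_mul]
  ring

/-- Fubini for one eigendirection. -/
theorem psiS_integral {α s b : ℝ} (h0 : 0 < α) (h1 : α < 1) (hs : 0 ≤ s) (hb : 0 ≤ b)
    (hbs : b ≤ 2 * s) :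
    IntegrableOn (fun t => t ^ (α - 1) * psiS s b t) (Ioi 0) ∧
      kconst α * (∫ t in Ioi (0 : ℝ), t ^ (α - 1) * psiS s b t) =
        ∫ v in (0 : ℝ)..b, (s ^ 2 - (s - v) ^ 2) ^ α := by
  set f := fun (t v : ℝ) => t ^ (α - 1) * Real.log (1 + (s ^ 2 - (s - v) ^ 2) / t) with hf
  have hint : Integrable (Function.uncurry f)
      ((volume.restrict (Ioi (0 : ℝ))).prod (volume.restrict (Ioc (0 : ℝ) b))) := by
    refine ((integrableOn_logKernel h0 h1 (sq_nonneg s)).comp_fst _).mono'
      (by fun_prop : Measurable (Function.uncurry f)).aestronglyMeasurable ?_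
    rw [Measure.prod_restrict]
    filter_upwards [ae_restrict_mem (measurableSet_Ioi.prod measurableSet_Ioc)] with p hp
    obtain ⟨ht : (0 : ℝ) < p.1, hv0 : (0 : ℝ) < p.2, hv1 : p.2 ≤ b⟩ := hp
    have hg : 0 ≤ s ^ 2 - (s - p.2) ^ 2 := by nlinarith
    have hq : 0 ≤ (s ^ 2 - (s - p.2) ^ 2) / p.1 := div_nonneg hg ht.le
    rw [Function.uncurry, Real.norm_of_nonneg
      (mul_nonneg (Real.rpow_nonneg ht.le _) (Real.log_nonneg (by linarith)))]
    refine mul_le_mul_of_nonneg_left (Real.log_le_log (by linarith) ?_)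
      (Real.rpow_nonneg ht.le _)
    gcongr
    nlinarith [sq_nonneg (s - p.2)]
  have e : EqOn (fun t => ∫ v in Ioc (0 : ℝ) b, f t v) (fun t => t ^ (α - 1) * psiS s b t)
      (Ioi 0) := fun t ht => by
    simp only [f]
    rw [psiS_eq hs hb hbs ht, intervalIntegral.integral_of_le hb, integral_const_mul]
  refine ⟨IntegrableOn.congr_fun hint.integral_prod_left e measurableSet_Ioi, ?_⟩
  rw [← setIntegral_congr_fun measurableSet_Ioi e, integral_integral_swap hint,
    ← integral_const_mul, intervalIntegral.integral_of_le hb]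
  refine setIntegral_congr_fun measurableSet_Ioc fun v hv => ?_
  exact kconst_mul_logKernel h0 h1 (by nlinarith [hv.1, hv.2])

/-- The value of the half line: `∫_0^{2s} (s² - (s-v)²)^α = J s^(2α+1)`. -/
theorem integral_half {α s : ℝ} (h0 : 0 < α) (hs : 0 ≤ s) :
    (∫ v in (0 : ℝ)..2 * s, (s ^ 2 - (s - v) ^ 2) ^ α) = jconst α * s ^ (2 * α + 1) := by
  have h := intervalIntegral.smul_integral_comp_mul_add
    (fun v => (s ^ 2 - (s - v) ^ 2) ^ α) s s (a := (-1 : ℝ)) (b := 1)
  rw [show s * -1 + s = 0 by ring, show s * 1 + s = 2 * s by ring, smul_eq_mul] at h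
  rw [← h, jconst, Real.rpow_add_of_nonneg hs (by linarith) zero_le_one, Real.rpow_one,
    show (2 : ℝ) * α = ((2 : ℕ) : ℝ) * α by norm_num, Real.rpow_natCast_mul hs]
  have e : ∫ x in (-1 : ℝ)..1, (s ^ 2 - (s - (s * x + s)) ^ 2) ^ α =
      ∫ x in (-1 : ℝ)..1, (s ^ 2) ^ α * (1 - x ^ 2) ^ α := by
    refine intervalIntegral.integral_congr fun x hx => ?_
    rw [uIcc_of_le (by norm_num)] at hx
    rw [← Real.mul_rpow (sq_nonneg s) (by nlinarith [hx.1, hx.2])]
    congr 1
    ring
  rw [e, intervalIntegral.integral_const_mul]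
  ring

theorem jconst_pos_aux {α : ℝ} (h0 : 0 < α) : 0 < jconst α := by
  refine intervalIntegral.intervalIntegral_pos_of_pos_on
    (Continuous.intervalIntegrable (Continuous.rpow_const (by fun_prop) fun _ => Or.inr h0.le) _ _)
    (fun x hx => Real.rpow_pos_of_pos (by nlinarith [hx.1, hx.2]) _) (by norm_num)

/-- A lower bound for one full eigendirection. -/
theorem integral_lower {α b : ℝ} (h0 : 0 < α) (hb : 0 ≤ b) :
    (α + 1)⁻¹ * b ^ (2 * α + 1) ≤ ∫ v in (0 : ℝ)..b, (b ^ 2 - (b - v) ^ 2) ^ α := by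
  have hl : ∫ v in (0 : ℝ)..b, b ^ α * v ^ α = (α + 1)⁻¹ * b ^ (2 * α + 1) := by
    rw [intervalIntegral.integral_const_mul, integral_rpow (Or.inl (by linarith)),
      Real.zero_rpow (by linarith), sub_zero, show (2 * α + 1 : ℝ) = α + (α + 1) by ring,
      Real.rpow_add_of_nonneg (y := α) (z := α + 1) hb h0.le (by linarith)]
    ring
  rw [← hl]
  refine intervalIntegral.integral_mono_on hb
    ((Continuous.rpow_const continuous_id fun _ => Or.inr h0.le).intervalIntegrable _ _ |>.const_mul _)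
    (Continuous.intervalIntegrable (Continuous.rpow_const (by fun_prop) fun _ => Or.inr h0.le) _ _)
    fun v hv => ?_
  rw [← Real.mul_rpow hb hv.1]
  exact Real.rpow_le_rpow (mul_nonneg hb hv.1) (by nlinarith [hv.1, hv.2]) h0.le

end Vale.Agent.P371.Calib.Endpoints
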