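import Vale.Agent.P371.Calib.Spec
import Vale.Agent.P371.Calib.EndScalar

/-!
# P371: values of the potential at commuting pairs, and the upper bound
-/

namespace Vale.Agent.P371.Calib

open Matrix MeasureTheory Set Filter
open scoped ComplexOrder Topology

variable {n : ℕ}

namespace Endpoints

variable {A B V W : CMat n} {a b : Fin n → ℝ}

theorem spec_add (h : Spec A V a) (h' : Spec B V b) : Spec (A + B) V fun i => a i + b i := by
  refine ⟨h.1, h.2.1, ?_⟩
  conv_lhs => rw [h.2.2, h'.2.2]
  rw [← Matrix.add_mul, ← Matrix.mul_add, diagonal_add]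
  push_cast
  rfl

theorem spec_sub (h : Spec A V a) (h' : Spec B V b) : Spec (A - B) V fun i => a i - b i := by
  have e := spec_add h (h'.smul (-1))
  simpa [sub_eq_add_neg] using e

theorem spec_congr (h : Spec A V a) (e : ∀ i, a i = b i) : Spec A V b := by
  rwa [show b = a from funext fun i => (e i).symm]

theorem spec_unique (h : Spec A V a) (h' : Spec B V a) : A = B := h.2.2.trans h'.2.2.symm

theorem spec_const (h : Spec A V a) (r : ℝ) : Spec ((r : ℂ) • (1 : CMat n)) V fun _ => r := by
  simpa using spec_congr (((h.smul 0).add_smul_one r)) (b := fun _ => r) (fun i => by simp)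

theorem spec_qM {L : CMat n} {l : Fin n → ℝ} (h : Spec L V l) (t : ℝ) :
    Spec (qM L t) V fun i => √(l i + t) + √(l i) :=
  spec_add (h.add_smul_one t).sqrtM h.sqrtM

theorem trR_sum_smul (A : CMat n) (r : ℝ) : trR ((r : ℂ) • A) = r * trR A := by
  simp [trR]

theorem trR_nonneg {A : CMat n} (h : A.PosSemidef) : 0 ≤ trR A := by
  obtain ⟨V, a, hV⟩ := exists_spec h.isHermitian
  rw [hV.trR_eq]
  exact Finset.sum_nonneg fun i _ => hV.posSemidef_iff.1 h i

theorem conj_diag_re (h : Spec A V a) (W : CMat n) (j : Fin n) :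
    ((Wᴴ * A * W) j j).re = ∑ i, Complex.normSq ((Vᴴ * W) i j) * a i := by
  have e : Wᴴ * A * W = (Vᴴ * W)ᴴ * diagonal (fun i => (a i : ℂ)) * (Vᴴ * W) := by
    rw [conjTranspose_mul, conjTranspose_conjTranspose, h.2.2]
    simp only [Matrix.mul_assoc]
  rw [e, Matrix.mul_apply, Complex.re_sum]
  refine Finset.sum_congr rfl fun i _ => ?_
  simp only [mul_diagonal, conjTranspose_apply, Complex.normSq_apply, RCLike.star_def,
    Complex.mul_re, Complex.mul_im, Complex.conj_re, Complex.conj_im, Complex.ofReal_re,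
    Complex.ofReal_im]
  ring

theorem sum_weights (h : Spec A V a) (hW : Wᴴ * W = 1) (j : Fin n) :
    ∑ i, Complex.normSq ((Vᴴ * W) i j) = 1 := by
  have e := conj_diag_re (spec_const h 1) W j
  simpa [hW] using e.symm

theorem log_conj_le (h : Spec A V a) (ha : ∀ i, 0 < a i) (hW : Wᴴ * W = 1) (j : Fin n) :
    0 < ((Wᴴ * A * W) j j).re ∧
      ((Wᴴ * logM A * W) j j).re ≤ Real.log ((Wᴴ * A * W) j j).re := by
  have w1 := sum_weights h hW j
  rw [conj_diag_re h.logM, conj_diag_re h]
  set p := fun i => Complex.normSq ((Vᴴ * W) i j) with hp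
  have hp0 : ∀ i, 0 ≤ p i := fun i => Complex.normSq_nonneg _
  have hm : 0 < ∑ i, p i * a i := by
    refine Finset.sum_pos' (fun i _ => mul_nonneg (hp0 i) (ha i).le) ?_
    by_contra hc
    simp only [not_exists, not_and, not_lt] at hc
    have : ∑ i, p i = 0 := Finset.sum_eq_zero fun i hi => le_antisymm
      (le_of_mul_le_mul_right (by simpa using hc i hi) (ha i)) (hp0 i)
    exact one_ne_zero (w1.symm.trans this)
  refine ⟨hm, ?_⟩
  set M := ∑ i, p i * a i with hM
  calc ∑ i, p i * Real.log (a i)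
      ≤ ∑ i, p i * (Real.log M + (a i / M - 1)) := Finset.sum_le_sum fun i _ => by
        refine mul_le_mul_of_nonneg_left ?_ (hp0 i)
        have := Real.log_le_sub_one_of_pos (div_pos (ha i) hm)
        rw [Real.log_div (ha i).ne' hm.ne'] at this
        linarith
    _ = Real.log M := by
        simp only [mul_add, mul_sub, mul_one, Finset.sum_add_distrib, Finset.sum_sub_distrib,
          ← Finset.sum_mul, mul_div_assoc', ← Finset.sum_div]
        rw [show ∑ i, p i = 1 from w1, ← hM, div_self hm.ne']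
        ring

/-- Klein's inequality for `eta`. -/
theorem klein_eta {X Y : CMat n} (hX : X.PosDef) (hY : Y.PosDef) :
    trF eta X - trF eta Y ≤ trR (logM X * (X - Y)) := by
  obtain ⟨V, a, hV⟩ := exists_spec hX.isHermitian
  obtain ⟨W, b, hW⟩ := exists_spec hY.isHermitian
  have ha := hV.posDef_iff.1 hX
  have hb := hW.posDef_iff.1 hY
  have eR : ∀ i, ∑ j, Complex.normSq ((Vᴴ * W) i j) = 1 := fun i => by
    have e := sum_weights hW (W := V) hV.1 i
    rw [← e]
    refine Finset.sum_congr rfl fun j _ => ?_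
    rw [show (Vᴴ * W) i j = star ((Wᴴ * V) j i) by
      rw [← conjTranspose_apply, conjTranspose_mul, conjTranspose_conjTranspose]]
    exact Complex.normSq_conj _
  have eC : ∀ j, ∑ i, Complex.normSq ((Vᴴ * W) i j) = 1 := fun j => sum_weights hV hW.1 j
  have e1 : trR (logM X * (X - Y)) = trR (logM X * X) - trR (logM X * Y) := by
    simp [trR, Matrix.mul_sub]
  rw [hV.trF_eq, hW.trF_eq, e1, (hV.logM.mul hV).trR_eq, hV.logM.trR_mul_spec hW]
  have l1 : ∑ i, eta (a i) = ∑ i, ∑ j, Complex.normSq ((Vᴴ * W) i j) * eta (a i) := by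
    simp only [← Finset.sum_mul, eR, one_mul]
  have l2 : ∑ j, eta (b j) = ∑ i, ∑ j, Complex.normSq ((Vᴴ * W) i j) * eta (b j) := by
    rw [Finset.sum_comm]
    simp only [← Finset.sum_mul, eC, one_mul]
  have l3 : ∑ i, Real.log (a i) * a i =
      ∑ i, ∑ j, Complex.normSq ((Vᴴ * W) i j) * (Real.log (a i) * a i) := by
    simp only [← Finset.sum_mul, eR, one_mul]
  rw [l1, l2, l3]
  simp only [← Finset.sum_sub_distrib, ← mul_sub]
  refine Finset.sum_le_sum fun i _ => Finset.sum_le_sum fun j _ =>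
    mul_le_mul_of_nonneg_left ?_ (Complex.normSq_nonneg _)
  have hl := Real.log_le_sub_one_of_pos (div_pos (ha i) (hb j))
  rw [Real.log_div (ha i).ne' (hb j).ne'] at hl
  have hl' := mul_le_mul_of_nonneg_left hl (hb j).le
  rw [mul_sub (b j) (a i / b j), mul_div_cancel₀ _ (hb j).ne', mul_one] at hl'
  simp only [eta]
  linarith

theorem psiQ_comm {L : CMat n} {s u : Fin n → ℝ} (hL : Spec L V fun i => s i ^ 2)
    (hB : Spec B V u) (hs : ∀ i, 0 ≤ s i) {t : ℝ} (ht : 0 < t) :
    psiQ (qM L t) B t = ∑ i, psiS (s i) (u i) t := by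
  have hq : Spec (qM L t) V fun i => √(s i ^ 2 + t) + s i :=
    spec_congr (spec_qM hL t) fun i => by rw [Real.sqrt_sq (hs i)]
  have hi := (hq.inv fun i => ne_of_gt
    (add_pos_of_pos_of_nonneg (Real.sqrt_pos.2 (by positivity)) (hs i))).smul t
  rw [psiQ, hq.trF_eq, (spec_sub hq hB).trF_eq, hi.trF_eq, (spec_add hi hB).trF_eq, hB.trR_eq,
    Finset.sum_mul]
  simp only [psiS, Finset.sum_add_distrib, Finset.sum_sub_distrib]

theorem psiA_comm {L : CMat n} {s u : Fin n → ℝ} {α : ℝ} (h0 : 0 < α) (h1 : α < 1)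
    (hL : Spec L V fun i => s i ^ 2) (hB : Spec B V u) (hu0 : ∀ i, 0 ≤ u i)
    (hu : ∀ i, u i ≤ 2 * s i) :
    psiA α L B = ∑ i, ∫ v in (0 : ℝ)..u i, (s i ^ 2 - (s i - v) ^ 2) ^ α := by
  have hs : ∀ i, 0 ≤ s i := fun i => by linarith [hu0 i, hu i]
  have key := fun i => psiS_integral h0 h1 (hs i) (hu0 i) (hu i)
  rw [psiA, setIntegral_congr_fun measurableSet_Ioi
    (g := fun t => ∑ i, t ^ (α - 1) * psiS (s i) (u i) t)
    (fun t ht => by simp only [psiQ_comm hL hB hs ht, Finset.mul_sum]),
    integral_finsetSum _ fun i _ => (key i).1, Finset.mul_sum]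
  exact Finset.sum_congr rfl fun i _ => (key i).2

theorem psiQ_zero (Q : CMat n) (t : ℝ) : psiQ Q 0 t = 0 := by
  simp [psiQ, trR]

theorem psiQ_le {L B : CMat n} {t : ℝ} (ht : 0 < t) (hF : Feasible L B) :
    psiQ (qM L t) B t ≤ trR B * Real.log (1 + trR L / t) := by
  obtain ⟨hL, hB, hLB⟩ := hF
  obtain ⟨V, l, hV⟩ := exists_spec hL.isHermitian
  obtain ⟨W, u, hW⟩ := exists_spec hB.isHermitian
  have hl := hV.posSemidef_iff.1 hL
  have hu := hW.posSemidef_iff.1 hB
  set ell := trR L with hell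
  have hel : ∀ i, l i ≤ ell := fun i => by
    rw [hell, hV.trR_eq]
    exact Finset.single_le_sum (fun j _ => hl j) (Finset.mem_univ i)
  have hub : ∀ j, u j ≤ trR B := fun j => by
    rw [hW.trR_eq]
    exact Finset.single_le_sum (fun j _ => hu j) (Finset.mem_univ j)
  have hellnn : 0 ≤ ell := trR_nonneg hL
  have hbnn : 0 ≤ trR B := trR_nonneg hB
  have hsq : ∀ i, √(l i) < √(l i + t) := fun i => Real.sqrt_lt_sqrt (hl i) (by linarith)
  set Q := qM L t with hQdef
  set T := (t : ℂ) • Q⁻¹ with hTdef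
  have hQ := spec_qM hV t
  have hT : Spec T V fun i => √(l i + t) - √(l i) :=
    spec_congr ((hQ.inv fun i => ne_of_gt
      (by linarith [hsq i, Real.sqrt_nonneg (l i)])).smul t) fun i => by
        field_simp [ne_of_gt (by linarith [hsq i, Real.sqrt_nonneg (l i)] :
          0 < √(l i + t) + √(l i))]
        linear_combination Real.mul_self_sqrt (hl i) -
          Real.mul_self_sqrt (by linarith [hl i] : 0 ≤ l i + t)
  have hTpd : T.PosDef := hT.posDef_iff.2 fun i => sub_pos.2 (hsq i)
  have hQT : Q = T + (2 : ℂ) • sqrtM L := by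
    refine spec_unique (spec_congr hQ fun i => ?_)
      (by simpa using spec_add hT (hV.sqrtM.smul 2))
    ring
  have hQT' : Q + T = (2 : ℂ) • muM L t := by
    refine spec_unique (spec_congr (spec_add hQ hT) fun i => ?_)
      (by simpa [muM] using (hV.add_smul_one t).sqrtM.smul 2)
    ring
  have pd1 : ∀ v : ℝ, 0 ≤ v → v ≤ 1 → (Q - (v : ℂ) • B).PosDef := by
    intro v h0 h1
    have e : Q - (v : ℂ) • B =
        T + (((1 - v : ℝ) : ℂ) • ((2 : ℂ) • sqrtM L) + (v : ℂ) • ((2 : ℂ) • sqrtM L - B)) := by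
      rw [hQT]
      push_cast
      module
    rw [e]
    have h2 : ((2 : ℂ) • sqrtM L).PosSemidef := by
      simpa using ((hV.sqrtM.smul 2).posSemidef_iff.2 fun i => by positivity)
    exact hTpd.add_posSemidef ((h2.smul (Complex.zero_le_real.2 (sub_nonneg.2 h1))).add
      (hLB.smul (Complex.zero_le_real.2 h0)))
  have pd2 : ∀ v : ℝ, 0 ≤ v → (T + (v : ℂ) • B).PosDef := fun v h0 =>
    hTpd.add_posSemidef (hB.smul (Complex.zero_le_real.2 h0))
  -- one step
  have step : ∀ v h : ℝ, 0 ≤ v → 0 ≤ h → v + h ≤ 1 →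
      psiQ Q (((v + h : ℝ) : ℂ) • B) t - psiQ Q ((v : ℂ) • B) t ≤
        h * (trR B * (2 * Real.log (√(ell + t) + h * trR B / 2) - Real.log t)) := by
    intro v h hv hh hvh
    set X := Q - (v : ℂ) • B with hX
    set Y := T + ((v + h : ℝ) : ℂ) • B with hY
    have hXp : X.PosDef := pd1 v hv (by linarith)
    have hYp : Y.PosDef := pd2 _ (by linarith)
    have k1 := klein_eta hXp (pd1 (v + h) (by linarith) hvh)
    have k2 := klein_eta hYp (pd2 v hv)
    have d1 : X - (Q - ((v + h : ℝ) : ℂ) • B) = (h : ℂ) • B := by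
      rw [hX]; push_cast; module
    have d2 : Y - (T + (v : ℂ) • B) = (h : ℂ) • B := by
      rw [hY]; push_cast; module
    rw [d1, Matrix.mul_smul, trR_sum_smul] at k1
    rw [d2, Matrix.mul_smul, trR_sum_smul] at k2
    have hsum : X + Y = (2 : ℂ) • muM L t + (h : ℂ) • B := by
      rw [← hQT', hX, hY]; push_cast; module
    have key : trR (logM X * B) + trR (logM Y * B) ≤
        trR B * (2 * Real.log (√(ell + t) + h * trR B / 2)) := by
      obtain ⟨VX, x, hVX⟩ := exists_spec hXp.isHermitian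
      obtain ⟨VY, y, hVY⟩ := exists_spec hYp.isHermitian
      have ec : ∀ Z : CMat n, trR (Z * B) = ∑ j, u j * ((Wᴴ * Z * W) j j).re := fun Z => by
        rw [trR, Matrix.trace_mul_comm]
        exact hW.trR_mul Z
      rw [ec, ec, ← Finset.sum_add_distrib, hW.trR_eq, Finset.sum_mul]
      refine Finset.sum_le_sum fun j _ => ?_
      rw [← mul_add]
      refine mul_le_mul_of_nonneg_left ?_ (hu j)
      obtain ⟨x0, x1⟩ := log_conj_le hVX (hVX.posDef_iff.1 hXp) hW.1 j
      obtain ⟨y0, y1⟩ := log_conj_le hVY (hVY.posDef_iff.1 hYp) hW.1 j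
      set p := ((Wᴴ * X * W) j j).re
      set q := ((Wᴴ * Y * W) j j).re
      have hm : p + q ≤ 2 * (√(ell + t) + h * trR B / 2) := by
        have e : p + q = ((Wᴴ * (X + Y) * W) j j).re := by
          simp [p, q, Matrix.mul_add, Matrix.add_mul]
        have emu : ((Wᴴ * muM L t * W) j j).re ≤ √(ell + t) := by
          rw [muM, conj_diag_re (hV.add_smul_one t).sqrtM]
          calc _ ≤ ∑ i, Complex.normSq ((Vᴴ * W) i j) * √(ell + t) :=
                Finset.sum_le_sum fun i _ => mul_le_mul_of_nonneg_left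
                  (Real.sqrt_le_sqrt (by linarith [hel i])) (Complex.normSq_nonneg _)
            _ = _ := by rw [← Finset.sum_mul, sum_weights hV hW.1 j, one_mul]
        have eB : ((Wᴴ * B * W) j j).re = u j := by rw [hW.conj_self]; simp
        rw [e, hsum]
        simp only [Matrix.mul_add, Matrix.add_mul, Matrix.mul_smul, Matrix.smul_mul,
          Matrix.add_apply, Matrix.smul_apply, smul_eq_mul, Complex.add_re,
          Complex.re_ofNat, Complex.im_ofNat, Complex.mul_re, Complex.ofReal_re,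
          Complex.ofReal_im, zero_mul, sub_zero, eB]
        nlinarith [mul_le_mul_of_nonneg_left (hub j) hh]
      have hpq : Real.log p + Real.log q ≤ 2 * Real.log (√(ell + t) + h * trR B / 2) := by
        rw [← Real.log_mul x0.ne' y0.ne',
          show (2 : ℝ) * Real.log (√(ell + t) + h * trR B / 2) =
            ((2 : ℕ) : ℝ) * Real.log (√(ell + t) + h * trR B / 2) by norm_num, ← Real.log_pow]
        exact Real.log_le_log (mul_pos x0 y0) (by nlinarith [sq_nonneg (p - q)])
      rw [hW.trR_eq] at hpq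
      linarith
    have hfin := mul_le_mul_of_nonneg_left key hh
    have et : ∀ r : ℝ, trR ((r : ℂ) • B) * Real.log t = r * trR B * Real.log t := fun r => by
      rw [trR_sum_smul]
    simp only [psiQ, et]
    linarith
  -- telescoping
  have tele : ∀ N : ℕ, 0 < N → psiQ Q B t ≤
      trR B * (2 * Real.log (√(ell + t) + (1 / (N : ℝ)) * trR B / 2) - Real.log t) := by
    intro N hN
    have hN' : (0 : ℝ) < N := Nat.cast_pos.2 hN
    set K := trR B * (2 * Real.log (√(ell + t) + (1 / (N : ℝ)) * trR B / 2) - Real.log t)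
    have ind : ∀ k : ℕ, k ≤ N → psiQ Q (((k / N : ℝ) : ℂ) • B) t ≤ k / N * K := by
      intro k
      induction k with
      | zero => intro _; simp [psiQ_zero]
      | succ k ih =>
        intro hk
        have hk' : (k : ℝ) + 1 ≤ N := by exact_mod_cast hk
        have e : ((k + 1 : ℕ) : ℝ) / N = k / N + 1 / N := by push_cast; ring
        have := step (k / N) (1 / N) (by positivity) (by positivity)
          (by rw [← add_div, div_le_one hN']; exact hk')
        rw [e, add_mul]
        linarith [ih (by omega)]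
    have := ind N le_rfl
    rwa [div_self hN'.ne', Complex.ofReal_one, one_smul, one_mul] at this
  have hlim : Tendsto (fun N : ℕ =>
      trR B * (2 * Real.log (√(ell + t) + (1 / (N : ℝ)) * trR B / 2) - Real.log t)) atTop
      (𝓝 (trR B * Real.log (1 + ell / t))) := by
    have e : trR B * Real.log (1 + ell / t) =
        trR B * (2 * Real.log (√(ell + t) + 0 * trR B / 2) - Real.log t) := by
      rw [zero_mul, zero_div, add_zero, Real.log_sqrt (by linarith),
        show 1 + ell / t = (ell + t) / t by field_simp; ring,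
        Real.log_div (by linarith) ht.ne']
      ring
    rw [e]
    refine (((((tendsto_const_nhds.add ((tendsto_one_div_atTop_nhds_zero_nat.mul_const
      _).div_const 2)).log ?_).const_mul 2).sub_const _).const_mul _)
    simp only [zero_mul, zero_div, add_zero]
    positivity
  exact ge_of_tendsto hlim (eventually_atTop.2 ⟨1, fun N hN => tele N hN⟩)

end Endpoints

open Endpoints in
/-- `psiA` vanishes at `B = 0`. -/
theorem psiA_zero {n : ℕ} (α : ℝ) (L : CMat n) : psiA α L 0 = 0 := by
  simp [psiA, psiQ_zero]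

open Endpoints in
/-- The value on the line `L = B²/4`. -/
theorem psiA_half {n : ℕ} (α : ℝ) (B : CMat n) (hα : 1 / 2 < α) (hα1 : α < 1)
    (hB : B.PosSemidef) :
    psiA α ((1 / 4 : ℂ) • (B * B)) B =
      jconst α * trF (fun s => s ^ (2 * α + 1)) ((1 / 2 : ℂ) • B) := by
  obtain ⟨V, b, hV⟩ := exists_spec hB.isHermitian
  have hb := hV.posSemidef_iff.1 hB
  have hL : Spec ((1 / 4 : ℂ) • (B * B)) V fun i => (b i / 2) ^ 2 := by
    have := spec_congr ((hV.mul hV).smul (1 / 4)) (b := fun i => (b i / 2) ^ 2) fun i => by ring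
    simpa using this
  have hh : Spec ((1 / 2 : ℂ) • B) V fun i => 1 / 2 * b i := by simpa using hV.smul (1 / 2)
  rw [psiA_comm (by linarith) hα1 hL hV hb (fun i => by linarith), hh.trF_eq, Finset.mul_sum]
  refine Finset.sum_congr rfl fun i _ => ?_
  have := integral_half (α := α) (s := b i / 2) (by linarith) (by linarith [hb i])
  rw [mul_div_cancel₀ _ two_ne_zero] at this
  rw [this]
  ring_nf

open Endpoints in
/-- Growth of `psiA` along `L = b² I`, `b` the top eigenvalue of `B`. -/
theorem psiA_scalar_lower {n : ℕ} (α : ℝ) (hα : 1 / 2 < α) (hα1 : α < 1) :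
    ∃ c : ℝ, 0 < c ∧
      ∀ (B V : CMat n) (u : Fin n → ℝ) (b : ℝ), Spec B V u → (∀ i, 0 ≤ u i) → (∀ i, u i ≤ b) →
        ∀ i, u i = b → c * b ^ (2 * α + 1) ≤ psiA α (((b ^ 2 : ℝ) : ℂ) • 1) B := by
  have h0 : (0 : ℝ) < α := by linarith
  refine ⟨(α + 1)⁻¹, by positivity, fun B V u b hV hu hub i hi => ?_⟩
  have hb : 0 ≤ b := hi ▸ hu i
  rw [psiA_comm h0 hα1 (s := fun _ => b) (spec_const hV (b ^ 2)) hV hu
    (fun j => by linarith [hub j])]
  refine le_trans (integral_lower h0 hb) ?_
  have := Finset.single_le_sum (f := fun j => ∫ v in (0 : ℝ)..u j, (b ^ 2 - (b - v) ^ 2) ^ α)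
    (fun j _ => intervalIntegral.integral_nonneg (hu j) fun v hv =>
      Real.rpow_nonneg (by nlinarith [hv.1, hv.2, hub j]) _) (Finset.mem_univ i)
  simpa [hi] using this

open Endpoints in
/-- The upper bound for `psiA`. -/
theorem psiA_upper {n : ℕ} (α : ℝ) (hα : 1 / 2 < α) (hα1 : α < 1) :
    ∃ C : ℝ, ∀ L B : CMat n, Feasible L B → psiA α L B ≤ C * trR B * (1 + trR L) ^ α := by
  have h0 : (0 : ℝ) < α := by linarith
  refine ⟨1, fun L B hF => ?_⟩
  have hB := trR_nonneg hF.2.1
  have hL := trR_nonneg hF.1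
  rw [one_mul]
  by_cases hi : IntegrableOn (fun t => t ^ (α - 1) * psiQ (qM L t) B t) (Ioi (0 : ℝ))
  · have hm := setIntegral_mono_on hi ((integrableOn_logKernel h0 hα1 hL).const_mul (trR B))
      measurableSet_Ioi fun t ht =>
        show t ^ (α - 1) * psiQ (qM L t) B t ≤
          trR B * (t ^ (α - 1) * Real.log (1 + trR L / t)) by
          calc _ ≤ t ^ (α - 1) * (trR B * Real.log (1 + trR L / t)) :=
                mul_le_mul_of_nonneg_left (psiQ_le ht hF) (Real.rpow_nonneg (le_of_lt ht) _)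
            _ = _ := by ring
    rw [integral_const_mul] at hm
    calc psiA α L B
        ≤ kconst α * (trR B * ∫ t in Ioi (0 : ℝ), t ^ (α - 1) * Real.log (1 + trR L / t)) :=
          mul_le_mul_of_nonneg_left hm (kconst_pos h0 hα1).le
      _ = trR B * trR L ^ α := by rw [mul_left_comm, kconst_mul_logKernel h0 hα1 hL]
      _ ≤ _ := mul_le_mul_of_nonneg_left (Real.rpow_le_rpow hL (by linarith) h0.le) hB
  · rw [psiA, integral_undef hi, mul_zero]
    positivity

end Vale.Agent.P371.Calib
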