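import Vale.Agent.P371.Calib.EndDefs
import Vale.Agent.P371.Calib.Endpoints

/-!
# P371: the calibration at the endpoints `P = 0`
-/

namespace Vale.Agent.P371.Calib

open Matrix MeasureTheory Set
open scoped ComplexOrder

variable {n : ℕ}

namespace Endpoints

/-- Young's inequality with the endpoint constant. -/
theorem young_bconst {γ x g : ℝ} (hγ : 1 < γ) (hx : 0 ≤ x) (hg : 0 ≤ g) :
    g * x ≤ jconst (γ - 1 / 2) * x ^ γ + bconst γ * g ^ (γ / (γ - 1)) := by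
  have hJ := jconst_pos_aux (by linarith : (0 : ℝ) < γ - 1 / 2)
  have hg0 : 0 < γ := by linarith
  have hg1 : γ - 1 ≠ 0 := by linarith
  set J := jconst (γ - 1 / 2) with hJdef
  have hc : 0 < γ * J := mul_pos hg0 hJ
  have hpq : γ.HolderConjugate (γ / (γ - 1)) := Real.HolderConjugate.conjExponent hγ
  have h := Real.young_inequality_of_nonneg
    (mul_nonneg hx (Real.rpow_nonneg hc.le (1 / γ)))
    (mul_nonneg hg (Real.rpow_nonneg hc.le (-(1 / γ)))) hpq
  rw [Real.mul_rpow hx (Real.rpow_nonneg hc.le _), ← Real.rpow_mul hc.le,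
    one_div_mul_cancel hg0.ne', Real.rpow_one, Real.mul_rpow hg (Real.rpow_nonneg hc.le _),
    ← Real.rpow_mul hc.le] at h
  have e1 : -(1 / γ) * (γ / (γ - 1)) = -(1 / (γ - 1)) := by field_simp
  rw [e1] at h
  have e2 : x * (γ * J) ^ (1 / γ) * (g * (γ * J) ^ (-(1 / γ))) = g * x := by
    have : (γ * J) ^ (1 / γ) * (γ * J) ^ (-(1 / γ)) = 1 := by
      rw [← Real.rpow_add hc, add_neg_cancel, Real.rpow_zero]
    linear_combination (g * x) * this
  have e3 : γ ^ (γ / (γ - 1)) = γ * γ ^ (1 / (γ - 1)) := by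
    rw [show γ / (γ - 1) = 1 + 1 / (γ - 1) by field_simp; ring, Real.rpow_add hg0,
      Real.rpow_one]
  have e4 : g ^ (γ / (γ - 1)) * (γ * J) ^ (-(1 / (γ - 1))) / (γ / (γ - 1)) =
      bconst γ * g ^ (γ / (γ - 1)) := by
    rw [bconst, ← hJdef, e3, Real.mul_rpow hg0.le hJ.le, Real.rpow_neg hg0.le]
    field_simp
  have e5 : x ^ γ * (γ * J) / γ = J * x ^ γ := by field_simp
  rw [e2, e4, e5] at h
  exact h

theorem bconst_nonneg {γ : ℝ} (hγ : 1 < γ) : 0 ≤ bconst γ :=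
  mul_nonneg (div_nonneg (by linarith) (Real.rpow_nonneg (by linarith) _))
    (Real.rpow_nonneg (jconst_pos_aux (by linarith)).le _)

theorem trR_inv_add_one {L V : CMat n} {l : Fin n → ℝ} (hL : Spec L V l) (hl : ∀ i, 0 ≤ l i) :
    0 ≤ trR (L + 1)⁻¹ ∧ trR (L + 1)⁻¹ ≤ n := by
  have e : Spec (L + 1) V fun i => l i + 1 := by simpa using hL.add_smul_one 1
  have hp : ∀ i, 0 < l i + 1 := fun i => by linarith [hl i]
  rw [(e.inv fun i => (hp i).ne').trR_eq]
  refine ⟨Finset.sum_nonneg fun i _ => inv_nonneg.2 (hp i).le, ?_⟩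
  calc ∑ i, (l i + 1)⁻¹ ≤ ∑ _i : Fin n, (1 : ℝ) :=
        Finset.sum_le_sum fun i _ => inv_le_one_of_one_le₀ (by linarith [hl i])
    _ = n := by simp

/-- The inner supremum is bounded below at `P = 0` and a diagonal `G`. -/
theorem innerV_lower {γ ε : ℝ} {g : Fin n → ℝ} (hγ : 1 < γ) (hγ' : γ < 3 / 2) (hε : 0 ≤ ε)
    (hg : ∀ i, 0 ≤ g i) {B : CMat n} (hB : B.PosSemidef) :
    -bconst γ * (∑ i, g i ^ (γ / (γ - 1))) - ε * n ≤
      innerV (γ - 1 / 2) ε 0 (diagonal fun i => (g i : ℂ)) B := by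
  set G : CMat n := diagonal fun i => (g i : ℂ) with hG
  set K := -bconst γ * (∑ i, g i ^ (γ / (γ - 1))) - ε * n with hK
  have hK0 : K ≤ 0 := by
    have h1 : 0 ≤ bconst γ * ∑ i, g i ^ (γ / (γ - 1)) :=
      mul_nonneg (bconst_nonneg hγ) (Finset.sum_nonneg fun i _ => Real.rpow_nonneg (hg i) _)
    have h2 : 0 ≤ ε * n := mul_nonneg hε (Nat.cast_nonneg n)
    rw [hK]
    linarith
  by_cases hbd : BddAbove ((fun L => obj (γ - 1 / 2) ε 0 G L B) '' {L | Feasible L B})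
  swap
  · rw [innerV, Real.sSup_of_not_bddAbove hbd]
    exact hK0
  obtain ⟨V, b, hV⟩ := exists_spec hB.isHermitian
  have hb := hV.posSemidef_iff.1 hB
  have hL : Spec ((1 / 4 : ℂ) • (B * B)) V fun i => (b i / 2) ^ 2 := by
    have := spec_congr ((hV.mul hV).smul (1 / 4)) (b := fun i => (b i / 2) ^ 2) fun i => by ring
    simpa using this
  have hF : Feasible ((1 / 4 : ℂ) • (B * B)) B := by
    refine ⟨hL.posSemidef_iff.2 fun i => sq_nonneg _, hB, ?_⟩
    have := spec_sub (hL.sqrtM.smul 2) hV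
    refine (Complex.ofReal_ofNat 2 ▸ this).posSemidef_iff.2 fun i => ?_
    rw [Real.sqrt_sq (by linarith [hb i])]
    linarith
  refine le_trans ?_ (le_csSup hbd ⟨_, hF, rfl⟩)
  have hh : Spec ((1 / 2 : ℂ) • B) V fun i => 1 / 2 * b i := by simpa using hV.smul (1 / 2)
  simp only [obj]
  rw [psiA_half (γ - 1 / 2) B (by linarith) (by linarith) hB, hh.trF_eq, hL.trR_mul,
    show trR ((0 : CMat n) * rM ((1 / 4 : ℂ) • (B * B)) B) = 0 by simp [trR]]
  have hgd : Spec G 1 g := ⟨by simp, by simp, by simp [hG]⟩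
  have hinv := mul_le_mul_of_nonneg_left (trR_inv_add_one hL fun i => sq_nonneg _).2 hε
  have key : ∑ j, (b j / 2) ^ 2 * ((Vᴴ * G * V) j j).re ≤
      jconst (γ - 1 / 2) * ∑ j, (1 / 2 * b j) ^ (2 * (γ - 1 / 2) + 1) +
        bconst γ * ∑ i, g i ^ (γ / (γ - 1)) := by
    have ej : ∑ j, (b j / 2) ^ 2 * ((Vᴴ * G * V) j j).re =
        ∑ j, ∑ i, Complex.normSq (V i j) * (g i * (b j / 2) ^ 2) := by
      refine Finset.sum_congr rfl fun j _ => ?_
      rw [conj_diag_re hgd, Finset.mul_sum]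
      refine Finset.sum_congr rfl fun i _ => ?_
      simp only [conjTranspose_one, Matrix.one_mul]
      ring
    have eJ : jconst (γ - 1 / 2) * ∑ j, (1 / 2 * b j) ^ (2 * (γ - 1 / 2) + 1) =
        ∑ j, ∑ i, Complex.normSq (V i j) * (jconst (γ - 1 / 2) * ((b j / 2) ^ 2) ^ γ) := by
      rw [Finset.mul_sum]
      refine Finset.sum_congr rfl fun j _ => ?_
      rw [← Finset.sum_mul, hV.sum_normSq_col, one_mul,
        show 2 * (γ - 1 / 2) + 1 = ((2 : ℕ) : ℝ) * γ by push_cast; ring,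
        Real.rpow_natCast_mul (by linarith [hb j])]
      ring_nf
    have eB : bconst γ * ∑ i, g i ^ (γ / (γ - 1)) =
        ∑ j, ∑ i, Complex.normSq (V i j) * (bconst γ * g i ^ (γ / (γ - 1))) := by
      rw [Finset.sum_comm, Finset.mul_sum]
      refine Finset.sum_congr rfl fun i _ => ?_
      rw [← Finset.sum_mul, hV.sum_normSq_row, one_mul]
    rw [ej, eJ, eB, ← Finset.sum_add_distrib]
    refine Finset.sum_le_sum fun j _ => ?_
    rw [← Finset.sum_add_distrib]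
    refine Finset.sum_le_sum fun i _ => ?_
    rw [← mul_add]
    exact mul_le_mul_of_nonneg_left (young_bconst hγ (sq_nonneg _) (hg i))
      (Complex.normSq_nonneg _)
  rw [hK]
  linarith

theorem innerV_zero_le {γ ε δ : ℝ} (hε : 0 ≤ ε) (hδ : 0 ≤ δ) :
    innerV (γ - 1 / 2) ε (0 : CMat n) ((δ : ℂ) • 1) 0 ≤ 0 := by
  refine Real.sSup_le ?_ le_rfl
  rintro _ ⟨L, hL, rfl⟩
  obtain ⟨V, l, hV⟩ := exists_spec hL.1.isHermitian
  have h1 : 0 ≤ ε * trR (L + 1)⁻¹ :=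
    mul_nonneg hε (trR_inv_add_one hV (hV.posSemidef_iff.1 hL.1)).1
  have h2 : 0 ≤ trR (L * ((δ : ℂ) • 1)) := by
    rw [Matrix.mul_smul, Matrix.mul_one, trR_sum_smul]
    exact mul_nonneg hδ (trR_nonneg hL.1)
  simp only [obj, psiA_zero]
  rw [show trR ((0 : CMat n) * rM L 0) = 0 by simp [trR]]
  linarith

end Endpoints

open Endpoints in
/-- The calibration at the two endpoints. -/
theorem value_end {n : ℕ} (γ ε δ : ℝ) (g : Fin n → ℝ) (hγ : 1 < γ) (hγ' : γ < 3 / 2)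
    (hε : 0 < ε) (hδ : 0 < δ) (hg : ∀ i, δ ≤ g i) :
    -bconst γ * (∑ i, g i ^ (γ / (γ - 1))) - ε * n ≤
        value (γ - 1 / 2) ε 0 (diagonal fun i => (g i : ℂ)) ∧
      value (γ - 1 / 2) ε (0 : CMat n) ((δ : ℂ) • 1) ≤ 0 := by
  refine ⟨le_csInf (Set.Nonempty.image _ ⟨0, Matrix.PosSemidef.zero⟩) ?_, ?_⟩
  · rintro _ ⟨B, hB, rfl⟩
    exact innerV_lower hγ hγ' hε.le (fun i => le_trans hδ.le (hg i)) hB
  · refine le_trans (csInf_le ?_ ⟨0, Matrix.PosSemidef.zero, rfl⟩)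
      (innerV_zero_le hε.le hδ.le)
    refine ⟨-bconst γ * (∑ _i : Fin n, δ ^ (γ / (γ - 1))) - ε * n, ?_⟩
    rintro _ ⟨B, hB, rfl⟩
    rw [show ((δ : ℂ) • (1 : CMat n)) = Matrix.diagonal fun _ => (δ : ℂ) from smul_one_eq_diagonal _]
    exact innerV_lower hγ hγ' hε.le (fun _ => hδ.le) hB

end Vale.Agent.P371.Calib
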