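import Vale.Agent.P371.Calib.Final
import Vale.Agent.P371.Calib.ValueEnd
import Vale.Agent.P371.Calib.Value
import Vale.Agent.P371.Calib.PerT
import Vale.Agent.P371.Calib.KTrace
import Vale.Agent.LT.AL

/-!
# P371: the sharp constant for every exponent from one to three halves, every matrix size
-/

namespace Vale.Agent.P371.Calib

open MeasureTheory Matrix

theorem oneState_one : Gamma.oneState 1 = 4 / (3 * √3 * Real.pi) := by
  have h52 : Real.Gamma (5 / 2) = 3 / 4 * √Real.pi := by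
    rw [show (5 / 2 : ℝ) = 3 / 2 + 1 by norm_num, Real.Gamma_add_one (by norm_num),
      show (3 / 2 : ℝ) = 1 / 2 + 1 by norm_num, Real.Gamma_add_one (by norm_num),
      Real.Gamma_one_half_eq]
    ring
  rw [Gamma.oneState, show (1 : ℝ) + 1 = 2 by norm_num, Real.Gamma_two,
    show (1 : ℝ) + 3 / 2 = 5 / 2 by norm_num, h52, show (1 : ℝ) - 1 / 2 = 1 / 2 by norm_num,
    show (1 / 2 : ℝ) / (1 + 1 / 2) = 1 / 3 by norm_num, ← Real.sqrt_eq_rpow,
    Real.sqrt_div zero_le_one, Real.sqrt_one]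
  have h := Real.mul_self_sqrt Real.pi_pos.le
  have : √Real.pi ≠ 0 := (Real.sqrt_pos.2 Real.pi_pos).ne'
  have h3 : √(3 : ℝ) ≠ 0 := by positivity
  field_simp
  nlinarith [h]

theorem ratiosPow_one (m : ℕ) : ratiosPow 1 m = LT.ratios m := by
  ext r
  simp only [ratiosPow, LT.ratios, Set.mem_setOf_eq, Real.rpow_one,
    show (1 : ℝ) + 1 / 2 = 3 / 2 by norm_num]
  rfl

theorem isGreatest_ratiosPow {γ : ℝ} (h1 : 1 ≤ γ) (h2 : γ < 3 / 2) {m : ℕ} (hm : 1 ≤ m) :
    IsGreatest (ratiosPow γ m) (Gamma.oneState γ) := by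
  rcases h1.eq_or_lt with rfl | h1
  · rw [ratiosPow_one, oneState_one]
    exact LT.isGreatest_ratios hm
  have ha : 1 / 2 < γ - 1 / 2 := by linarith
  have hb : γ - 1 / 2 < 1 := by linarith
  exact isGreatest_of_value h1 hm
    (fun ε δ T he hd => value_deriv (per_t_of_trace kmat_trace) (γ - 1 / 2) ε δ T ha hb he hd)
    (fun ε δ T R he hd => value_lipschitz (γ - 1 / 2) ε δ T R ha hb he hd)
    (fun ε δ g => value_end γ ε δ g h1 h2)

end Vale.Agent.P371.Calib
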