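import Vale.Agent.P371.Calib.Spec

/-!
# P371: continuity of the functional calculus of Hermitian matrices in the matrix
-/

namespace Vale.Agent.P371.Calib

open Matrix Set Filter
open scoped ComplexOrder Topology

variable {n : ℕ}

/-- Hermitian matrices with all eigenvalues in `s`. -/
def SpecIn (s : Set ℝ) : Set (CMat n) := {A | ∃ V a, Spec A V a ∧ ∀ i, a i ∈ s}

namespace Spec

variable {A V W : CMat n} {a b : Fin n → ℝ}

theorem exists_eq (h : Spec A V a) (h' : Spec A W b) (j : Fin n) : ∃ i, b i = a j := by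
  set U := Wᴴ * V with hU
  have key : diagonal (fun i => (b i : ℂ)) * U = U * diagonal fun i => (a i : ℂ) := by
    rw [← h'.conj_self, ← h.conj_self, hU]
    calc Wᴴ * A * W * (Wᴴ * V) = Wᴴ * A * (W * Wᴴ) * V := by simp only [Matrix.mul_assoc]
      _ = Wᴴ * (V * Vᴴ) * A * V := by rw [h'.2.1, h.2.1]; simp only [Matrix.mul_one]
      _ = _ := by simp only [Matrix.mul_assoc]
  by_contra hne
  push Not at hne
  have hz : ∀ i, U i j = 0 := fun i => by
    have e := congrFun (congrFun key i) j
    simp only [diagonal_mul, mul_diagonal] at e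
    rw [mul_comm (U i j)] at e
    by_contra h0
    exact hne i (Complex.ofReal_inj.1 (mul_right_cancel₀ h0 e))
  have h1 : Uᴴ * U = 1 := by
    simp only [hU, conjTranspose_mul, conjTranspose_conjTranspose, Matrix.mul_assoc]
    rw [← Matrix.mul_assoc W, h'.2.1, Matrix.one_mul, h.1]
  have h2 := congrFun (congrFun h1 j) j
  simp [Matrix.mul_apply, hz] at h2

theorem norm_entry_le_one (h : Spec A V a) (i j : Fin n) : ‖V i j‖ ≤ 1 := by
  have h1 : Complex.normSq (V i j) ≤ ∑ k, Complex.normSq (V i k) :=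
    Finset.single_le_sum (f := fun k => Complex.normSq (V i k))
      (fun _ _ => Complex.normSq_nonneg _) (Finset.mem_univ j)
  rw [h.sum_normSq_row i, Complex.normSq_eq_norm_sq] at h1
  nlinarith [norm_nonneg (V i j)]

theorem diag_eq (h : Spec A V a) (j : Fin n) :
    a j = ((Vᴴ * A * V) j j).re := by simp [h.conj_self]

end Spec

theorem abs_quad_le {W : CMat n} (hW : ∀ i j, ‖W i j‖ ≤ 1) (D : CMat n) (i j : Fin n) :
    ‖(Wᴴ * D * W) i j‖ ≤ ∑ k, ∑ l, ‖D k l‖ := by
  simp only [Matrix.mul_apply, conjTranspose_apply, Finset.sum_mul]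
  refine (norm_sum_le _ _).trans ?_
  rw [Finset.sum_comm (f := fun k l => ‖D k l‖)]
  refine Finset.sum_le_sum fun l _ => (norm_sum_le _ _).trans (Finset.sum_le_sum fun k _ => ?_)
  rw [norm_mul, norm_mul, norm_star]
  exact (mul_le_of_le_one_right (by positivity) (hW l j)).trans
    (mul_le_of_le_one_left (norm_nonneg _) (hW k i))

theorem Spec.abs_eig_le {A V : CMat n} {a : Fin n → ℝ} (h : Spec A V a) (j : Fin n) :
    |a j| ≤ ∑ k, ∑ l, ‖A k l‖ := by
  rw [h.diag_eq j]
  exact (Complex.abs_re_le_norm _).trans (abs_quad_le h.norm_entry_le_one A j j)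

theorem mem_specIn_of_posDef {A : CMat n} (hA : A.PosDef) : A ∈ SpecIn (Ioi 0) := by
  obtain ⟨V, a, h⟩ := exists_spec hA.isHermitian
  exact ⟨V, a, h, fun i => h.posDef_iff.1 hA i⟩

theorem mem_specIn_of_posSemidef {A : CMat n} (hA : A.PosSemidef) : A ∈ SpecIn (Ici 0) := by
  obtain ⟨V, a, h⟩ := exists_spec hA.isHermitian
  exact ⟨V, a, h, fun i => h.posSemidef_iff.1 hA i⟩

/-- A function continuous on `s` induces a continuous map on matrices with spectrum in `s`. -/
theorem continuousOn_cfc {s : Set ℝ} {f : ℝ → ℝ} (hf : ContinuousOn f s) :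
    ContinuousOn (fun A : CMat n => cfc f A) (SpecIn s) := by
  have : TopologicalSpace.MetrizableSpace (CMat n) :=
    inferInstanceAs (TopologicalSpace.MetrizableSpace (Fin n → Fin n → ℂ))
  have : FirstCountableTopology (CMat n) :=
    inferInstanceAs (FirstCountableTopology (Fin n → Fin n → ℂ))
  intro A hA
  refine tendsto_of_seq_tendsto fun u hu => tendsto_of_subseq_tendsto fun ns hns => ?_
  obtain ⟨hu1, hu2⟩ := tendsto_nhdsWithin_iff.1 hu
  obtain ⟨k0, hk0⟩ := eventually_atTop.1 hu2
  choose V a hVa hmem using fun k => hk0 (max (ns k) k0) (le_max_right _ _)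
  have hns' : ∀ᶠ k in atTop, max (ns k) k0 = ns k :=
    (hns.eventually (eventually_ge_atTop k0)).mono fun k hk => max_eq_left hk
  have huA : Tendsto (fun k => u (max (ns k) k0)) atTop (𝓝 A) := by
    refine (hu1.comp hns).congr' (hns'.mono fun k hk => ?_)
    simp [hk]
  set N : CMat n → ℝ := fun X => ∑ k, ∑ l, ‖X k l‖
  have hN : Continuous N := continuous_finsetSum _ fun k _ => continuous_finsetSum _ fun l _ =>
    ((continuous_apply l).comp (continuous_apply k)).norm
  obtain ⟨R, hR⟩ := (((hN.tendsto A).comp huA).norm).bddAbove_range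
  have hbox : ∀ k i, a k i ∈ Icc (-R) R := fun k i => abs_le.1
    (((hVa k).abs_eig_le i).trans ((le_abs_self _).trans (hR ⟨k, rfl⟩)))
  have hK : IsCompact ((univ.pi fun _ : Fin n => univ.pi fun _ : Fin n =>
      Metric.closedBall (0 : ℂ) 1) ×ˢ (univ.pi fun _ : Fin n => Icc (-R) R)) :=
    (isCompact_univ_pi fun _ => isCompact_univ_pi fun _ => isCompact_closedBall _ _).prod
      (isCompact_univ_pi fun _ => isCompact_Icc)
  obtain ⟨⟨V0, a0⟩, -, φ, hφ, hlim⟩ :=
    IsCompact.tendsto_subseq (X := (Fin n → Fin n → ℂ) × (Fin n → ℝ)) hK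
      (x := fun k => (Matrix.of.symm (V k), a k))
      fun k => ⟨fun i _ j _ => mem_closedBall_zero_iff.2 ((hVa k).norm_entry_le_one i j),
        fun i _ => hbox k i⟩
  have hV : Tendsto (fun k => V (φ k)) atTop (𝓝 (Matrix.of V0)) := hlim.fst_nhds
  have ha : Tendsto (fun k => a (φ k)) atTop (𝓝 a0) := hlim.snd_nhds
  have cT : Continuous fun X : CMat n => Xᴴ := continuous_id.matrix_conjTranspose
  have h0 : Spec A (Matrix.of V0) a0 := by
    refine ⟨?_, ?_, ?_⟩
    · refine tendsto_nhds_unique (((cT.tendsto _).comp hV).mul hV) ?_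
      simp only [Function.comp_apply, (hVa _).1]
      exact tendsto_const_nhds
    · refine tendsto_nhds_unique (hV.mul ((cT.tendsto _).comp hV)) ?_
      simp only [Function.comp_apply, (hVa _).2.1]
      exact tendsto_const_nhds
    · have hd : Continuous fun b : Fin n → ℝ => (diagonal fun i => (b i : ℂ) : CMat n) :=
        (continuous_pi fun i => Complex.continuous_ofReal.comp (continuous_apply i)).matrix_diagonal
      refine tendsto_nhds_unique (huA.comp hφ.tendsto_atTop) ?_
      refine ((hV.mul ((hd.tendsto _).comp ha)).mul ((cT.tendsto _).comp hV)).congr fun k => ?_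
      exact (hVa (φ k)).2.2.symm
  have ha0 : ∀ i, a0 i ∈ s := fun i => by
    obtain ⟨W, b, hWb, hb⟩ := hA
    obtain ⟨j, hj⟩ := h0.exists_eq hWb i
    exact hj ▸ hb j
  have hfa : Tendsto (fun k => (diagonal fun i => (f (a (φ k) i) : ℂ) : CMat n)) atTop
      (𝓝 (diagonal fun i => (f (a0 i) : ℂ))) := by
    refine (continuous_id.matrix_diagonal.tendsto _).comp (tendsto_pi_nhds.2 fun i => ?_)
    refine (Complex.continuous_ofReal.tendsto _).comp ((hf (a0 i) (ha0 i)).tendsto.comp ?_)
    exact tendsto_nhdsWithin_iff.2 ⟨tendsto_pi_nhds.1 ha i,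
      Eventually.of_forall fun k => hmem _ i⟩
  refine ⟨φ, ?_⟩
  show Tendsto (fun k => cfc f (u (ns (φ k)))) atTop (𝓝 (cfc f A))
  rw [h0.cfc_eq f]
  refine ((hV.mul hfa).mul ((cT.tendsto _).comp hV)).congr' ?_
  filter_upwards [hφ.tendsto_atTop.eventually hns'] with k hk
  simp only [Function.comp_apply]
  rw [← (hVa (φ k)).cfc_eq f, hk]

end Vale.Agent.P371.Calib
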