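import Vale.Agent.P371.Calib.TBound
import Vale.Agent.P371.Calib.Cont

/-!
# P371: continuity of the integrands on feasible pairs
-/

namespace Vale.Agent.P371.Calib

open Matrix Set Filter
open scoped ComplexOrder Topology

variable {n : ℕ} {t : ℝ}

theorem sqrtM_continuousOn : ContinuousOn (sqrtM (n := n)) {L | L.PosSemidef} :=
  (continuousOn_cfc (f := Real.sqrt) (s := Ici 0) Real.continuous_sqrt.continuousOn).mono
    fun _ h => mem_specIn_of_posSemidef h

theorem muM_continuousOn (ht : 0 < t) :
    ContinuousOn (fun L : CMat n => muM L t) {L | L.PosSemidef} := by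
  refine sqrtM_continuousOn.comp ((continuous_id.add continuous_const).continuousOn) fun L hL => ?_
  obtain ⟨V, l, h⟩ := exists_spec hL.1
  exact (h.add_smul_one t).posSemidef_iff.2 fun k => by
    linarith [h.posSemidef_iff.1 hL k]

theorem apM_continuousOn (ht : 0 < t) :
    ContinuousOn (fun p : CMat n × CMat n => apM p.1 p.2 t) {p | Feasible p.1 p.2} :=
  ((muM_continuousOn ht).comp continuousOn_fst (fun _ h => h.1)).add
    (sqrtM_continuousOn.comp continuousOn_fst fun _ h => h.1) |>.sub continuousOn_snd

theorem amM_continuousOn (ht : 0 < t) :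
    ContinuousOn (fun p : CMat n × CMat n => amM p.1 p.2 t) {p | Feasible p.1 p.2} :=
  ((muM_continuousOn ht).comp continuousOn_fst (fun _ h => h.1)).sub
    (sqrtM_continuousOn.comp continuousOn_fst fun _ h => h.1) |>.add continuousOn_snd

theorem logM_continuousOn : ContinuousOn (logM (n := n)) {A | A.PosDef} :=
  (continuousOn_cfc (f := Real.log) (s := Ioi 0)
    (Real.continuousOn_log.mono fun _ hx => ne_of_gt hx)).mono fun _ h => mem_specIn_of_posDef h

theorem trF_eta_continuousOn : ContinuousOn (trF (n := n) eta) {A | A.PosDef} := by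
  refine (Complex.continuous_re.comp continuous_id.matrix_trace).comp_continuousOn ?_
  refine (continuousOn_cfc (f := eta) (s := Ioi 0) ?_).mono fun _ h => mem_specIn_of_posDef h
  exact (continuousOn_id.mul (Real.continuousOn_log.mono fun _ hx => ne_of_gt hx)).sub continuousOn_id

theorem yT_continuousOn (ht : 0 < t) :
    ContinuousOn (fun p : CMat n × CMat n => yT p.1 p.2 t) {p | Feasible p.1 p.2} :=
  ((logM_continuousOn.comp (apM_continuousOn ht) fun _ h => apM_posDef h ht).add
    (logM_continuousOn.comp (amM_continuousOn ht) fun _ h => amM_posDef h ht)).sub continuousOn_const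

theorem psiQ_continuousOn (ht : 0 < t) :
    ContinuousOn (fun p : CMat n × CMat n => psiQ (qM p.1 t) p.2 t) {p | Feasible p.1 p.2} := by
  have hm : ContinuousOn (fun p : CMat n × CMat n => muM p.1 t) {p | Feasible p.1 p.2} :=
    (muM_continuousOn ht).comp continuousOn_fst fun _ h => h.1
  have hs : ContinuousOn (fun p : CMat n × CMat n => sqrtM p.1) {p | Feasible p.1 p.2} :=
    sqrtM_continuousOn.comp continuousOn_fst fun _ h => h.1
  have h1 : ContinuousOn (fun p : CMat n × CMat n => trF eta (qM p.1 t)) {p | Feasible p.1 p.2} :=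
    trF_eta_continuousOn.comp (hm.add hs) fun p h => qM_posDef h.1 ht
  have h2 : ContinuousOn (fun p : CMat n × CMat n => trF eta (qM p.1 t - p.2))
      {p | Feasible p.1 p.2} :=
    trF_eta_continuousOn.comp (apM_continuousOn ht) fun p h => apM_posDef h ht
  have h3 : ContinuousOn (fun p : CMat n × CMat n => trF eta ((t : ℂ) • (qM p.1 t)⁻¹))
      {p | Feasible p.1 p.2} := by
    refine (trF_eta_continuousOn.comp (hm.sub hs) fun p h => ?_).congr fun p h => ?_
    · show (muM p.1 t - sqrtM p.1).PosDef
      rw [← smul_qM_inv h.1 ht]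
      exact (qM_posDef h.1 ht).inv.smul (by exact_mod_cast ht)
    · simp only [Function.comp_apply]
      rw [smul_qM_inv h.1 ht]
      rfl
  have h4 : ContinuousOn (fun p : CMat n × CMat n => trF eta ((t : ℂ) • (qM p.1 t)⁻¹ + p.2))
      {p | Feasible p.1 p.2} :=
    (trF_eta_continuousOn.comp (amM_continuousOn ht) fun p h => amM_posDef h ht).congr
      fun p h => by simp only [Function.comp_apply]; rw [amM_eq h.1 ht]
  have h5 : Continuous (fun p : CMat n × CMat n => trR p.2 * Real.log t) :=
    (Complex.continuous_re.comp continuous_snd.matrix_trace).mul continuous_const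
  exact (((h1.sub h2).sub h3).add h4).sub h5.continuousOn

end Vale.Agent.P371.Calib
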