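import Vale.Agent.LT.Defs

/-!
# P371: definitions for the calibration of the exponents between one and three halves

`α = γ - 1/2`.  The calibration is `inf_B sup_L obj α ε P G L B` over feasible pairs.
-/

namespace Vale.Agent.P371.Calib

open Matrix MeasureTheory Set
open scoped ComplexOrder

variable {n : ℕ}

/-- Complex square matrices. -/
abbrev CMat (n : ℕ) : Type := Matrix (Fin n) (Fin n) ℂ

/-- Real part of the trace. -/
noncomputable def trR (A : CMat n) : ℝ := A.trace.re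

/-- `V` is unitary and `A = V diag(a) Vᴴ`. -/
def Spec (A V : CMat n) (a : Fin n → ℝ) : Prop :=
  Vᴴ * V = 1 ∧ V * Vᴴ = 1 ∧ A = V * diagonal (fun i => (a i : ℂ)) * Vᴴ

/-- Logarithm by functional calculus. -/
noncomputable def logM (A : CMat n) : CMat n := cfc Real.log A

/-- Square root by functional calculus. -/
noncomputable def sqrtM (A : CMat n) : CMat n := cfc Real.sqrt A

/-- `x log x - x`. -/
noncomputable def eta (x : ℝ) : ℝ := x * Real.log x - x

/-- `tr f(A)`. -/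
noncomputable def trF (f : ℝ → ℝ) (A : CMat n) : ℝ := trR (cfc f A)

/-- The derivative of the logarithm at `A` applied to `H`. -/
noncomputable def dlogM (A H : CMat n) : CMat n :=
  Matrix.of fun i j => ∫ s in Ioi (0 : ℝ), ((A + (s : ℂ) • 1)⁻¹ * H * (A + (s : ℂ) • 1)⁻¹) i j

/-- `dlog_A[(A+B)⁻¹] + dlog_B[(A+B)⁻¹]`. -/
noncomputable def kmat (A B : CMat n) : CMat n := dlogM A (A + B)⁻¹ + dlogM B (A + B)⁻¹

/-- `√(L + t)`. -/
noncomputable def muM (L : CMat n) (t : ℝ) : CMat n := sqrtM (L + (t : ℂ) • 1)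

/-- `√(L + t) + √L`. -/
noncomputable def qM (L : CMat n) (t : ℝ) : CMat n := muM L t + sqrtM L

/-- `μ + R` with `R = √L - B`. -/
noncomputable def apM (L B : CMat n) (t : ℝ) : CMat n := muM L t + sqrtM L - B

/-- `μ - R` with `R = √L - B`. -/
noncomputable def amM (L B : CMat n) (t : ℝ) : CMat n := muM L t - sqrtM L + B

/-- `log (μ + R) + log (μ - R) - log t`. -/
noncomputable def yT (L B : CMat n) (t : ℝ) : CMat n :=
  logM (apM L B t) + logM (amM L B t) - (Real.log t : ℂ) • 1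

/-- The potential of `yT` in `B`, as a function of `Q = μ + √L`. -/
noncomputable def psiQ (Q B : CMat n) (t : ℝ) : ℝ :=
  trF eta Q - trF eta (Q - B) - trF eta ((t : ℂ) • Q⁻¹) + trF eta ((t : ℂ) • Q⁻¹ + B)
    - trR B * Real.log t

/-- Normalisation: `x ^ α = kconst α * ∫ t^(α-1) log (1 + x/t)`. -/
noncomputable def kconst (α : ℝ) : ℝ :=
  (∫ t in Ioi (0 : ℝ), t ^ (α - 1) * Real.log (1 + 1 / t))⁻¹

/-- The potential. -/
noncomputable def psiA (α : ℝ) (L B : CMat n) : ℝ :=
  kconst α * ∫ t in Ioi (0 : ℝ), t ^ (α - 1) * psiQ (qM L t) B t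

/-- Its gradient in `B`. -/
noncomputable def palM (α : ℝ) (L B : CMat n) : CMat n :=
  Matrix.of fun i j =>
    (kconst α : ℂ) * ∫ t in Ioi (0 : ℝ), ((t ^ (α - 1) : ℝ) : ℂ) * yT L B t i j

/-- `L ≥ 0`, `B ≥ 0` and `B ≤ 2√L`. -/
def Feasible (L B : CMat n) : Prop :=
  L.PosSemidef ∧ B.PosSemidef ∧ ((2 : ℂ) • sqrtM L - B).PosSemidef

/-- `√L - B`. -/
noncomputable def rM (L B : CMat n) : CMat n := sqrtM L - B

/-- The objective. -/
noncomputable def obj (α ε : ℝ) (P G L B : CMat n) : ℝ :=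
  trR (P * rM L B) - trR (L * G) + psiA α L B - ε * trR (L + 1)⁻¹

/-- The inner supremum. -/
noncomputable def innerV (α ε : ℝ) (P G B : CMat n) : ℝ :=
  sSup ((fun L => obj α ε P G L B) '' {L | Feasible L B})

/-- The calibration. -/
noncomputable def value (α ε : ℝ) (P G : CMat n) : ℝ :=
  sInf ((fun B => innerV α ε P G B) '' {B | B.PosSemidef})

/-- `∫_{-1}^{1} (1-σ²)^α`. -/
noncomputable def jconst (α : ℝ) : ℝ := ∫ σ in (-1 : ℝ)..1, (1 - σ ^ 2) ^ α

end Vale.Agent.P371.Calib
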