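import Vale.Agent.P371.Calib.Cont
import Vale.Agent.LT.MatCalc

/-!
# P371: the derivative of the matrix logarithm
-/

namespace Vale.Agent.P371.Calib

open Matrix MeasureTheory Set Filter
open scoped ComplexOrder Topology

variable {n : ℕ}

/-- Columns of an isometry have norm one. -/
theorem sum_normSq_of_mul {U : CMat n} (hU : Uᴴ * U = 1) (j : Fin n) :
    ∑ i, Complex.normSq (U i j) = 1 := by
  have e := congrArg Complex.re (congrFun (congrFun hU j) j)
  simpa [Matrix.mul_apply, Complex.re_sum, Complex.normSq_apply] using e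

/-! ### The scalar kernel -/

theorem integrableOn_inv_sq {a : ℝ} (ha : 0 < a) :
    IntegrableOn (fun s : ℝ => ((a + s) ^ 2)⁻¹) (Ioi 0) := by
  refine integrableOn_Ioi_deriv_of_nonneg' (g := fun s => -(a + s)⁻¹) (l := 0) (fun s hs => ?_)
    (fun s _ => by positivity) ?_
  · have : a + s ≠ 0 := (add_pos_of_pos_of_nonneg ha hs).ne'
    exact (((hasDerivAt_id s).const_add a).inv this).neg.congr_deriv (by simp; field_simp)
  · simpa using (tendsto_inv_atTop_zero.comp (tendsto_atTop_add_const_left _ a tendsto_id)).neg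

theorem abs_kernel_le {a b m s : ℝ} (hm : 0 < m) (ha : m ≤ a) (hb : m ≤ b) (hs : 0 ≤ s) :
    |(a + s)⁻¹ * (b + s)⁻¹| ≤ ((m + s) ^ 2)⁻¹ := by
  have h1 : 0 < m + s := by linarith
  rw [abs_mul, abs_of_pos (inv_pos.2 (by linarith)), abs_of_pos (inv_pos.2 (by linarith)), sq,
    mul_inv]
  exact mul_le_mul (inv_anti₀ h1 (by linarith)) (inv_anti₀ h1 (by linarith))
    (inv_nonneg.2 (by linarith)) (inv_nonneg.2 h1.le)

theorem integrableOn_kernel {a b : ℝ} (ha : 0 < a) (hb : 0 < b) :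
    IntegrableOn (fun s : ℝ => (a + s)⁻¹ * (b + s)⁻¹) (Ioi 0) := by
  refine (integrableOn_inv_sq (lt_min ha hb)).mono' (by fun_prop) ?_
  filter_upwards [ae_restrict_mem measurableSet_Ioi] with s hs
  exact abs_kernel_le (lt_min ha hb) (min_le_left _ _) (min_le_right _ _) (le_of_lt hs)

theorem tendsto_log_div (a b : ℝ) :
    Tendsto (fun s => Real.log (a + s) - Real.log (b + s)) atTop (𝓝 0) := by
  have ht : Tendsto (fun s : ℝ => (a - b) / (b + s)) atTop (𝓝 0) :=
    tendsto_const_nhds.div_atTop (tendsto_atTop_add_const_left _ b tendsto_id)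
  have h2 : Tendsto (fun s => Real.log (1 + (a - b) / (b + s))) atTop (𝓝 (Real.log (1 + 0))) :=
    (Real.continuousAt_log (by norm_num)).tendsto.comp (ht.const_add 1)
  rw [add_zero, Real.log_one] at h2
  refine h2.congr' ?_
  filter_upwards [eventually_gt_atTop (-a), eventually_gt_atTop (-b)] with s ha hb
  rw [← Real.log_div (by linarith) (by linarith)]
  congr 1
  rw [eq_div_iff (by linarith), add_mul, div_mul_cancel₀ _ (by linarith)]
  ring

theorem log_sub_log {a b : ℝ} (ha : 0 < a) (hb : 0 < b) :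
    (a - b) * ∫ s in Ioi (0 : ℝ), (a + s)⁻¹ * (b + s)⁻¹ = Real.log a - Real.log b := by
  rw [← integral_const_mul]
  have h : ∫ s in Ioi (0 : ℝ), (a - b) * ((a + s)⁻¹ * (b + s)⁻¹) =
      -0 - -(Real.log (a + 0) - Real.log (b + 0)) := by
    refine integral_Ioi_of_hasDerivAt_of_tendsto'
      (f := fun s => -(Real.log (a + s) - Real.log (b + s))) (fun s hs => ?_)
      ((integrableOn_kernel ha hb).const_mul _) (tendsto_log_div a b).neg
    have h1 : a + s ≠ 0 := (add_pos_of_pos_of_nonneg ha hs).ne'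
    have h2 : b + s ≠ 0 := (add_pos_of_pos_of_nonneg hb hs).ne'
    refine ((((hasDerivAt_id s).const_add a).log h1).sub
      (((hasDerivAt_id s).const_add b).log h2)).neg.congr_deriv ?_
    simp only [id_eq]
    field_simp
    ring
  simpa using h

/-! ### The integrand -/

theorem integrand_eq {A V B W : CMat n} {a b : Fin n → ℝ} (hA : Spec A V a) (hB : Spec B W b)
    (ha : ∀ i, 0 < a i) (hb : ∀ i, 0 < b i) (H : CMat n) {s : ℝ} (hs : 0 ≤ s) (i j : Fin n) :
    ((A + (s : ℂ) • 1)⁻¹ * H * (B + (s : ℂ) • 1)⁻¹) i j =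
      ∑ l, ∑ k, (V i k * (Vᴴ * H * W) k l * star (W j l)) *
        (((a k + s)⁻¹ * (b l + s)⁻¹ : ℝ) : ℂ) := by
  rw [((hA.add_smul_one s).inv fun k => (add_pos_of_pos_of_nonneg (ha k) hs).ne').2.2,
    ((hB.add_smul_one s).inv fun k => (add_pos_of_pos_of_nonneg (hb k) hs).ne').2.2]
  set D := diagonal fun k => (((a k + s)⁻¹ : ℝ) : ℂ)
  set E := diagonal fun k => (((b k + s)⁻¹ : ℝ) : ℂ) with hE
  rw [show V * D * Vᴴ * H * (W * E * Wᴴ) = V * D * (Vᴴ * H * W) * E * Wᴴ by
    simp only [Matrix.mul_assoc]]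
  rw [Matrix.mul_apply]
  refine Finset.sum_congr rfl fun l _ => ?_
  rw [hE, mul_diagonal, Matrix.mul_apply, Finset.sum_mul, Finset.sum_mul]
  refine Finset.sum_congr rfl fun k _ => ?_
  simp only [D, mul_diagonal, conjTranspose_apply]
  push_cast
  ring

theorem sandwich_eq {A V B W : CMat n} {a b : Fin n → ℝ} (hA : Spec A V a) (hB : Spec B W b)
    (ha : ∀ i, 0 < a i) (hb : ∀ i, 0 < b i) (H : CMat n) (i j : Fin n) :
    ∫ s in Ioi (0 : ℝ), ((A + (s : ℂ) • 1)⁻¹ * H * (B + (s : ℂ) • 1)⁻¹) i j =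
      ∑ l, ∑ k, (V i k * (Vᴴ * H * W) k l * star (W j l)) *
        ((∫ s in Ioi (0 : ℝ), (a k + s)⁻¹ * (b l + s)⁻¹ : ℝ) : ℂ) := by
  rw [setIntegral_congr_fun measurableSet_Ioi
    fun s hs => integrand_eq hA hB ha hb H (le_of_lt hs) i j]
  have hI : ∀ l k, Integrable (fun s : ℝ => (V i k * (Vᴴ * H * W) k l * star (W j l)) *
      (((a k + s)⁻¹ * (b l + s)⁻¹ : ℝ) : ℂ)) (volume.restrict (Ioi 0)) := fun l k =>
    ((integrableOn_kernel (ha k) (hb l)).ofReal).const_mul _
  rw [integral_finsetSum _ fun l _ => integrable_finsetSum _ fun k _ => hI l k]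
  refine Finset.sum_congr rfl fun l _ => ?_
  rw [integral_finsetSum _ fun k _ => hI l k]
  refine Finset.sum_congr rfl fun k _ => ?_
  rw [integral_const_mul, integral_complex_ofReal]

theorem dlogM_spec {A V : CMat n} {a : Fin n → ℝ} (h : Spec A V a) (ha : ∀ i, 0 < a i)
    (H : CMat n) (i j : Fin n) :
    (Vᴴ * dlogM A H * V) i j =
      ((∫ s in Ioi (0 : ℝ), (a i + s)⁻¹ * (a j + s)⁻¹ : ℝ) : ℂ) * (Vᴴ * H * V) i j := by
  set K : CMat n := Matrix.of fun k l =>
    ((∫ s in Ioi (0 : ℝ), (a k + s)⁻¹ * (a l + s)⁻¹ : ℝ) : ℂ) * (Vᴴ * H * V) k l with hK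
  have e : dlogM A H = V * K * Vᴴ := by
    ext p q
    rw [dlogM, Matrix.of_apply, sandwich_eq h h ha ha H p q, Matrix.mul_apply]
    refine Finset.sum_congr rfl fun l _ => ?_
    rw [Matrix.mul_apply, Finset.sum_mul]
    refine Finset.sum_congr rfl fun k _ => ?_
    simp only [hK, Matrix.of_apply, conjTranspose_apply]
    ring
  have e2 : Vᴴ * (V * K * Vᴴ) * V = K := by
    simp only [← Matrix.mul_assoc, h.1, Matrix.one_mul]
    rw [Matrix.mul_assoc, h.1, Matrix.mul_one]
  rw [e, e2, hK, Matrix.of_apply]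

/-- The difference of two logarithms as an integral of resolvents. -/
theorem logM_sub {A B : CMat n} (hA : A.PosDef) (hB : B.PosDef) (i j : Fin n) :
    (logM A - logM B) i j =
      ∫ s in Ioi (0 : ℝ), ((A + (s : ℂ) • 1)⁻¹ * (A - B) * (B + (s : ℂ) • 1)⁻¹) i j := by
  obtain ⟨V, a, hVa⟩ := exists_spec hA.isHermitian
  obtain ⟨W, b, hWb⟩ := exists_spec hB.isHermitian
  have ha := hVa.posDef_iff.1 hA
  have hb := hWb.posDef_iff.1 hB
  rw [sandwich_eq hVa hWb ha hb]
  have e : ∀ f : ℝ → ℝ, Vᴴ * (cfc f A - cfc f B) * W =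
      diagonal (fun k => (f (a k) : ℂ)) * (Vᴴ * W) -
        Vᴴ * W * diagonal (fun k => (f (b k) : ℂ)) := by
    intro f
    rw [hVa.cfc_eq, hWb.cfc_eq, Matrix.mul_sub, Matrix.sub_mul]
    congr 1
    · simp only [← Matrix.mul_assoc, hVa.1, Matrix.one_mul]
    · simp only [← Matrix.mul_assoc]
      rw [Matrix.mul_assoc, hWb.1, Matrix.mul_one]
  have eid : Vᴴ * (A - B) * W = diagonal (fun k => (a k : ℂ)) * (Vᴴ * W) -
        Vᴴ * W * diagonal (fun k => (b k : ℂ)) := by
    have := e id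
    rwa [cfc_id (R := ℝ) A hA.isHermitian.isSelfAdjoint,
      cfc_id (R := ℝ) B hB.isHermitian.isSelfAdjoint] at this
  have back : logM A - logM B = V * (Vᴴ * (cfc Real.log A - cfc Real.log B) * W) * Wᴴ := by
    rw [logM, logM]
    simp only [← Matrix.mul_assoc, hVa.2.1, Matrix.one_mul]
    rw [Matrix.mul_assoc, hWb.2.1, Matrix.mul_one]
  rw [back, Matrix.mul_apply]
  refine Finset.sum_congr rfl fun l _ => ?_
  rw [Matrix.mul_apply, Finset.sum_mul]
  refine Finset.sum_congr rfl fun k _ => ?_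
  rw [eid, e Real.log]
  simp only [Matrix.sub_apply, diagonal_mul, mul_diagonal, conjTranspose_apply]
  have := congrArg (fun r : ℝ => (r : ℂ)) (log_sub_log (ha k) (hb l))
  simp only [Complex.ofReal_mul, Complex.ofReal_sub] at this
  linear_combination (-(V i k * (Vᴴ * W) k l * star (W j l))) * this

/-! ### Bounds on the resolvent -/

theorem Spec.eig_ge {A V B W : CMat n} {a b : Fin n → ℝ} (hA : Spec A V a) (hB : Spec B W b)
    {m : ℝ} (ha : ∀ i, m ≤ a i) (j : Fin n) : m - ∑ k, ∑ l, ‖(B - A) k l‖ ≤ b j := by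
  have e : Wᴴ * B * W = Wᴴ * A * W + Wᴴ * (B - A) * W := by
    rw [Matrix.mul_sub, Matrix.sub_mul, add_sub_cancel]
  have hU1 : (Vᴴ * W)ᴴ * (Vᴴ * W) = 1 := by
    rw [conjTranspose_mul, conjTranspose_conjTranspose, Matrix.mul_assoc, ← Matrix.mul_assoc V,
      hA.2.1, Matrix.one_mul, hB.1]
  have h1 : (Wᴴ * A * W) j j = ((∑ i, Complex.normSq ((Vᴴ * W) i j) * a i : ℝ) : ℂ) := by
    have : Wᴴ * A * W = (Vᴴ * W)ᴴ * diagonal (fun i => (a i : ℂ)) * (Vᴴ * W) := by
      rw [conjTranspose_mul, conjTranspose_conjTranspose]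
      conv_lhs => rw [hA.2.2]
      simp only [Matrix.mul_assoc]
    rw [this, Matrix.mul_apply, Complex.ofReal_sum]
    refine Finset.sum_congr rfl fun i _ => ?_
    rw [mul_diagonal, conjTranspose_apply, Complex.ofReal_mul, Complex.normSq_eq_conj_mul_self,
      RCLike.star_def]
    ring
  have h2 : m ≤ ∑ i, Complex.normSq ((Vᴴ * W) i j) * a i := by
    have hs : ∑ i, Complex.normSq ((Vᴴ * W) i j) = 1 := sum_normSq_of_mul hU1 j
    calc m = ∑ i, Complex.normSq ((Vᴴ * W) i j) * m := by rw [← Finset.sum_mul, hs, one_mul]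
      _ ≤ _ := Finset.sum_le_sum fun i _ =>
          mul_le_mul_of_nonneg_left (ha i) (Complex.normSq_nonneg _)
  rw [hB.diag_eq j, e, Matrix.add_apply, Complex.add_re, h1, Complex.ofReal_re]
  have := (abs_le.1 ((Complex.abs_re_le_norm _).trans
    (abs_quad_le hB.norm_entry_le_one (B - A) j j))).1
  linarith

theorem norm_resolvent_le {A V : CMat n} {a : Fin n → ℝ} (h : Spec A V a) {m s : ℝ} (hm : 0 < m)
    (ha : ∀ i, m ≤ a i) (hs : 0 ≤ s) (i j : Fin n) :
    ‖((A + (s : ℂ) • 1)⁻¹) i j‖ ≤ n * (m + s)⁻¹ := by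
  have hpos : ∀ k, 0 < a k + s := fun k => by linarith [ha k]
  rw [((h.add_smul_one s).inv fun k => (hpos k).ne').2.2, Matrix.mul_apply]
  calc _ ≤ ∑ k, ‖(V * diagonal fun i => (((a i + s)⁻¹ : ℝ) : ℂ)) i k * Vᴴ k j‖ := norm_sum_le _ _
    _ ≤ ∑ _k : Fin n, (m + s)⁻¹ := Finset.sum_le_sum fun k _ => by
        rw [mul_diagonal, conjTranspose_apply, norm_mul, norm_mul, norm_star, Complex.norm_real,
          Real.norm_eq_abs, abs_of_pos (inv_pos.2 (hpos k))]
        calc ‖V i k‖ * (a k + s)⁻¹ * ‖V j k‖ ≤ 1 * (m + s)⁻¹ * 1 := by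
              refine mul_le_mul (mul_le_mul (h.norm_entry_le_one i k)
                (inv_anti₀ (by linarith) (by linarith [ha k])) (inv_nonneg.2 (hpos k).le) zero_le_one)
                (h.norm_entry_le_one j k) (norm_nonneg _) (by positivity)
          _ = _ := by ring
    _ = _ := by simp

theorem posDef_add_smul {A : CMat n} (hA : A.PosDef) {s : ℝ} (hs : 0 ≤ s) :
    (A + (s : ℂ) • 1).PosDef := by
  obtain ⟨V, a, h⟩ := exists_spec hA.isHermitian
  exact (h.add_smul_one s).posDef_iff.2 fun i =>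
    add_pos_of_pos_of_nonneg (h.posDef_iff.1 hA i) hs

theorem continuous_addSmul (A : CMat n) : Continuous fun s : ℝ => A + (s : ℂ) • (1 : CMat n) :=
  continuous_const.add (Complex.continuous_ofReal.smul continuous_const)

theorem continuousAt_inv {A : CMat n} (hA : A.PosDef) :
    ContinuousAt (fun X : CMat n => X⁻¹) A := by
  refine continuousAt_matrix_inv _ ?_
  rw [Ring.inverse_eq_inv']
  exact continuousAt_inv₀ hA.det_pos.ne'

/-! ### The derivative of the logarithm -/

theorem logM_deriv {A : ℝ → CMat n} {A' : CMat n} {x : ℝ} (hpd : ∀ᶠ y in 𝓝 x, (A y).PosDef)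
    (hA : Vale.Agent.LT.MatDerivAt A A' x) :
    Vale.Agent.LT.MatDerivAt (fun y => logM (A y)) (dlogM (A x) A') x := by
  intro i j
  have h0 : (A x).PosDef := hpd.self_of_nhds
  obtain ⟨V, a, hVa⟩ := exists_spec h0.isHermitian
  obtain ⟨m, hm, hma⟩ : ∃ m, 0 < m ∧ ∀ k, m ≤ a k := by
    obtain hn | hn := isEmpty_or_nonempty (Fin n)
    · exact ⟨1, one_pos, fun k => hn.elim k⟩
    · exact ⟨Finset.univ.inf' Finset.univ_nonempty a,
        (Finset.lt_inf'_iff _).2 fun k _ => hVa.posDef_iff.1 h0 k,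
        fun k => Finset.inf'_le _ (Finset.mem_univ k)⟩
  have hslope : ∀ k l, Tendsto (fun y => (y - x)⁻¹ • ((A y) k l - (A x) k l)) (𝓝[≠] x)
      (𝓝 (A' k l)) := fun k l => by
    have := hasDerivAt_iff_tendsto_slope.1 (hA k l)
    simpa [slope_fun_def] using this
  have hAc : Tendsto A (𝓝[≠] x) (𝓝 (A x)) :=
    tendsto_pi_nhds.2 fun k => tendsto_pi_nhds.2 fun l =>
      ((hA k l).continuousAt.tendsto).mono_left nhdsWithin_le_nhds
  rw [hasDerivAt_iff_tendsto_slope]
  set F : ℝ → ℝ → ℂ := fun y s =>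
    ((A y + (s : ℂ) • 1)⁻¹ * ((y - x)⁻¹ • (A y - A x)) * (A x + (s : ℂ) • 1)⁻¹) i j with hF
  have hev : ∀ᶠ y in 𝓝[≠] x, (A y).PosDef := hpd.filter_mono nhdsWithin_le_nhds
  have key : ∀ᶠ y in 𝓝[≠] x,
      ∫ s in Ioi (0 : ℝ), F y s = slope (fun y => logM (A y) i j) x y := by
    filter_upwards [hev] with y hy
    rw [slope_def_module, ← Matrix.sub_apply, logM_sub hy h0, ← integral_smul]
    simp only [hF, Matrix.mul_smul, Matrix.smul_mul, Matrix.smul_apply]
  refine Tendsto.congr' key ?_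
  rw [dlogM, Matrix.of_apply]
  obtain ⟨M, hM⟩ : ∃ M, ∀ᶠ y in 𝓝[≠] x, ∀ k l, ‖((y - x)⁻¹ • (A y - A x)) k l‖ ≤ M := by
    refine ⟨(∑ k, ∑ l, ‖A' k l‖) + 1, eventually_all.2 fun k => eventually_all.2 fun l => ?_⟩
    have h1 := (hslope k l).norm.eventually (eventually_le_nhds (show ‖A' k l‖ <
        (∑ k, ∑ l, ‖A' k l‖) + 1 from lt_add_of_le_of_pos
      ((Finset.single_le_sum (f := fun l => ‖A' k l‖) (fun _ _ => norm_nonneg _)
        (Finset.mem_univ l)).trans (Finset.single_le_sum (f := fun k => ∑ l, ‖A' k l‖)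
        (fun _ _ => Finset.sum_nonneg fun _ _ => norm_nonneg _) (Finset.mem_univ k))) one_pos))
    filter_upwards [h1] with y hy using by simpa using hy
  have hlow : ∀ᶠ y in 𝓝[≠] x, ∀ (W : CMat n) b, Spec (A y) W b → ∀ k, m / 2 ≤ b k := by
    have hN : Continuous fun X : CMat n => ∑ k, ∑ l, ‖(X - A x) k l‖ :=
      continuous_finsetSum _ fun k _ => continuous_finsetSum _ fun l _ =>
        Continuous.norm (by simp only [Matrix.sub_apply]; exact (((continuous_id (X := CMat n)).matrix_elem k l)).sub continuous_const)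
    have := ((hN.tendsto (A x)).comp hAc).eventually
      (eventually_le_nhds (show (∑ k, ∑ l, ‖(A x - A x) k l‖) < m / 2 by simpa using half_pos hm))
    filter_upwards [this] with y hy W b hWb k
    simp only [Function.comp_apply] at hy
    linarith [hVa.eig_ge hWb hma k]
  refine tendsto_integral_filter_of_dominated_convergence
    (fun s => (n : ℝ) ^ 4 * M * ((m / 2 + s) ^ 2)⁻¹) ?_ ?_
    ((integrableOn_inv_sq (half_pos hm)).const_mul _) ?_
  · filter_upwards [hev] with y hy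
    refine ContinuousOn.aestronglyMeasurable (fun s hs => ?_) measurableSet_Ioi
    refine ContinuousAt.continuousWithinAt ?_
    have h1 := (continuousAt_inv (posDef_add_smul hy (le_of_lt hs))).comp'
      (f := fun s : ℝ => A y + (s : ℂ) • (1 : CMat n)) (continuous_addSmul (A y)).continuousAt
    have h2 := (continuousAt_inv (posDef_add_smul h0 (le_of_lt hs))).comp'
      (f := fun s : ℝ => A x + (s : ℂ) • (1 : CMat n)) (continuous_addSmul (A x)).continuousAt
    exact (((continuous_apply j).comp (continuous_apply i)).continuousAt).comp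
      ((h1.mul continuousAt_const).mul h2)
  · filter_upwards [hev, hM, hlow] with y hy hMy hly
    filter_upwards [ae_restrict_mem measurableSet_Ioi] with s hs
    obtain ⟨W, b, hWb⟩ := exists_spec hy.isHermitian
    simp only [hF, Matrix.mul_apply, Finset.sum_mul]
    have hb := hly W b hWb
    have r1 : ∀ p q, ‖((A y + (s : ℂ) • 1)⁻¹) p q‖ ≤ n * (m / 2 + s)⁻¹ :=
      norm_resolvent_le hWb (half_pos hm) hb (le_of_lt hs)
    have r2 : ∀ p q, ‖((A x + (s : ℂ) • 1)⁻¹) p q‖ ≤ n * (m / 2 + s)⁻¹ :=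
      norm_resolvent_le hVa (half_pos hm) (fun k => by linarith [hma k]) (le_of_lt hs)
    calc ‖∑ q, ∑ p, (A y + (s : ℂ) • 1)⁻¹ i p * ((y - x)⁻¹ • (A y - A x)) p q *
          (A x + (s : ℂ) • 1)⁻¹ q j‖
        ≤ ∑ q, ∑ p, ‖(A y + (s : ℂ) • 1)⁻¹ i p * ((y - x)⁻¹ • (A y - A x)) p q *
          (A x + (s : ℂ) • 1)⁻¹ q j‖ :=
          (norm_sum_le _ _).trans (Finset.sum_le_sum fun q _ => norm_sum_le _ _)
      _ ≤ ∑ _q : Fin n, ∑ _p : Fin n, (n * (m / 2 + s)⁻¹) * M * (n * (m / 2 + s)⁻¹) := by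
          refine Finset.sum_le_sum fun q _ => Finset.sum_le_sum fun p _ => ?_
          have hM0 : 0 ≤ M := (norm_nonneg _).trans (hMy p q)
          rw [norm_mul, norm_mul]
          have h0' : (0 : ℝ) ≤ n * (m / 2 + s)⁻¹ := (norm_nonneg _).trans (r1 i p)
          exact mul_le_mul (mul_le_mul (r1 i p) (hMy p q) (norm_nonneg _) h0') (r2 q j)
            (norm_nonneg _) (mul_nonneg h0' hM0)
      _ = _ := by simp only [Finset.sum_const, Finset.card_univ, Fintype.card_fin, nsmul_eq_mul]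
                  rw [sq (m / 2 + s), mul_inv]; ring
  · filter_upwards [ae_restrict_mem measurableSet_Ioi] with s hs
    have h1 : Tendsto (fun y => (A y + (s : ℂ) • 1)⁻¹) (𝓝[≠] x)
        (𝓝 (A x + (s : ℂ) • 1)⁻¹) :=
      (continuousAt_inv (posDef_add_smul h0 (le_of_lt hs))).tendsto.comp (hAc.add tendsto_const_nhds)
    have h2 : Tendsto (fun y => (y - x)⁻¹ • (A y - A x)) (𝓝[≠] x) (𝓝 A') :=
      tendsto_pi_nhds.2 fun k => tendsto_pi_nhds.2 fun l => by simpa using hslope k l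
    exact (((continuous_apply j).comp (continuous_apply i)).tendsto _).comp
      ((h1.mul h2).mul tendsto_const_nhds)

theorem logM_continuous : ContinuousOn (logM (n := n)) {A | A.PosDef} :=
  (continuousOn_cfc (Real.continuousOn_log.mono fun _ hx => ne_of_gt hx)).mono
    fun _ hA => mem_specIn_of_posDef hA

/-! ### The trace of `eta` -/

theorem eta_grad {x y : ℝ} (hx : 0 < x) (hy : 0 < y) :
    eta x + Real.log x * (y - x) ≤ eta y := by
  have h := Real.log_le_sub_one_of_pos (div_pos hx hy)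
  rw [Real.log_div hx.ne' hy.ne'] at h
  have h2 := mul_le_mul_of_nonneg_left h hy.le
  rw [mul_sub y (x / y) 1, mul_div_cancel₀ _ hy.ne'] at h2
  unfold eta
  linarith

/-- Klein's inequality for `eta`. -/
theorem trEta_grad {A B : CMat n} (hA : A.PosDef) (hB : B.PosDef) :
    trF eta A + trR (logM A * (B - A)) ≤ trF eta B := by
  obtain ⟨V, a, hVa⟩ := exists_spec hA.isHermitian
  obtain ⟨W, b, hWb⟩ := exists_spec hB.isHermitian
  have ha := hVa.posDef_iff.1 hA
  have hb := hWb.posDef_iff.1 hB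
  have hrow : ∀ i, ∑ j, Complex.normSq ((Vᴴ * W) i j) = 1 := fun i => by
    have : (Vᴴ * W) * (Vᴴ * W)ᴴ = 1 := by
      rw [conjTranspose_mul, conjTranspose_conjTranspose, Matrix.mul_assoc, ← Matrix.mul_assoc W,
        hWb.2.1, Matrix.one_mul, hVa.1]
    have e := sum_normSq_of_mul (U := (Vᴴ * W)ᴴ) (by rw [conjTranspose_conjTranspose]; exact this) i
    simpa only [conjTranspose_apply, RCLike.star_def, Complex.normSq_conj] using e
  have hcol : ∀ j, ∑ i, Complex.normSq ((Vᴴ * W) i j) = 1 := fun j => by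
    have : (Vᴴ * W)ᴴ * (Vᴴ * W) = 1 := by
      rw [conjTranspose_mul, conjTranspose_conjTranspose, Matrix.mul_assoc, ← Matrix.mul_assoc V,
        hVa.2.1, Matrix.one_mul, hWb.1]
    exact sum_normSq_of_mul this j
  have e1 : trF eta A + trR (logM A * (B - A)) =
      ∑ i, ∑ j, Complex.normSq ((Vᴴ * W) i j) *
        (eta (a i) + Real.log (a i) * (b j - a i)) := by
    have h1 : trR (logM A * (B - A)) = trR (logM A * B) - trR (logM A * A) := by
      simp [trR, Matrix.mul_sub, Matrix.trace_sub]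
    rw [h1, hVa.trF_eq, hVa.logM.trR_mul_spec hWb, (hVa.logM.mul hVa).trR_eq]
    simp only [mul_add, mul_sub, Finset.sum_add_distrib, Finset.sum_sub_distrib, ← Finset.sum_mul,
      hrow, one_mul]
  have e2 : trF eta B = ∑ i, ∑ j, Complex.normSq ((Vᴴ * W) i j) * eta (b j) := by
    rw [hWb.trF_eq, Finset.sum_comm]
    simp only [← Finset.sum_mul, hcol, one_mul]
  rw [e1, e2]
  exact Finset.sum_le_sum fun i _ => Finset.sum_le_sum fun j _ =>
    mul_le_mul_of_nonneg_left (eta_grad (ha i) (hb j)) (Complex.normSq_nonneg _)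

theorem trEta_deriv {A : ℝ → CMat n} {A' : CMat n} {x : ℝ} (hpd : ∀ᶠ y in 𝓝 x, (A y).PosDef)
    (hA : Vale.Agent.LT.MatDerivAt A A' x) :
    HasDerivAt (fun y => trF eta (A y)) (trR (logM (A x) * A')) x := by
  have h0 : (A x).PosDef := hpd.self_of_nhds
  rw [hasDerivAt_iff_tendsto_slope]
  have hev : ∀ᶠ y in 𝓝[≠] x, (A y).PosDef := hpd.filter_mono nhdsWithin_le_nhds
  have hD : Tendsto (fun y => (y - x)⁻¹ • (A y - A x)) (𝓝[≠] x) (𝓝 A') :=
    tendsto_pi_nhds.2 fun k => tendsto_pi_nhds.2 fun l => by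
      have := hasDerivAt_iff_tendsto_slope.1 (hA k l)
      simpa [slope_fun_def] using this
  have hAc : Tendsto A (𝓝[≠] x) (𝓝 (A x)) :=
    tendsto_pi_nhds.2 fun k => tendsto_pi_nhds.2 fun l =>
      ((hA k l).continuousAt.tendsto).mono_left nhdsWithin_le_nhds
  have hlog : Tendsto (fun y => logM (A y)) (𝓝[≠] x) (𝓝 (logM (A x))) :=
    (logM_continuous (A x) h0).tendsto.comp (tendsto_nhdsWithin_iff.2 ⟨hAc, hev⟩)
  have ct : Continuous fun X : CMat n => trR X :=
    Complex.continuous_re.comp continuous_id.matrix_trace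
  have lim1 : Tendsto (fun y => trR (logM (A x) * ((y - x)⁻¹ • (A y - A x)))) (𝓝[≠] x)
      (𝓝 (trR (logM (A x) * A'))) :=
    (ct.tendsto _).comp (tendsto_const_nhds.mul hD)
  have lim2 : Tendsto (fun y => trR (logM (A y) * ((y - x)⁻¹ • (A y - A x)))) (𝓝[≠] x)
      (𝓝 (trR (logM (A x) * A'))) :=
    (ct.tendsto _).comp (hlog.mul hD)
  have sc : ∀ (r : ℝ) (X Y : CMat n), trR (X * (r • Y)) = r * trR (X * Y) := fun r X Y => by
    simp [trR, Matrix.trace_smul]
  refine tendsto_of_tendsto_of_tendsto_of_le_of_le'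
    (g := fun y => min (trR (logM (A x) * ((y - x)⁻¹ • (A y - A x))))
      (trR (logM (A y) * ((y - x)⁻¹ • (A y - A x)))))
    (h := fun y => max (trR (logM (A x) * ((y - x)⁻¹ • (A y - A x))))
      (trR (logM (A y) * ((y - x)⁻¹ • (A y - A x)))))
    (by simpa using lim1.min lim2) (by simpa using lim1.max lim2) ?_ ?_
  all_goals
    filter_upwards [hev, self_mem_nhdsWithin] with y hy hne
    have g1 := trEta_grad h0 hy
    have g2 := trEta_grad hy h0
    rw [show A x - A y = -(A y - A x) by abel, Matrix.mul_neg,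
      show trR (-(logM (A y) * (A y - A x))) = -trR (logM (A y) * (A y - A x)) by
        simp [trR, Matrix.trace_neg]] at g2
    simp only [sc, slope_def_module, smul_eq_mul]
    rcases lt_or_gt_of_ne (hne : y ≠ x) with h | h
    · have := inv_neg''.2 (sub_neg.2 h)
      first
        | exact (min_le_right _ _).trans (mul_le_mul_of_nonpos_left (by linarith) this.le)
        | exact le_trans (mul_le_mul_of_nonpos_left (by linarith) this.le) (le_max_left _ _)
    · have := inv_pos.2 (sub_pos.2 h)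
      first
        | exact (min_le_left _ _).trans (mul_le_mul_of_nonneg_left (by linarith) this.le)
        | exact le_trans (mul_le_mul_of_nonneg_left (by linarith) this.le) (le_max_right _ _)

end Vale.Agent.P371.Calib
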