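import Vale.Agent.P371.Calib.Defs

/-!
# P371: the box of accumulated Gram matrices, the endpoint constant and the ratios
-/

namespace Vale.Agent.P371.Calib

open Matrix MeasureTheory
open scoped ComplexOrder

variable {n : ℕ}

/-- `δ ≤ G ≤ T`. -/
def box (δ T : ℝ) : Set (CMat n) :=
  {G | (G - (δ : ℂ) • 1).PosSemidef ∧ ((T : ℂ) • 1 - G).PosSemidef}

/-- The endpoint constant. -/
noncomputable def bconst (γ : ℝ) : ℝ :=
  (γ - 1) / γ ^ (γ / (γ - 1)) * jconst (γ - 1 / 2) ^ (-(1 / (γ - 1)))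

end Vale.Agent.P371.Calib
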