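import Vale.Agent.LT.Defs

/-!
# P371: the ratios of the Lieb-Thirring inequality for matrix potentials and a general exponent
-/

namespace Vale.Agent.P371.Calib

open MeasureTheory

/-- All ratios of `∑ |μ i| ^ γ` (finite orthonormal families of eigenfunctions with negative
eigenvalues, so with multiplicity) to `∫ tr W^(γ+1/2)`, for `m × m` potentials `W ≠ 0`. -/
def ratiosPow (γ : ℝ) (m : ℕ) : Set ℝ :=
  {r | ∃ (W : ℝ → Matrix (Fin m) (Fin m) ℂ) (N : ℕ) (μ : Fin N → ℝ)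
      (ψ : Fin N → Fin m → ℝ → ℂ),
    Vale.Agent.LT.IsPotentialPow (γ + 1 / 2) W ∧
      0 < (∫ x, Vale.Agent.LT.trPow (γ + 1 / 2) (W x)) ∧
      (∀ i, μ i < 0 ∧ Vale.Agent.LT.IsEigenfunction W (μ i) (ψ i)) ∧
      Vale.Agent.LT.IsOrthonormal ψ ∧
      r = (∑ i, |μ i| ^ γ) / ∫ x, Vale.Agent.LT.trPow (γ + 1 / 2) (W x)}

end Vale.Agent.P371.Calib
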