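import Vale.Agent.P371.Calib.Line
import Vale.Agent.P371.Calib.RatiosDefs

/-!
# P371: the exact constant for exponents between one and three halves, from the calibration
-/

namespace Vale.Agent.P371.Calib

open Matrix MeasureTheory Set Filter Complex
open scoped ComplexConjugate ComplexOrder Topology
open Vale.Agent.LT (fam trPow IsPotentialPow IsOrthonormal)

variable {m N : ℕ}

/-- The weighted kinetic inequality for matrix valued families. -/
theorem kinetic_pow {γ : ℝ} (hγ : 1 < γ) (hder : DerivHyp (γ - 1 / 2)) (hlip : LipHyp (γ - 1 / 2))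
    (hend : EndHyp γ) {t : Fin N → ℝ} (ht : ∀ i, 0 ≤ t i) {ψ dψ : Fin N → Fin m → ℝ → ℂ}
    (hψ : ∀ i c, MemH1 (ψ i c) (dψ i c)) (ho : IsOrthonormal ψ) :
    Integrable (fun x => trPow (1 + 1 / (γ - 1 / 2))
        ((fam (fun i c y => (√(t i) : ℂ) * ψ i c y) x)ᴴ *
          fam (fun i c y => (√(t i) : ℂ) * ψ i c y) x)) ∧
      ∫ x, trPow (1 + 1 / (γ - 1 / 2))
          ((fam (fun i c y => (√(t i) : ℂ) * ψ i c y) x)ᴴ *
            fam (fun i c y => (√(t i) : ℂ) * ψ i c y) x) ≤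
        (∑ i, t i * ∫ x, ∑ c, ‖dψ i c x‖ ^ 2) + bconst γ * ∑ i, t i ^ (γ / (γ - 1)) := by
  set u : Fin N → Fin m → ℝ → ℂ := fun i c y => (√(t i) : ℂ) * ψ i c y
  set du : Fin N → Fin m → ℝ → ℂ := fun i c y => (√(t i) : ℂ) * dψ i c y
  have hu : ∀ i c, MemH1 (u i c) (du i c) := fun i c =>
    ⟨(hψ i c).1.const_mul _, (hψ i c).2.1.const_mul _, fun a b => by
      simp only [u, du, intervalIntegral.integral_const_mul, (hψ i c).2.2 a b, mul_sub]⟩
  have hou : ∀ i j, ∫ x, ∑ c, conj (u i c x) * u j c x = if i = j then (t i : ℂ) else 0 := by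
    intro i j
    have e : ∀ x, ∑ c, conj (u i c x) * u j c x =
        ((√(t i) * √(t j) : ℝ) : ℂ) * ∑ c, conj (ψ i c x) * ψ j c x := fun x => by
      rw [Finset.mul_sum]
      refine Finset.sum_congr rfl fun c _ => ?_
      simp only [u, map_mul, Complex.conj_ofReal, Complex.ofReal_mul]
      ring
    simp only [e]
    rw [integral_const_mul, ho i j]
    split_ifs with h
    · subst h
      rw [mul_one, Real.mul_self_sqrt (ht i)]
    · exact mul_zero _
  have hdu : ∀ i, ∫ x, ∑ c, ‖du i c x‖ ^ 2 = t i * ∫ x, ∑ c, ‖dψ i c x‖ ^ 2 := fun i => by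
    simp [du, mul_pow, ← Finset.mul_sum, integral_const_mul, Real.sq_sqrt (ht i)]
  refine ⟨(line_approx hγ hder hlip hend ht hu hou one_pos one_pos).1, ?_⟩
  set e : ℝ := γ / (γ - 1)
  have he : 0 ≤ e := div_nonneg (by linarith) (by linarith)
  have d0 : Tendsto (fun k : ℕ => 1 / ((k : ℝ) + 1)) atTop (𝓝 0) :=
    tendsto_one_div_add_atTop_nhds_zero_nat
  have hlim : Tendsto (fun k : ℕ => (∑ i, ∫ x, ∑ c, ‖du i c x‖ ^ 2) +
      bconst γ * (∑ i, (1 / ((k : ℝ) + 1) + t i) ^ e) + 1 / ((k : ℝ) + 1) * N) atTop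
      (𝓝 ((∑ i, ∫ x, ∑ c, ‖du i c x‖ ^ 2) + bconst γ * (∑ i, (0 + t i) ^ e) + 0 * N)) :=
    (tendsto_const_nhds.add (Tendsto.const_mul _ (tendsto_finsetSum _ fun i _ =>
      (d0.add_const _).rpow_const (Or.inr he)))).add (d0.mul_const _)
  have h := ge_of_tendsto hlim (Eventually.of_forall fun k : ℕ =>
    (line_approx hγ hder hlip hend ht hu hou (ε := 1 / ((k : ℝ) + 1)) (δ := 1 / ((k : ℝ) + 1))
      (by positivity) (by positivity)).2)
  simpa only [zero_add, zero_mul, add_zero, hdu] using h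

/-- Every ratio is at most the calibrated constant. -/
theorem ratiosPow_le {γ : ℝ} (hγ : 1 < γ) (hder : DerivHyp (γ - 1 / 2))
    (hlip : LipHyp (γ - 1 / 2)) (hend : EndHyp γ) {s : ℝ} (hs : 0 < s)
    (hpos' : 0 < s - bconst γ * s ^ (γ / (γ - 1))) {r : ℝ} (hr : r ∈ ratiosPow γ m) :
    r ≤ Gamma.youngC (γ + 1 / 2) 1 / (s - bconst γ * s ^ (γ / (γ - 1))) := by
  obtain ⟨W, N, μ, ψ, hW, hpos, heig, ho, rfl⟩ := hr
  choose dψ hψ heq using fun i => (heig i).2
  have hp : 1 < γ + 1 / 2 := by linarith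
  have habs : ∀ i, 0 < |μ i| := fun i => abs_pos.2 (heig i).1.ne
  set t : Fin N → ℝ := fun i => s * |μ i| ^ (γ - 1) with ht
  have ht0 : ∀ i, 0 < t i := fun i => mul_pos hs (Real.rpow_pos_of_pos (habs i) _)
  obtain ⟨hq, hkin⟩ := kinetic_pow hγ hder hlip hend (fun i => (ht0 i).le) hψ ho
  have hexp : 1 + 1 / (γ - 1 / 2) = (γ + 1 / 2) / (γ + 1 / 2 - 1) := by
    have h : γ - 1 / 2 ≠ 0 := by linarith
    rw [show γ + 1 / 2 - 1 = γ - 1 / 2 by ring, eq_div_iff h, add_mul, one_div_mul_cancel h]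
    ring
  rw [hexp] at hq hkin
  set Q : Fin N → ℝ → ℝ := fun i x => (star (fun c => ψ i c x) ⬝ᵥ W x *ᵥ fun c => ψ i c x).re
  have hQi : ∀ i, Integrable (Q i) := fun i => by
    simpa [Q] using (Vale.Agent.LT.integrable_form hp.le hW (hψ i) (hψ i)).re
  have hid : ∀ i, |μ i| = (∫ x, Q i x) - ∫ x, ∑ c, ‖dψ i c x‖ ^ 2 := by
    intro i
    have e := congrArg Complex.re (heq i (ψ i) (dψ i) (hψ i))
    have h1 : (∫ x, ∑ c, conj (dψ i c x) * dψ i c x) =
        ((∫ x, ∑ c, ‖dψ i c x‖ ^ 2 : ℝ) : ℂ) := by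
      rw [← integral_complex_ofReal]
      simp [Complex.conj_mul']
    rw [ho i i, if_pos rfl, mul_one, Complex.sub_re, h1, Complex.ofReal_re, Complex.ofReal_re] at e
    have h2 := integral_re (Vale.Agent.LT.integrable_form hp.le hW (hψ i) (hψ i))
    simp only [RCLike.re_to_complex] at h2
    rw [abs_of_neg (heig i).1]
    simp only [Q]
    linarith
  set A : ℝ → Matrix (Fin m) (Fin N) ℂ := fam fun i c y => (√(t i) : ℂ) * ψ i c y
  have hpt : ∀ x, ∑ i, t i * Q i x ≤ Gamma.youngC (γ + 1 / 2) 1 * trPow (γ + 1 / 2) (W x) +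
      trPow ((γ + 1 / 2) / (γ + 1 / 2 - 1)) ((A x)ᴴ * A x) := by
    intro x
    have h := trR_mul_le_young hp one_pos (hW.2.1 x) (posSemidef_self_mul_conjTranspose (A x))
    rw [one_mul, trPow_swap (A x) (div_ne_zero (by linarith) (by linarith)), trR,
      Vale.Agent.LT.re_trace_mul_gram] at h
    refine le_trans (le_of_eq (Finset.sum_congr rfl fun i _ => ?_)) h
    have hcol : (fun c => A x c i) = (√(t i) : ℂ) • fun c => ψ i c x := funext fun c => by
      simp [A, fam]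
    rw [hcol, Matrix.mulVec_smul, star_smul, smul_dotProduct, dotProduct_smul, smul_smul,
      Complex.star_def, Complex.conj_ofReal, smul_eq_mul, ← Complex.ofReal_mul, re_ofReal_mul,
      Real.mul_self_sqrt (ht0 i).le]
  have hleft : ∑ i, t i * |μ i| =
      (∫ x, ∑ i, t i * Q i x) - ∑ i, t i * ∫ x, ∑ c, ‖dψ i c x‖ ^ 2 := by
    rw [integral_finsetSum _ fun i _ => (hQi i).const_mul _, ← Finset.sum_sub_distrib]
    exact Finset.sum_congr rfl fun i _ => by rw [integral_const_mul, hid i, mul_sub]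
  have hmain : (∫ x, ∑ i, t i * Q i x) ≤ Gamma.youngC (γ + 1 / 2) 1 *
      (∫ x, trPow (γ + 1 / 2) (W x)) +
      ∫ x, trPow ((γ + 1 / 2) / (γ + 1 / 2 - 1)) ((A x)ᴴ * A x) := by
    refine (integral_mono (integrable_finsetSum _ fun i _ => (hQi i).const_mul _)
      ((hW.2.2.const_mul _).add hq) hpt).trans (le_of_eq ?_)
    rw [integral_add' (hW.2.2.const_mul _) hq, integral_const_mul]
  have e1 : ∑ i, t i * |μ i| = s * ∑ i, |μ i| ^ γ := by
    rw [Finset.mul_sum]
    refine Finset.sum_congr rfl fun i _ => ?_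
    rw [ht, mul_assoc, ← Real.rpow_add_one (habs i).ne', sub_add_cancel]
  have e2 : ∑ i, t i ^ (γ / (γ - 1)) = s ^ (γ / (γ - 1)) * ∑ i, |μ i| ^ γ := by
    rw [Finset.mul_sum]
    refine Finset.sum_congr rfl fun i _ => ?_
    rw [ht, Real.mul_rpow hs.le (Real.rpow_nonneg (habs i).le _), ← Real.rpow_mul (habs i).le,
      mul_div_cancel₀ γ (by linarith : γ - 1 ≠ 0)]
  rw [e2] at hkin
  rw [e1] at hleft
  rw [div_le_iff₀ hpos, div_mul_eq_mul_div, le_div_iff₀ hpos']
  linarith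

/-- Scalar examples give examples in every size. -/
theorem ratiosPow_of_scalar {γ r : ℝ} (hγ : 1 / 2 < γ) (hm : 1 ≤ m) (hr : r ∈ Gamma.ratios γ) :
    r ∈ ratiosPow γ m := by
  obtain ⟨W, N, μ, ψ, hW, hpos, ⟨heig, ho⟩, hr⟩ := hr
  set c₀ : Fin m := ⟨0, hm⟩
  set d : ℝ → Fin m → ℝ := fun x => Function.update 0 c₀ (W x) with hd
  have hd0 : ∀ x i, 0 ≤ d x i := fun x i => by
    rcases eq_or_ne i c₀ with rfl | hi
    · simp [hd, hW.2.1 x]
    · simp [hd, hi]
  have hne : γ + (2 : ℝ)⁻¹ ≠ 0 := by norm_num; linarith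
  have hp : ∀ x, trPow (γ + 1 / 2) (diagonal fun i => (d x i : ℂ)) = W x ^ (γ + 1 / 2) := fun x => by
    rw [Vale.Agent.LT.trPow_diagonal _ (hd0 x), Finset.sum_eq_single c₀]
    · simp [hd]
    · intro i _ hi
      simp [hd, hi, Real.zero_rpow hne]
    · simp
  refine ⟨fun x => diagonal fun i => (d x i : ℂ), N, μ, fun i => Function.update 0 c₀ (ψ i),
    ⟨fun a b => ?_, fun x => PosSemidef.diagonal fun i => by simpa using hd0 x i, ?_⟩, ?_,
    fun i => ⟨(heig i).1, ?_⟩, fun i j => ?_, ?_⟩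
  · rcases eq_or_ne a b with rfl | hab
    · simp only [diagonal_apply_eq]
      rcases eq_or_ne a c₀ with rfl | ha
      · simp only [hd, Function.update_self]
        exact Complex.measurable_ofReal.comp hW.1
      · simp [hd, ha]
    · simp [hab]
  · simp only [hp]
    exact hW.2.2
  · simp only [hp]
    exact hpos
  · obtain ⟨dψ, hψ, heq⟩ := (heig i).2
    refine ⟨Function.update 0 c₀ dψ, fun c => ?_, fun φ dφ hφ => ?_⟩
    · rcases eq_or_ne c c₀ with rfl | hc
      · simpa using hψ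
      · simp only [Function.update_of_ne hc, Pi.zero_apply]
        exact ⟨MemLp.zero, MemLp.zero, fun a b => by simp⟩
    · have e := heq (φ c₀) (dφ c₀) (hφ c₀)
      have s : ∀ (u : Fin m → ℂ) (v : ℝ → ℂ) (x : ℝ),
          (∑ c, u c * Function.update (0 : Fin m → ℝ → ℂ) c₀ v c x) = u c₀ * v x := fun u v x => by
        rw [Finset.sum_eq_single c₀ (fun c _ hc => by simp [hc]) (by simp)]
        simp
      have t : ∀ x, (star (fun c => φ c x) ⬝ᵥ (diagonal fun i => (d x i : ℂ)) *ᵥ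
          fun c => Function.update (0 : Fin m → ℝ → ℂ) c₀ (ψ i) c x) =
            (W x : ℂ) * (conj (φ c₀ x) * ψ i x) := fun x => by
        simp only [dotProduct, mulVec_diagonal, Pi.star_apply, Complex.star_def, ← mul_assoc]
        rw [s (fun c => conj (φ c x) * (d x c : ℂ)) (ψ i) x]
        simp [hd, mul_comm]
      simp only [s, t]
      exact e
  · have e := ho i j
    refine Eq.trans (integral_congr_ae (Eventually.of_forall fun x => ?_)) e
    show (∑ c, _) = _
    rw [Finset.sum_eq_single c₀ (fun c _ hc => by simp [hc]) (by simp)]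
    simp
  · simp only [hp]
    exact hr

/-- The calibration gives exactly the one state constant. -/
theorem isGreatest_of_value {γ : ℝ} (hγ : 1 < γ) (hm : 1 ≤ m) (hder : DerivHyp (γ - 1 / 2))
    (hlip : LipHyp (γ - 1 / 2)) (hend : EndHyp γ) :
    IsGreatest (ratiosPow γ m) (Gamma.oneState γ) := by
  refine ⟨ratiosPow_of_scalar (by linarith) hm (Gamma.oneState_mem_ratios (by linarith)),
    fun r hr => ?_⟩
  have hα : 0 < γ - 1 / 2 := by linarith
  have h1 : 0 < γ - 1 := by linarith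
  have hγ0 : 0 < γ := by linarith
  have hJ := jconst_pos hα
  set J := jconst (γ - 1 / 2) with hJdef
  set b : ℝ := γ * bconst γ / (γ - 1)
  have hb : b = (γ * J) ^ (-(1 / (γ - 1))) := by
    simp only [b, bconst, ← hJdef]
    rw [Real.mul_rpow hγ0.le hJ.le,
      show γ / (γ - 1) = 1 + 1 / (γ - 1) by field_simp; ring, Real.rpow_add hγ0, Real.rpow_one,
      Real.rpow_neg hγ0.le]
    have := Real.rpow_pos_of_pos hγ0 (1 / (γ - 1))
    field_simp
  have hbp : b ^ (γ - 1) = (γ * J)⁻¹ := by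
    rw [hb, ← Real.rpow_mul (by positivity), neg_mul, one_div_mul_cancel h1.ne', Real.rpow_neg_one]
  have hb0 : 0 < b := by rw [hb]; exact Real.rpow_pos_of_pos (by positivity) _
  set s : ℝ := b ^ (-(γ - 1)) with hsdef
  have hs : 0 < s := Real.rpow_pos_of_pos hb0 _
  have hse : s ^ (γ / (γ - 1)) = s * b⁻¹ := by
    rw [hsdef, ← Real.rpow_mul hb0.le, ← Real.rpow_neg_one b, ← Real.rpow_add hb0]
    congr 1
    field_simp
    ring
  have hval : s - bconst γ * s ^ (γ / (γ - 1)) = J := by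
    have hB : bconst γ = b * (γ - 1) / γ := by simp only [b]; field_simp
    rw [hse, hB, hsdef, Real.rpow_neg hb0.le, hbp]
    field_simp
    ring
  have key := ratiosPow_le hγ hder hlip hend hs (by rw [hval]; exact hJ) hr
  refine key.trans (le_of_eq ?_)
  have g1 := Real.Gamma_pos_of_pos (show 0 < γ + 1 / 2 by linarith)
  have g2 := Real.Gamma_pos_of_pos (show 0 < γ + 1 by linarith)
  rw [hval, hJdef, jconst_eq hα, show γ - 1 / 2 + 1 = γ + 1 / 2 by ring,
    show γ - 1 / 2 + 3 / 2 = γ + 1 by ring, Gamma.oneState,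
    show γ + 3 / 2 = γ + 1 / 2 + 1 by ring, Real.Gamma_add_one (by linarith : γ + 1 / 2 ≠ 0),
    Gamma.youngC, mul_one, show γ + 1 / 2 - 1 = γ - 1 / 2 by ring,
    Real.rpow_neg (by positivity), Real.div_rpow hα.le (by linarith),
    Real.div_rpow (by linarith) hα.le]
  have := Real.rpow_pos_of_pos hα (γ - 1 / 2)
  have := Real.rpow_pos_of_pos (show 0 < γ + 1 / 2 by linarith) (γ - 1 / 2)
  field_simp

end Vale.Agent.P371.Calib
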