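import Vale.Agent.P371.Calib.Defs

/-!
# P371: spectral bookkeeping for Hermitian matrices
-/

namespace Vale.Agent.P371.Calib

open Matrix MeasureTheory Finset
open scoped ComplexOrder

variable {n : ℕ}

theorem exists_spec {A : CMat n} (hA : A.IsHermitian) : ∃ V a, Spec A V a := by
  refine ⟨(hA.eigenvectorUnitary : CMat n), hA.eigenvalues,
    Unitary.coe_star_mul_self hA.eigenvectorUnitary,
    Unitary.coe_mul_star_self hA.eigenvectorUnitary, ?_⟩
  have h := hA.spectral_theorem
  rw [Unitary.conjStarAlgAut_apply] at h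
  exact h

namespace Spec

variable {A V : CMat n} {a : Fin n → ℝ}

theorem isHermitian (h : Spec A V a) : A.IsHermitian := by
  rw [h.2.2]
  exact isHermitian_mul_mul_conjTranspose V (isHermitian_diagonal_of_self_adjoint _ (by
    ext i; simp))

theorem conj_self (h : Spec A V a) : Vᴴ * A * V = diagonal fun i => (a i : ℂ) := by
  rw [h.2.2]
  simp only [← Matrix.mul_assoc, h.1, Matrix.one_mul]
  rw [Matrix.mul_assoc, h.1, Matrix.mul_one]

theorem cfc_eq (h : Spec A V a) (f : ℝ → ℝ) :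
    cfc f A = V * diagonal (fun i => (f (a i) : ℂ)) * Vᴴ := by
  have hA := h.isHermitian
  obtain ⟨W, b, e, he⟩ : ∃ (W : CMat n) (b : Fin n → ℝ), Spec A W b ∧
      cfc f A = W * diagonal (fun i => (f (b i) : ℂ)) * Wᴴ := by
    refine ⟨(hA.eigenvectorUnitary : CMat n), hA.eigenvalues,
      ⟨Unitary.coe_star_mul_self hA.eigenvectorUnitary,
        Unitary.coe_mul_star_self hA.eigenvectorUnitary, ?_⟩, ?_⟩
    · have h := hA.spectral_theorem
      rw [Unitary.conjStarAlgAut_apply] at h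
      exact h
    · rw [hA.cfc_eq, Matrix.IsHermitian.cfc, Unitary.conjStarAlgAut_apply]
      rfl
  rw [he]
  set U := Wᴴ * V with hU
  have key : diagonal (fun i => (b i : ℂ)) * U = U * diagonal fun i => (a i : ℂ) := by
    rw [← e.conj_self, ← h.conj_self, hU]
    calc Wᴴ * A * W * (Wᴴ * V) = Wᴴ * A * (W * Wᴴ) * V := by simp only [Matrix.mul_assoc]
      _ = Wᴴ * (V * Vᴴ) * A * V := by rw [e.2.1, h.2.1]; simp only [Matrix.mul_one]
      _ = _ := by simp only [Matrix.mul_assoc]
  have key' : diagonal (fun i => (f (b i) : ℂ)) * U = U * diagonal fun i => (f (a i) : ℂ) := by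
    ext i j
    have := congrFun (congrFun key i) j
    simp only [diagonal_mul, mul_diagonal] at this ⊢
    rcases eq_or_ne (U i j) 0 with h0 | h0
    · simp [h0]
    · rw [mul_comm (U i j)] at this
      rw [Complex.ofReal_inj.1 (mul_right_cancel₀ h0 this), mul_comm]
  calc W * diagonal (fun i => (f (b i) : ℂ)) * Wᴴ
      = W * (diagonal (fun i => (f (b i) : ℂ)) * U) * Vᴴ := by
        simp only [hU, Matrix.mul_assoc, h.2.1, Matrix.mul_one]
    _ = W * Wᴴ * V * diagonal (fun i => (f (a i) : ℂ)) * Vᴴ := by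
        rw [key']; simp only [hU, Matrix.mul_assoc]
    _ = _ := by rw [e.2.1, Matrix.one_mul]

theorem map (h : Spec A V a) (f : ℝ → ℝ) : Spec (cfc f A) V fun i => f (a i) :=
  ⟨h.1, h.2.1, h.cfc_eq f⟩

theorem logM (h : Spec A V a) : Spec (logM A) V fun i => Real.log (a i) := h.map _

theorem sqrtM (h : Spec A V a) : Spec (sqrtM A) V fun i => √(a i) := h.map _

theorem add_smul_one (h : Spec A V a) (r : ℝ) :
    Spec (A + (r : ℂ) • 1) V fun i => a i + r := by
  refine ⟨h.1, h.2.1, ?_⟩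
  have e : (diagonal fun i => ((a i + r : ℝ) : ℂ)) =
      diagonal (fun i => (a i : ℂ)) + (r : ℂ) • (1 : CMat n) := by
    rw [smul_one_eq_diagonal, diagonal_add]
    push_cast
    rfl
  rw [e, Matrix.mul_add, Matrix.add_mul, ← h.2.2]
  simp [h.2.1]

theorem smul (h : Spec A V a) (r : ℝ) : Spec ((r : ℂ) • A) V fun i => r * a i := by
  refine ⟨h.1, h.2.1, ?_⟩
  have e : (diagonal fun i => ((r * a i : ℝ) : ℂ)) = (r : ℂ) • diagonal fun i => (a i : ℂ) := by
    rw [← diagonal_smul]
    push_cast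
    rfl
  rw [e, Matrix.mul_smul, Matrix.smul_mul, ← h.2.2]

theorem mul {B : CMat n} {b : Fin n → ℝ} (h : Spec A V a) (h' : Spec B V b) :
    Spec (A * B) V fun i => a i * b i := by
  refine ⟨h.1, h.2.1, ?_⟩
  conv_lhs => rw [h.2.2, h'.2.2]
  simp only [Matrix.mul_assoc]
  congr 1
  rw [← Matrix.mul_assoc Vᴴ, h.1, Matrix.one_mul, ← Matrix.mul_assoc (diagonal _) (diagonal _),
    diagonal_mul_diagonal]
  push_cast
  rfl

theorem inv (h : Spec A V a) (ha : ∀ i, a i ≠ 0) : Spec A⁻¹ V fun i => (a i)⁻¹ := by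
  refine ⟨h.1, h.2.1, Matrix.inv_eq_right_inv ?_⟩
  have h' : Spec (V * diagonal (fun i => (((a i)⁻¹ : ℝ) : ℂ)) * Vᴴ) V fun i => (a i)⁻¹ :=
    ⟨h.1, h.2.1, rfl⟩
  have e := (h.mul h').2.2
  simp only [mul_inv_cancel₀ (ha _), Complex.ofReal_one, diagonal_one, Matrix.mul_one, h.2.1] at e
  exact e

theorem posDef_iff (h : Spec A V a) : A.PosDef ↔ ∀ i, 0 < a i := by
  have hu : IsUnit V := ⟨⟨V, Vᴴ, h.2.1, h.1⟩, rfl⟩
  rw [h.2.2, ← star_eq_conjTranspose, hu.posDef_star_right_conjugate_iff, posDef_diagonal_iff]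
  exact forall_congr' fun i => Complex.zero_lt_real

theorem posSemidef_iff (h : Spec A V a) : A.PosSemidef ↔ ∀ i, 0 ≤ a i := by
  have hu : IsUnit V := ⟨⟨V, Vᴴ, h.2.1, h.1⟩, rfl⟩
  rw [h.2.2, ← star_eq_conjTranspose, hu.posSemidef_star_right_conjugate_iff, posSemidef_diagonal_iff]
  exact forall_congr' fun i => Complex.zero_le_real

theorem trace_conj (h : Spec A V a) (X : CMat n) : (Vᴴ * X * V).trace = X.trace := by
  rw [Matrix.trace_mul_comm, ← Matrix.mul_assoc, h.2.1, Matrix.one_mul]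

theorem trR_mul (h : Spec A V a) (X : CMat n) :
    trR (A * X) = ∑ i, a i * ((Vᴴ * X * V) i i).re := by
  have e : (A * X).trace = (diagonal (fun i => (a i : ℂ)) * (Vᴴ * X * V)).trace := by
    conv_lhs => rw [h.2.2, Matrix.mul_assoc, Matrix.mul_assoc, Matrix.trace_mul_comm]
    simp only [Matrix.mul_assoc]
  rw [trR, e]
  simp [Matrix.trace, diagonal_mul, Complex.re_sum]

theorem trR_eq (h : Spec A V a) : trR A = ∑ i, a i := by
  have := h.trR_mul 1
  simpa [h.1] using this

theorem trF_eq (h : Spec A V a) (f : ℝ → ℝ) : trF f A = ∑ i, f (a i) := (h.map f).trR_eq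

theorem det_re (h : Spec A V a) : A.det.re = ∏ i, a i := by
  have e : (diagonal fun i => (a i : ℂ)).det = A.det := by
    rw [h.2.2, Matrix.det_mul, Matrix.det_mul, mul_right_comm, ← Matrix.det_mul, h.2.1,
      Matrix.det_one, one_mul]
  rw [← e, det_diagonal, ← Complex.ofReal_prod, Complex.ofReal_re]

/-- The columns of `V` are orthonormal. -/
theorem sum_normSq_col (h : Spec A V a) (j : Fin n) : ∑ i, Complex.normSq (V i j) = 1 := by
  have e := congrArg Complex.re (congrFun (congrFun h.1 j) j)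
  simpa [Matrix.mul_apply, Complex.re_sum, Complex.normSq_apply] using e

theorem sum_normSq_row (h : Spec A V a) (i : Fin n) : ∑ j, Complex.normSq (V i j) = 1 := by
  have e := congrArg Complex.re (congrFun (congrFun h.2.1 i) i)
  simpa [Matrix.mul_apply, Complex.mul_conj, ← Complex.ofReal_sum] using e

/-- The trace of a product, with each factor in its own eigenbasis. -/
theorem trR_mul_spec (h : Spec A V a) {B W : CMat n} {b : Fin n → ℝ} (h' : Spec B W b) :
    trR (A * B) = ∑ i, ∑ j, Complex.normSq ((Vᴴ * W) i j) * (a i * b j) := by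
  rw [h.trR_mul]
  refine sum_congr rfl fun i _ => ?_
  have e : Vᴴ * B * V = Vᴴ * W * diagonal (fun j => (b j : ℂ)) * (Vᴴ * W)ᴴ := by
    rw [conjTranspose_mul, conjTranspose_conjTranspose, h'.2.2]
    simp only [Matrix.mul_assoc]
  rw [e, Matrix.mul_apply, Complex.re_sum, mul_sum]
  refine sum_congr rfl fun j _ => ?_
  simp only [mul_diagonal, conjTranspose_apply, Complex.normSq_apply, RCLike.star_def,
    Complex.mul_re, Complex.mul_im, Complex.conj_re, Complex.conj_im, Complex.ofReal_re,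
    Complex.ofReal_im]
  ring

end Spec

end Vale.Agent.P371.Calib
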