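import Vale.Agent.LT.Bound
import Vale.Agent.LT.AL
import Vale.Agent.P371.Gamma.Main
import Vale.Agent.P371.Calib.Spec

/-!
# P371: trace powers, Young's inequality and the integral of `(1 - σ²)^α`
-/

namespace Vale.Agent.P371.Calib

open Matrix MeasureTheory Set Filter
open scoped ComplexOrder Topology
open Vale.Agent.LT (trPow)

variable {m n N : ℕ}

theorem trPow_eq_sum {A V : CMat n} {a : Fin n → ℝ} (h : Spec A V a) (p : ℝ) :
    trPow p A = ∑ i, a i ^ p :=
  h.trF_eq _

theorem trPow_le {A : CMat n} (hA : A.PosSemidef) {q : ℝ} (hq : 1 ≤ q) :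
    trPow q A ≤ trR A ^ (q - 1) * trR A := by
  obtain ⟨V, a, h⟩ := exists_spec hA.1
  have ha := h.posSemidef_iff.1 hA
  rw [trPow_eq_sum h, h.trR_eq, Finset.mul_sum]
  refine Finset.sum_le_sum fun i _ => ?_
  conv_lhs => rw [show q = q - 1 + 1 by ring, Real.rpow_add_one' (ha i) (by linarith)]
  exact mul_le_mul_of_nonneg_right (Real.rpow_le_rpow (ha i)
    (Finset.single_le_sum (fun j _ => ha j) (Finset.mem_univ i)) (by linarith)) (ha i)

theorem trR_nonneg {A : CMat n} (hA : A.PosSemidef) : 0 ≤ trR A := by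
  obtain ⟨V, a, h⟩ := exists_spec hA.1
  rw [h.trR_eq]
  exact Finset.sum_nonneg fun i _ => h.posSemidef_iff.1 hA i

/-- Young's inequality for the trace of a product. -/
theorem trR_mul_le_young {p c : ℝ} (hp : 1 < p) (hc : 0 < c) {W R : CMat m} (hW : W.PosSemidef)
    (hR : R.PosSemidef) :
    trR (W * R) ≤ Gamma.youngC p c * trPow p W + c * trPow (p / (p - 1)) R := by
  obtain ⟨V, w, hw⟩ := exists_spec hW.1
  obtain ⟨Z, r, hr⟩ := exists_spec hR.1
  have hw0 := hw.posSemidef_iff.1 hW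
  have hr0 := hr.posSemidef_iff.1 hR
  have hQ1 : (Vᴴ * Z) * (Vᴴ * Z)ᴴ = 1 := by
    rw [conjTranspose_mul, conjTranspose_conjTranspose, Matrix.mul_assoc, ← Matrix.mul_assoc Z,
      hr.2.1, Matrix.one_mul, hw.1]
  have hQ2 : (Vᴴ * Z)ᴴ * (Vᴴ * Z) = 1 := by
    rw [conjTranspose_mul, conjTranspose_conjTranspose, Matrix.mul_assoc, ← Matrix.mul_assoc V,
      hw.2.1, Matrix.one_mul, hr.1]
  have col : ∀ j, ∑ i, Complex.normSq ((Vᴴ * Z) i j) = 1 := fun j => by
    have := Vale.Agent.LT.sum_normSq_row (V := (Vᴴ * Z)ᴴ)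
      (by rw [conjTranspose_conjTranspose]; exact hQ2) j
    simpa only [conjTranspose_apply, Complex.star_def, Complex.normSq_conj] using this
  rw [hw.trR_mul_spec hr, trPow_eq_sum hw, trPow_eq_sum hr]
  calc ∑ i, ∑ j, Complex.normSq ((Vᴴ * Z) i j) * (w i * r j)
      ≤ ∑ i, ∑ j, Complex.normSq ((Vᴴ * Z) i j) *
          (Gamma.youngC p c * w i ^ p + c * r j ^ (p / (p - 1))) :=
        Finset.sum_le_sum fun i _ => Finset.sum_le_sum fun j _ =>
          mul_le_mul_of_nonneg_left (Gamma.young_le hp hc (hw0 i) (hr0 j)) (Complex.normSq_nonneg _)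
    _ = _ := by
        simp only [mul_add, Finset.sum_add_distrib]
        congr 1
        · simp only [← Finset.sum_mul, Vale.Agent.LT.sum_normSq_row hQ1, one_mul, ← Finset.mul_sum]
        · rw [Finset.sum_comm]
          simp only [← Finset.sum_mul, col, one_mul, ← Finset.mul_sum]

/-- `A Aᴴ` and `Aᴴ A` have the same trace powers. -/
theorem trPow_swap (A : Matrix (Fin m) (Fin N) ℂ) {q : ℝ} (hq : q ≠ 0) :
    trPow q (A * Aᴴ) = trPow q (Aᴴ * A) := by
  have hroots : ∀ {k : ℕ} (X : CMat k), X.PosSemidef →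
      trPow q X = (X.charpoly.roots.map fun z => z.re ^ q).sum := by
    intro k X hX
    rw [trPow, hX.1.cfc_eq, Matrix.IsHermitian.cfc, Unitary.conjStarAlgAut_apply,
      Matrix.trace_mul_comm, ← Matrix.mul_assoc, Unitary.coe_star_mul_self, Matrix.one_mul,
      hX.1.roots_charpoly_eq_eigenvalues]
    simp [Matrix.trace, Function.comp_def, List.sum_ofFn]
  rw [hroots _ (posSemidef_self_mul_conjTranspose A), hroots _ (posSemidef_conjTranspose_mul_self A)]
  have h := congrArg (fun P : Polynomial ℂ => (P.roots.map fun z => z.re ^ q).sum)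
    (Matrix.charpoly_mul_comm' A Aᴴ)
  have hne : ∀ {k : ℕ} (X : CMat k) (l : ℕ), Polynomial.X ^ l * X.charpoly ≠ 0 := fun X l =>
    mul_ne_zero (pow_ne_zero _ Polynomial.X_ne_zero) X.charpoly_monic.ne_zero
  simpa [Polynomial.roots_mul (hne _ _), Polynomial.roots_X_pow, Multiset.map_nsmul,
    Multiset.sum_nsmul, Real.zero_rpow hq] using h

open scoped Matrix.Norms.L2Operator in
/-- Trace powers are continuous on bounded families of nonnegative matrices. -/
theorem continuous_trPow {X : ℝ → CMat n} (hX : Continuous X) (hp : ∀ x, (X x).PosSemidef) {R : ℝ}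
    (hR : ∀ x, trR (X x) ≤ R) {q : ℝ} (hq : 0 ≤ q) : Continuous fun x => trPow q (X x) := by
  have hc : Continuous fun x => cfc (fun t : ℝ => t ^ q) (X x) := by
    refine Continuous.cfc' (isCompact_Icc (a := 0) (b := R)) _ hX (fun x => ?_)
      (Real.continuous_rpow_const hq).continuousOn fun x => (hp x).1.isSelfAdjoint
    rw [(hp x).1.spectrum_real_eq_range_eigenvalues]
    rintro _ ⟨i, rfl⟩
    refine ⟨(hp x).eigenvalues_nonneg i, le_trans ?_ (hR x)⟩
    have : trR (X x) = ∑ j, (hp x).1.eigenvalues j := by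
      rw [trR, (hp x).1.trace_eq_sum_eigenvalues]
      simp
    rw [this]
    exact Finset.single_le_sum (fun j _ => (hp x).eigenvalues_nonneg j) (Finset.mem_univ i)
  exact Complex.continuous_re.comp hc.matrix_trace

/-- `∫_{-1}^{1} (1 - σ²)^α`. -/
theorem jconst_eq {α : ℝ} (hα : 0 < α) :
    jconst α = √Real.pi * Real.Gamma (α + 1) / Real.Gamma (α + 3 / 2) := by
  have hb := Vale.Agent.LT.beta_real (a := α + 1) (b := α + 1) (w := 1) (by linarith) (by linarith)
    one_pos
  simp only [Real.one_rpow, one_mul, add_sub_cancel_right] at hb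
  have h1 := intervalIntegral.integral_comp_mul_sub (fun σ : ℝ => (1 - σ ^ 2) ^ α)
    (two_ne_zero : (2 : ℝ) ≠ 0) (1 : ℝ) (a := 0) (b := 1)
  norm_num at h1
  have h2 : (∫ t in (0:ℝ)..1, (1 - (2 * t - 1) ^ 2) ^ α) =
      4 ^ α * ∫ t in (0:ℝ)..1, t ^ α * (1 - t) ^ α := by
    rw [← intervalIntegral.integral_const_mul]
    refine intervalIntegral.integral_congr fun t ht => ?_
    rw [Set.uIcc_of_le zero_le_one] at ht
    show (1 - (2 * t - 1) ^ 2) ^ α = 4 ^ α * (t ^ α * (1 - t) ^ α)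
    rw [show 1 - (2 * t - 1) ^ 2 = 4 * (t * (1 - t)) by ring,
      Real.mul_rpow (by norm_num) (mul_nonneg ht.1 (sub_nonneg.2 ht.2)),
      Real.mul_rpow ht.1 (sub_nonneg.2 ht.2)]
  rw [h2, hb] at h1
  have hd := Real.Gamma_mul_Gamma_add_half (α + 1)
  rw [show α + 1 + 1 / 2 = α + 3 / 2 by ring, show 2 * (α + 1) = α + 1 + (α + 1) by ring] at hd
  have g1 := Real.Gamma_pos_of_pos (show 0 < α + 1 + (α + 1) by linarith)
  have g2 := Real.Gamma_pos_of_pos (show 0 < α + 3 / 2 by linarith)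
  have e : (4 : ℝ) ^ α * 2 * (2 : ℝ) ^ (1 - (α + 1 + (α + 1))) = 1 := by
    rw [show (4 : ℝ) = 2 ^ (2 : ℝ) by norm_num, ← Real.rpow_mul (by norm_num),
      ← Real.rpow_add_one (by norm_num), ← Real.rpow_add (by norm_num)]
    norm_num
    ring_nf
    norm_num
  rw [jconst, show (∫ σ in (-1:ℝ)..1, (1 - σ ^ 2) ^ α) =
    4 ^ α * 2 * (Real.Gamma (α + 1) * Real.Gamma (α + 1) / Real.Gamma (α + 1 + (α + 1))) by linarith,
    eq_div_iff g2.ne']
  generalize Real.Gamma (α + 3 / 2) = u at hd g2 ⊢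
  generalize Real.Gamma (α + 1 + (α + 1)) = w at hd g1 ⊢
  generalize (2 : ℝ) ^ (1 - (α + 1 + (α + 1))) = c2 at hd e
  generalize (4 : ℝ) ^ α = c4 at e ⊢
  field_simp
  linear_combination (c4 * 2) * hd + (√Real.pi * w) * e

/-- The value of the integral is positive. -/
theorem jconst_pos {α : ℝ} (hα : 0 < α) : 0 < jconst α := by
  rw [jconst_eq hα]
  have := Real.Gamma_pos_of_pos (show 0 < α + 1 by linarith)
  have := Real.Gamma_pos_of_pos (show 0 < α + 3 / 2 by linarith)
  positivity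

/-- A function controlled by finitely many absolutely continuous ones is absolutely continuous. -/
theorem ac_of_abs_le_sum {ι : Type*} [Fintype ι] {F : ℝ → ℝ} {V : ι → ℝ → ℂ} {a b C : ℝ}
    (hV : ∀ k, AbsolutelyContinuousOnInterval (V k) a b)
    (h : ∀ x ∈ uIcc a b, ∀ y ∈ uIcc a b, dist (F x) (F y) ≤ C * ∑ k, dist (V k x) (V k y)) :
    AbsolutelyContinuousOnInterval F a b := by
  refine squeeze_zero' (Eventually.of_forall fun E => Finset.sum_nonneg fun _ _ => dist_nonneg) ?_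
    (by simpa using (tendsto_finsetSum Finset.univ fun k _ => hV k).const_mul C)
  filter_upwards [eventually_inf_principal.2 (Eventually.of_forall fun E h => h)] with E hE
  rw [Finset.sum_comm, Finset.mul_sum]
  exact Finset.sum_le_sum fun i hi => h _ (hE.1 i hi).1 _ (hE.1 i hi).2

end Vale.Agent.P371.Calib
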