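import Vale.Agent.P371.Calib.ContFeas
import Vale.Agent.P371.Calib.EndDefs

/-!
# P371: elementary facts for the value function
-/

namespace Vale.Agent.P371.Calib

open Matrix MeasureTheory Set Filter
open scoped ComplexOrder Topology

variable {n : ℕ}

theorem sqrtM_facts (L : CMat n) (hL : L.PosSemidef) :
    (sqrtM L).PosSemidef ∧ sqrtM L * sqrtM L = L := by
  obtain ⟨V, l, h⟩ := exists_spec hL.1
  exact ⟨h.sqrtM.posSemidef_iff.2 fun k => Real.sqrt_nonneg _,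
    (h.sqrtM.mul h.sqrtM).eq h fun k => Real.mul_self_sqrt (h.posSemidef_iff.1 hL k)⟩

theorem sqrtM_of_sq (S : CMat n) (hS : S.PosSemidef) : sqrtM (S * S) = S := by
  obtain ⟨V, s, h⟩ := exists_spec hS.1
  exact (h.mul h).sqrtM.eq h fun k => Real.sqrt_mul_self (h.posSemidef_iff.1 hS k)

theorem sqrtM_cont : ContinuousOn (sqrtM (n := n)) {L | L.PosSemidef} := sqrtM_continuousOn

theorem isClosed_posSemidef : IsClosed {A : CMat n | A.PosSemidef} := by
  have e : {A : CMat n | A.PosSemidef} =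
      {A | Aᴴ = A} ∩ ⋂ x : Fin n → ℂ, {A | 0 ≤ star x ⬝ᵥ A *ᵥ x} := by
    ext A
    simp [posSemidef_iff_dotProduct_mulVec, Matrix.IsHermitian]
  rw [e]
  refine (isClosed_eq continuous_id.matrix_conjTranspose continuous_id).inter
    (isClosed_iInter fun x => ?_)
  have hc : Continuous fun A : CMat n => star x ⬝ᵥ A *ᵥ x :=
    continuous_const.dotProduct (continuous_id.matrix_mulVec continuous_const)
  have e2 : {A : CMat n | 0 ≤ star x ⬝ᵥ A *ᵥ x} =
      {A | 0 ≤ (star x ⬝ᵥ A *ᵥ x).re} ∩ {A | 0 = (star x ⬝ᵥ A *ᵥ x).im} := by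
    ext A
    simp [Complex.nonneg_iff]
  rw [e2]
  exact (isClosed_le continuous_const (Complex.continuous_re.comp hc)).inter
    (isClosed_eq continuous_const (Complex.continuous_im.comp hc))

theorem feasible_closed : IsClosed {p : CMat n × CMat n | Feasible p.1 p.2} := by
  have hcl : IsClosed {p : CMat n × CMat n | p.1.PosSemidef ∧ p.2.PosSemidef} :=
    (isClosed_posSemidef.preimage continuous_fst).inter (isClosed_posSemidef.preimage continuous_snd)
  have hc : ContinuousOn (fun p : CMat n × CMat n => (2 : ℂ) • sqrtM p.1 - p.2)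
      {p | p.1.PosSemidef ∧ p.2.PosSemidef} :=
    ((sqrtM_continuousOn.comp continuousOn_fst fun _ h => h.1).const_smul (2 : ℂ)).sub continuousOn_snd
  have h := hc.preimage_isClosed_of_isClosed hcl isClosed_posSemidef
  convert h using 1
  ext p
  simp [Feasible, and_assoc]

theorem posSemidef_add_conj {A : CMat n} (hA : A.PosSemidef) {a : ℝ} (ha : 0 ≤ a) :
    ((a : ℂ) • A).PosSemidef := hA.smul (by exact_mod_cast ha)

theorem sub_posSemidef_of_sq {X Y : CMat n} (hX : X.PosSemidef) (hY : Y.PosSemidef)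
    (h : (Y * Y - X * X).PosSemidef) : (Y - X).PosSemidef := by
  obtain ⟨V, a, hs⟩ := exists_spec (hY.1.sub hX.1)
  refine hs.posSemidef_iff.2 fun k => le_of_not_gt fun hk => ?_
  have hd : Vᴴ * (Y - X) * V = diagonal fun i => (a i : ℂ) := hs.conj_self
  have hx : 0 ≤ ((Vᴴ * X * V) k k).re := by rw [← qf_colV]; exact qf_nonneg hX _
  have hy : 0 ≤ ((Vᴴ * Y * V) k k).re := by rw [← qf_colV]; exact qf_nonneg hY _
  have hsq : 0 ≤ ((Vᴴ * (Y * Y - X * X) * V) k k).re := by rw [← qf_colV]; exact qf_nonneg h _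
  have e : Vᴴ * (Y * Y - X * X) * V =
      diagonal (fun i => (a i : ℂ)) * (Vᴴ * X * V) +
        (Vᴴ * X * V) * diagonal (fun i => (a i : ℂ)) +
        diagonal (fun i => (a i : ℂ)) * diagonal fun i => (a i : ℂ) := by
    have hm : ∀ P Q : CMat n, Vᴴ * P * V * (Vᴴ * Q * V) = Vᴴ * (P * Q) * V := fun P Q => by
      calc Vᴴ * P * V * (Vᴴ * Q * V) = Vᴴ * P * (V * Vᴴ) * Q * V := by simp only [Matrix.mul_assoc]
        _ = _ := by rw [hs.2.1, Matrix.mul_one]; simp only [Matrix.mul_assoc]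
    rw [← hd, hm, hm, hm, ← Matrix.add_mul, ← Matrix.mul_add, ← Matrix.add_mul, ← Matrix.mul_add]
    congr 2
    noncomm_ring
  have e1 : ((Vᴴ * Y * V) k k).re = ((Vᴴ * X * V) k k).re + a k := by
    have := congrArg Complex.re (congrFun (congrFun hd k) k)
    rw [Matrix.mul_sub, Matrix.sub_mul, Matrix.sub_apply] at this
    simp at this
    linarith
  rw [e] at hsq
  simp [diagonal_mul, mul_diagonal] at hsq
  nlinarith

theorem sqrtM_sub_posSemidef (L₀ L₁ : CMat n) (h₀ : L₀.PosSemidef) (h₁ : L₁.PosSemidef) (a b : ℝ)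
    (ha : 0 ≤ a) (hb : 0 ≤ b) (hab : a + b = 1) :
    (sqrtM ((a : ℂ) • L₀ + (b : ℂ) • L₁) -
      ((a : ℂ) • sqrtM L₀ + (b : ℂ) • sqrtM L₁)).PosSemidef := by
  obtain ⟨hS₀, e₀⟩ := sqrtM_facts L₀ h₀
  obtain ⟨hS₁, e₁⟩ := sqrtM_facts L₁ h₁
  obtain ⟨hS, e⟩ := sqrtM_facts _ ((posSemidef_add_conj h₀ ha).add (posSemidef_add_conj h₁ hb))
  refine sub_posSemidef_of_sq ((posSemidef_add_conj hS₀ ha).add (posSemidef_add_conj hS₁ hb)) hS ?_
  have hD : ((sqrtM L₀ - sqrtM L₁) * (sqrtM L₀ - sqrtM L₁)).PosSemidef := by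
    have := posSemidef_conjTranspose_mul_self (sqrtM L₀ - sqrtM L₁)
    rwa [(hS₀.1.sub hS₁.1).eq] at this
  have key : (a : ℂ) • L₀ + (b : ℂ) • L₁ -
      ((a : ℂ) • sqrtM L₀ + (b : ℂ) • sqrtM L₁) * ((a : ℂ) • sqrtM L₀ + (b : ℂ) • sqrtM L₁) =
      ((a * b : ℝ) : ℂ) • ((sqrtM L₀ - sqrtM L₁) * (sqrtM L₀ - sqrtM L₁)) := by
    nth_rw 1 [← e₀, ← e₁]
    simp only [Matrix.add_mul, Matrix.mul_add, Matrix.smul_mul, Matrix.mul_smul, smul_smul,
      Matrix.sub_mul, Matrix.mul_sub, smul_sub]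
    match_scalars <;> (rw [show b = 1 - a by linarith]; push_cast; ring)
  rw [e, key]
  exact posSemidef_add_conj hD (mul_nonneg ha hb)

theorem feasible_convex (L₀ L₁ B : CMat n) (h₀ : Feasible L₀ B) (h₁ : Feasible L₁ B) (a b : ℝ)
    (ha : 0 ≤ a) (hb : 0 ≤ b) (hab : a + b = 1) :
    Feasible ((a : ℂ) • L₀ + (b : ℂ) • L₁) B := by
  refine ⟨(posSemidef_add_conj h₀.1 ha).add (posSemidef_add_conj h₁.1 hb), h₀.2.1, ?_⟩
  have h := ((posSemidef_add_conj (sqrtM_sub_posSemidef L₀ L₁ h₀.1 h₁.1 a b ha hb hab)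
    zero_le_two).add ((posSemidef_add_conj h₀.2.2 ha).add (posSemidef_add_conj h₁.2.2 hb)))
  convert h using 1
  push_cast
  match_scalars <;> first
    | (rw [show b = 1 - a by linarith]; push_cast; ring)
    | ring

theorem spec_scalar (n : ℕ) (r : ℝ) : Spec ((r : ℂ) • (1 : CMat n)) 1 fun _ => r :=
  ⟨by simp, by simp, by simp [smul_one_eq_diagonal]⟩

theorem feasible_scalar (B : CMat n) (b : ℝ) (hB : B.PosSemidef) (hb : 0 ≤ b)
    (h : ((b : ℂ) • 1 - B).PosSemidef) : Feasible (((b ^ 2 : ℝ) : ℂ) • 1) B := by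
  have h1 : sqrtM (((b ^ 2 : ℝ) : ℂ) • (1 : CMat n)) = (b : ℂ) • 1 :=
    (spec_scalar n (b ^ 2)).sqrtM.eq (spec_scalar n b) fun _ => Real.sqrt_sq hb
  refine ⟨(spec_scalar n _).posSemidef_iff.2 fun _ => sq_nonneg b, hB, ?_⟩
  rw [h1]
  have := ((spec_scalar n b).posSemidef_iff.2 fun _ => hb).add h
  convert this using 1
  module

theorem feasible_quarter (B : CMat n) (hB : B.PosSemidef) :
    Feasible ((1 / 4 : ℂ) • (B * B)) B := by
  obtain ⟨V, b, h⟩ := exists_spec hB.1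
  have hb := h.posSemidef_iff.1 hB
  have h4 : Spec ((1 / 4 : ℂ) • (B * B)) V fun k => 1 / 4 * (b k * b k) := by
    simpa using (h.mul h).smul (1 / 4)
  refine ⟨h4.posSemidef_iff.2 fun k => by nlinarith [hb k], hB, ?_⟩
  have h2 : Spec ((2 : ℂ) • sqrtM ((1 / 4 : ℂ) • (B * B))) V
      fun k => 2 * √(1 / 4 * (b k * b k)) := by simpa using h4.sqrtM.smul 2
  refine (h2.sub h).posSemidef_iff.2 fun k => le_of_eq ?_
  rw [show 1 / 4 * (b k * b k) = (b k / 2) ^ 2 by ring, Real.sqrt_sq (by linarith [hb k])]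
  ring

theorem trInv_bounds (L : CMat n) (hL : L.PosSemidef) :
    0 ≤ trR (L + 1)⁻¹ ∧ trR (L + 1)⁻¹ ≤ n := by
  obtain ⟨V, l, h⟩ := exists_spec hL.1
  have hl := h.posSemidef_iff.1 hL
  have h1 : Spec (L + 1) V fun k => l k + 1 := by simpa using h.add_smul_one 1
  rw [(h1.inv fun k => by linarith [hl k]).trR_eq]
  refine ⟨Finset.sum_nonneg fun k _ => inv_nonneg.2 (by linarith [hl k]), ?_⟩
  refine (Finset.sum_le_sum fun k _ => inv_le_one_of_one_le₀ (by linarith [hl k])).trans ?_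
  simp

theorem posDef_add_one {L : CMat n} (hL : L.PosSemidef) : (L + 1).PosDef :=
  Matrix.PosDef.posSemidef_add hL PosDef.one

theorem trR_conj_nonneg {P D : CMat n} (hP : P.PosDef) (hD : D.IsHermitian) :
    0 ≤ trR (D * P * D) ∧ (trR (D * P * D) = 0 → D = 0) := by
  obtain ⟨V, p, h⟩ := exists_spec hP.1
  have hp := h.posDef_iff.1 hP
  have e : trR (D * P * D) = ∑ i, p i * ∑ k, Complex.normSq ((D * V) k i) := by
    rw [trR_mul_comm, ← Matrix.mul_assoc, trR_mul_comm, h.trR_mul]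
    refine Finset.sum_congr rfl fun i _ => ?_
    congr 1
    have e2 : Vᴴ * (D * D) * V = (D * V)ᴴ * (D * V) := by
      rw [conjTranspose_mul, hD.eq]
      simp only [Matrix.mul_assoc]
    rw [e2]
    generalize D * V = W
    simp [Matrix.mul_apply, Complex.normSq_apply]
  have hnn : ∀ i, 0 ≤ p i * ∑ k, Complex.normSq ((D * V) k i) := fun i =>
    mul_nonneg (hp i).le (Finset.sum_nonneg fun k _ => Complex.normSq_nonneg _)
  refine ⟨e ▸ Finset.sum_nonneg fun i _ => hnn i, fun h0 => ?_⟩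
  rw [e, Finset.sum_eq_zero_iff_of_nonneg fun i _ => hnn i] at h0
  have hz : D * V = 0 := by
    ext k i
    have := (mul_eq_zero.1 (h0 i (Finset.mem_univ i))).resolve_left (hp i).ne'
    rw [Finset.sum_eq_zero_iff_of_nonneg fun k _ => Complex.normSq_nonneg _] at this
    simpa using Complex.normSq_eq_zero.1 (this k (Finset.mem_univ k))
  have := congrArg (· * Vᴴ) hz
  simpa [Matrix.mul_assoc, h.2.1] using this

theorem trInv_strict (L₀ L₁ : CMat n) (h₀ : L₀.PosSemidef) (h₁ : L₁.PosSemidef) (hne : L₀ ≠ L₁) :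
    trR ((1 / 2 : ℂ) • L₀ + (1 / 2 : ℂ) • L₁ + 1)⁻¹ <
      (1 / 2 : ℝ) * trR (L₀ + 1)⁻¹ + (1 / 2 : ℝ) * trR (L₁ + 1)⁻¹ := by
  set P := L₀ + 1
  set Q := L₁ + 1
  have hP : P.PosDef := posDef_add_one h₀
  have hQ : Q.PosDef := posDef_add_one h₁
  have eM : (1 / 2 : ℂ) • L₀ + (1 / 2 : ℂ) • L₁ + 1 = (1 / 2 : ℂ) • P + (1 / 2 : ℂ) • Q := by
    simp only [P, Q]; module
  rw [eM]
  set M := (1 / 2 : ℂ) • P + (1 / 2 : ℂ) • Q with hM
  have hMpd : M.PosDef := by
    rw [hM, show (1 / 2 : ℂ) = ((1 / 2 : ℝ) : ℂ) by norm_num]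
    exact (hP.smul (by exact_mod_cast (one_half_pos : (0 : ℝ) < 1 / 2))).add
      (hQ.smul (by exact_mod_cast (one_half_pos : (0 : ℝ) < 1 / 2)))
  have uP : IsUnit P.det := P.isUnit_iff_isUnit_det.1 hP.isUnit
  have uQ : IsUnit Q.det := Q.isUnit_iff_isUnit_det.1 hQ.isUnit
  have uM : IsUnit M.det := M.isUnit_iff_isUnit_det.1 hMpd.isUnit
  set D₀ := P⁻¹ - M⁻¹
  set D₁ := Q⁻¹ - M⁻¹
  have id0 : ∀ {R : CMat n}, IsUnit R.det →
      (R⁻¹ - M⁻¹) * R * (R⁻¹ - M⁻¹) = R⁻¹ - (2 : ℂ) • M⁻¹ + M⁻¹ * R * M⁻¹ := by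
    intro R hR
    simp only [Matrix.sub_mul, Matrix.mul_sub, Matrix.nonsing_inv_mul _ hR, Matrix.mul_assoc,
      Matrix.mul_nonsing_inv _ hR, Matrix.mul_one, Matrix.one_mul]
    module
  have key : (1 / 2 : ℂ) • (D₀ * P * D₀) + (1 / 2 : ℂ) • (D₁ * Q * D₁) =
      (1 / 2 : ℂ) • P⁻¹ + (1 / 2 : ℂ) • Q⁻¹ - M⁻¹ := by
    rw [id0 uP, id0 uQ]
    have h2 : M⁻¹ * ((1 / 2 : ℂ) • P + (1 / 2 : ℂ) • Q) * M⁻¹ = M⁻¹ := by
      rw [← hM, Matrix.nonsing_inv_mul _ uM, Matrix.one_mul]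
    simp only [Matrix.mul_add, Matrix.add_mul, Matrix.mul_smul, Matrix.smul_mul] at h2
    linear_combination (norm := module) h2
  have ht := congrArg trR key
  simp only [trR, Matrix.trace_add, Matrix.trace_sub, Matrix.trace_smul, Complex.add_re,
    Complex.sub_re, smul_eq_mul, Complex.mul_re] at ht
  norm_num at ht
  have hh : ∀ {R : CMat n}, R.PosDef → (R⁻¹ - M⁻¹).IsHermitian := fun hR =>
    hR.1.inv.sub hMpd.1.inv
  obtain ⟨a0, b0⟩ := trR_conj_nonneg hP (hh hP)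
  obtain ⟨a1, b1⟩ := trR_conj_nonneg hQ (hh hQ)
  simp only [trR] at a0 a1 b0 b1 ⊢
  by_contra hge
  push Not at hge
  have z0 := b0 (by linarith)
  have z1 := b1 (by linarith)
  refine hne ?_
  have hPQ : P⁻¹ = Q⁻¹ := (sub_eq_zero.1 z0).trans (sub_eq_zero.1 z1).symm
  have := congrArg (fun X : CMat n => X⁻¹) hPQ
  simp only [Matrix.nonsing_inv_nonsing_inv _ uP, Matrix.nonsing_inv_nonsing_inv _ uQ] at this
  exact add_right_cancel this

theorem trInv_shift (L : CMat n) (τ : ℝ) (hL : L.PosSemidef) (hτ : 0 ≤ τ) :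
    trR ((sqrtM L + (τ : ℂ) • 1) * (sqrtM L + (τ : ℂ) • 1) + 1)⁻¹ ≤ trR (L + 1)⁻¹ := by
  obtain ⟨V, l, h⟩ := exists_spec hL.1
  have hl := h.posSemidef_iff.1 hL
  have h1 : Spec (L + 1) V fun k => l k + 1 := by simpa using h.add_smul_one 1
  have h2 := (h.sqrtM.add_smul_one τ).mul (h.sqrtM.add_smul_one τ)
  have h3 : Spec ((sqrtM L + (τ : ℂ) • 1) * (sqrtM L + (τ : ℂ) • 1) + 1) V
      fun k => (√(l k) + τ) * (√(l k) + τ) + 1 := by simpa using h2.add_smul_one 1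
  rw [(h1.inv fun k => by linarith [hl k]).trR_eq,
    (h3.inv fun k => by nlinarith [Real.sqrt_nonneg (l k)]).trR_eq]
  refine Finset.sum_le_sum fun k _ => inv_anti₀ (by linarith [hl k]) ?_
  nlinarith [Real.mul_self_sqrt (hl k), Real.sqrt_nonneg (l k)]

theorem trR_mul_bounds (X Y : CMat n) (lo hi : ℝ) (hX : X.PosSemidef)
    (hlo : (Y - (lo : ℂ) • 1).PosSemidef) (hhi : ((hi : ℂ) • 1 - Y).PosSemidef) :
    lo * trR X ≤ trR (X * Y) ∧ trR (X * Y) ≤ hi * trR X := by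
  obtain ⟨V, a, h⟩ := exists_spec hX.1
  have ha := h.posSemidef_iff.1 hX
  rw [h.trR_mul, h.trR_eq, Finset.mul_sum, Finset.mul_sum]
  refine ⟨Finset.sum_le_sum fun k _ => ?_, Finset.sum_le_sum fun k _ => ?_⟩
  · have := qf_nonneg hlo (colV V k)
    rw [qf_sub, qf_smul, h.qf_colV_one, qf_colV] at this
    nlinarith [ha k]
  · have := qf_nonneg hhi (colV V k)
    rw [qf_sub, qf_smul, h.qf_colV_one, qf_colV] at this
    nlinarith [ha k]

theorem jconst_pos_of_nonneg {a : ℝ} (ha : 0 ≤ a) : 0 < jconst a := by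
  refine intervalIntegral.intervalIntegral_pos_of_pos_on ?_ (fun x hx => ?_) (by norm_num)
  · exact (((continuous_const.sub (continuous_id.pow 2)).rpow_const
      fun x => Or.inr ha).intervalIntegrable _ _)
  · exact Real.rpow_pos_of_pos (by nlinarith [hx.1, hx.2]) _

theorem young_scalar {γ J s w : ℝ} (hγ : 1 < γ) (hJ : 0 < J) (hs : 0 ≤ s) (hw : 0 ≤ w) :
    w * s ^ 2 ≤ J * s ^ (2 * γ) +
      (γ - 1) / γ ^ (γ / (γ - 1)) * J ^ (-(1 / (γ - 1))) * w ^ (γ / (γ - 1)) := by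
  set e := γ / (γ - 1) with he
  set c := (γ * J) ^ (1 / γ) with hc
  have hγ0 : 0 < γ := by linarith
  have hg1 : 0 < γ - 1 := by linarith
  have hc0 : 0 < c := Real.rpow_pos_of_pos (mul_pos hγ0 hJ) _
  have hpq : Real.HolderConjugate γ e := by
    rw [Real.holderConjugate_iff]
    refine ⟨hγ, ?_⟩
    rw [he]; field_simp; ring
  have h := Real.young_inequality_of_nonneg (a := c * s ^ 2) (b := w / c) (by positivity)
    (by positivity) hpq
  rw [show c * s ^ 2 * (w / c) = w * s ^ 2 by field_simp] at h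
  refine h.trans (le_of_eq ?_)
  rw [Real.mul_rpow hc0.le (by positivity), Real.div_rpow hw hc0.le, hc,
    ← Real.rpow_mul (by positivity), ← Real.rpow_mul (by positivity), one_div_mul_cancel hγ0.ne',
    Real.rpow_one, show (s ^ 2 : ℝ) = s ^ ((2 : ℕ) : ℝ) from (Real.rpow_natCast s 2).symm,
    ← Real.rpow_mul hs]
  have hexp : 1 / γ * e = 1 / (γ - 1) := by rw [he]; field_simp
  rw [hexp, Real.mul_rpow hγ0.le hJ.le, show e = 1 + 1 / (γ - 1) by rw [he]; field_simp; ring,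
    Real.rpow_add hγ0, Real.rpow_one, Real.rpow_neg hJ.le]
  have h1 : 0 < γ ^ (1 / (γ - 1)) := Real.rpow_pos_of_pos hγ0 _
  have h2 : 0 < J ^ (1 / (γ - 1)) := Real.rpow_pos_of_pos hJ _
  push_cast
  field_simp
  ring

theorem quarter_young (γ : ℝ) (B : CMat n) (g : Fin n → ℝ) (hγ : 1 < γ) (hγ' : γ < 3 / 2)
    (hB : B.PosSemidef) (hg : ∀ i, 0 ≤ g i) :
    trR ((1 / 4 : ℂ) • (B * B) * diagonal fun i => (g i : ℂ)) ≤
      jconst (γ - 1 / 2) * trF (fun s => s ^ (2 * (γ - 1 / 2) + 1)) ((1 / 2 : ℂ) • B) +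
        bconst γ * ∑ i, g i ^ (γ / (γ - 1)) := by
  obtain ⟨V, b, h⟩ := exists_spec hB.1
  have hb := h.posSemidef_iff.1 hB
  have h4 : Spec ((1 / 4 : ℂ) • (B * B)) V fun k => 1 / 4 * (b k * b k) := by
    simpa using (h.mul h).smul (1 / 4)
  have h2 : Spec ((1 / 2 : ℂ) • B) V fun k => 1 / 2 * b k := by simpa using h.smul (1 / 2)
  have hJ := jconst_pos_of_nonneg (a := γ - 1 / 2) (by linarith)
  have he : 1 ≤ γ / (γ - 1) := by rw [le_div_iff₀ (by linarith)]; linarith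
  have hw : ∀ k, ((Vᴴ * (diagonal fun i => (g i : ℂ)) * V) k k).re =
      ∑ i, Complex.normSq (V i k) * g i := fun k => by
    simp [Matrix.mul_apply, diagonal_apply, Complex.normSq_apply]
    exact Finset.sum_congr rfl fun i _ => by ring
  rw [h4.trR_mul, h2.trF_eq, Finset.mul_sum]
  simp only [hw]
  have hterm : ∀ k, 1 / 4 * (b k * b k) * ∑ i, Complex.normSq (V i k) * g i ≤
      jconst (γ - 1 / 2) * (1 / 2 * b k) ^ (2 * (γ - 1 / 2) + 1) +
        bconst γ * ∑ i, Complex.normSq (V i k) * g i ^ (γ / (γ - 1)) := by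
    intro k
    have hw0 : 0 ≤ ∑ i, Complex.normSq (V i k) * g i :=
      Finset.sum_nonneg fun i _ => mul_nonneg (Complex.normSq_nonneg _) (hg i)
    have h := young_scalar (s := 1 / 2 * b k) hγ hJ (by linarith [hb k]) hw0
    rw [show 2 * (γ - 1 / 2) + 1 = 2 * γ by ring]
    have hjen := Real.rpow_arith_mean_le_arith_mean_rpow Finset.univ
      (fun i => Complex.normSq (V i k)) g (fun i _ => Complex.normSq_nonneg _)
      (h2.sum_normSq_col k) (fun i _ => hg i) he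
    have hb0 : 0 ≤ bconst γ := mul_nonneg
      (div_nonneg (by linarith) (Real.rpow_nonneg (by linarith) _)) (Real.rpow_nonneg hJ.le _)
    rw [show 1 / 4 * (b k * b k) * ∑ i, Complex.normSq (V i k) * g i =
      (∑ i, Complex.normSq (V i k) * g i) * (1 / 2 * b k) ^ 2 by ring]
    refine h.trans (add_le_add le_rfl ?_)
    exact mul_le_mul_of_nonneg_left hjen hb0
  refine (Finset.sum_le_sum fun k _ => hterm k).trans (le_of_eq ?_)
  rw [Finset.sum_add_distrib, ← Finset.mul_sum (Finset.univ) (a := bconst γ)]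
  congr 1
  rw [Finset.sum_comm]
  congr 1
  refine Finset.sum_congr rfl fun i _ => ?_
  rw [← Finset.sum_mul, h.sum_normSq_row, one_mul]

end Vale.Agent.P371.Calib
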