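import Vale.Agent.P371.Calib.DlogM
import Vale.Agent.P371.Calib.ValueBasic

/-!
# P371: the determinant bound for `kmat`
-/

namespace Vale.Agent.P371.Calib

open Matrix MeasureTheory Set Filter
open scoped ComplexOrder Topology

variable {n : ℕ}

theorem posDef_conj {V M : CMat n} (hM : M.PosDef) (h1 : Vᴴ * V = 1) : (Vᴴ * M * V).PosDef := by
  refine hM.conjTranspose_mul_mul_same ?_
  intro x y hxy
  have := congrArg (Vᴴ *ᵥ ·) hxy
  simpa [Matrix.mulVec_mulVec, h1] using this

theorem det_im {A : CMat n} (hA : A.IsHermitian) : A.det.im = 0 := by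
  obtain ⟨V, a, h⟩ := exists_spec hA
  have e : (diagonal fun i => (a i : ℂ)).det = A.det := by
    rw [h.2.2, Matrix.det_mul, Matrix.det_mul, mul_right_comm, ← Matrix.det_mul, h.2.1,
      Matrix.det_one, one_mul]
  rw [← e, det_diagonal, ← Complex.ofReal_prod, Complex.ofReal_im]

theorem det_re_pos {A : CMat n} (hA : A.PosDef) : 0 < A.det.re := by
  obtain ⟨V, a, h⟩ := exists_spec hA.1
  rw [h.det_re]
  exact Finset.prod_pos fun i _ => h.posDef_iff.1 hA i

theorem det_conj_self {V M : CMat n} (h : Vᴴ * V = 1) : (Vᴴ * M * V).det = M.det := by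
  rw [det_mul, det_mul, mul_right_comm, ← det_mul, h, det_one, one_mul]

/-- Adding a positive semidefinite matrix does not decrease the determinant. -/
theorem det_le_add {Z Y : CMat n} (hZ : Z.PosDef) (hY : Y.PosSemidef) :
    Z.det.re ≤ (Z + Y).det.re := by
  obtain ⟨V, z, h⟩ := exists_spec hZ.1
  have hz := h.posDef_iff.1 hZ
  set R : CMat n := diagonal fun i => ((√(z i))⁻¹ : ℂ) with hR
  have hRh : Rᴴ = R := by simp [hR, diagonal_conjTranspose]
  set Y' := Rᴴ * (Vᴴ * Y * V) * R with hY'
  have hY'p : Y'.PosSemidef := (hY.conjTranspose_mul_mul_same V).conjTranspose_mul_mul_same R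
  have e : Rᴴ * (Vᴴ * (Z + Y) * V) * R = 1 + Y' := by
    rw [Matrix.mul_add, Matrix.add_mul, Matrix.mul_add, Matrix.add_mul, hY', h.conj_self, hRh, hR,
      diagonal_mul_diagonal, diagonal_mul_diagonal]
    congr 1
    rw [← diagonal_one]
    congr 1
    funext i
    have : (√(z i) : ℂ) * √(z i) = (z i : ℂ) := by
      rw [← Complex.ofReal_mul, Real.mul_self_sqrt (hz i).le]
    have h0 : (√(z i) : ℂ) ≠ 0 := by exact_mod_cast (Real.sqrt_pos.2 (hz i)).ne'
    rw [← this]
    field_simp
  obtain ⟨W, y, hW⟩ := exists_spec hY'p.1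
  have h1 : Spec (1 + Y') W fun i => y i + 1 := by simpa [add_comm] using hW.add_smul_one 1
  have h2 : 1 ≤ (1 + Y').det.re := by
    rw [h1.det_re]
    exact Finset.one_le_prod (s := Finset.univ) fun i _ => by linarith [hW.posSemidef_iff.1 hY'p i]
  have hdet : R.det = ((∏ i, √(z i))⁻¹ : ℝ) := by
    rw [hR, det_diagonal]
    push_cast
    rw [Finset.prod_inv_distrib]
  rw [← e, det_mul, det_mul, det_conj_self h.1, hRh, hdet] at h2
  have hp : 0 < ∏ i, √(z i) := Finset.prod_pos fun i _ => Real.sqrt_pos.2 (hz i)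
  have hsq : (∏ i, √(z i)) * ∏ i, √(z i) = Z.det.re := by
    rw [h.det_re, ← Finset.prod_mul_distrib]
    exact Finset.prod_congr rfl fun i _ => Real.mul_self_sqrt (hz i).le
  rw [Complex.mul_re, Complex.re_ofReal_mul, Complex.ofReal_im, mul_zero, sub_zero,
    Complex.ofReal_re] at h2
  rw [← hsq]
  field_simp at h2
  nlinarith

/-- Oppenheim: a Schur multiplier with unit diagonal and nonnegative quadratic form keeps positive
definiteness and does not decrease the determinant. -/
theorem schur_det {C M : CMat n} (hC : C.PosDef) (hMh : M.IsHermitian) (hM1 : ∀ i, M i i = 1)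
    (hM : ∀ y : Fin n → ℂ, 0 ≤ qf M y) :
    (Matrix.of fun i j => M i j * C i j).PosDef ∧
      C.det.re ≤ (Matrix.of fun i j => M i j * C i j).det.re := by
  set Φ : CMat n := Matrix.of fun i j => M i j * C i j with hΦ
  have hΦh : Φ.IsHermitian := by
    ext i j
    simp only [hΦ, conjTranspose_apply, of_apply, star_mul', hMh.apply, hC.1.apply]
  obtain ⟨W, ν, hW⟩ := exists_spec hΦh
  obtain ⟨U, c, hU⟩ := exists_spec hC.1
  have hc := hU.posDef_iff.1 hC
  set Ω : Fin n → Fin n → ℝ := fun k j => qf M fun i => star (U i j) * W i k with hΩ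
  have hΩ0 : ∀ k j, 0 ≤ Ω k j := fun k j => hM _
  have hCe : ∀ i l, C i l = ∑ j, U i j * (c j : ℂ) * star (U l j) := fun i l => by
    conv_lhs => rw [hU.2.2, Matrix.mul_apply]
    simp [mul_diagonal]
  have hν : ∀ k, ν k = ∑ j, c j * Ω k j := by
    intro k
    have hq : qf Φ (colV W k) = ν k := hW.qf_colV_eq k
    rw [← hq]
    simp only [hΩ, qf, colV, dotProduct, mulVec, Finset.mul_sum, Complex.re_sum, Pi.star_apply,
      hΦ, of_apply]
    rw [Finset.sum_comm (γ := Fin n) (α := Fin n) (f := fun j i => ∑ l, c j * _)]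
    refine Finset.sum_congr rfl fun i _ => ?_
    rw [Finset.sum_comm (γ := Fin n) (α := Fin n) (f := fun j l => c j * _)]
    refine Finset.sum_congr rfl fun l _ => ?_
    rw [hCe, Finset.mul_sum, Finset.sum_mul, Finset.mul_sum, Complex.re_sum]
    refine Finset.sum_congr rfl fun j _ => ?_
    rw [← Complex.re_ofReal_mul]
    congr 1
    simp only [star_mul', star_star]
    ring
  have hrow : ∀ k, ∑ j, Ω k j = 1 := by
    intro k
    have hone : ∀ i l, ∑ j, U i j * star (U l j) = if i = l then 1 else 0 := fun i l => by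
      have := congrFun (congrFun hU.2.1 i) l
      simpa [Matrix.mul_apply, Matrix.one_apply] using this
    simp only [hΩ, qf, dotProduct, mulVec, Finset.mul_sum, Complex.re_sum, Pi.star_apply]
    rw [Finset.sum_comm]
    have key : ∀ i, ∑ j, ∑ l, (star (star (U i j) * W i k) * (M i l * (star (U l j) * W l k))).re =
        Complex.normSq (W i k) := by
      intro i
      rw [Finset.sum_comm]
      rw [Finset.sum_eq_single i]
      · rw [← Complex.re_sum]
        have e : ∑ j, star (star (U i j) * W i k) * (M i i * (star (U i j) * W i k)) =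
            (∑ j, U i j * star (U i j)) * (star (W i k) * W i k) := by
          rw [Finset.sum_mul]
          refine Finset.sum_congr rfl fun j _ => ?_
          simp only [star_mul', star_star, hM1]
          ring
        rw [e, hone, if_pos rfl, one_mul]
        simp [Complex.normSq_apply]
      · intro l _ hl
        rw [← Complex.re_sum]
        have e : ∑ j, star (star (U i j) * W i k) * (M i l * (star (U l j) * W l k)) =
            (∑ j, U i j * star (U l j)) * (star (W i k) * M i l * W l k) := by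
          rw [Finset.sum_mul]
          refine Finset.sum_congr rfl fun j _ => ?_
          simp only [star_mul', star_star]
          ring
        rw [e, hone, if_neg (Ne.symm hl), zero_mul, Complex.zero_re]
      · intro h; exact absurd (Finset.mem_univ i) h
    rw [Finset.sum_congr rfl fun i _ => key i, hW.sum_normSq_col]
  have hcol : ∀ j, ∑ k, Ω k j = 1 := by
    intro j
    have hone : ∀ i l, ∑ k, W l k * star (W i k) = if l = i then 1 else 0 := fun i l => by
      have := congrFun (congrFun hW.2.1 l) i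
      simpa [Matrix.mul_apply, Matrix.one_apply] using this
    simp only [hΩ, qf, dotProduct, mulVec, Finset.mul_sum, Complex.re_sum, Pi.star_apply]
    rw [Finset.sum_comm]
    have key : ∀ i, ∑ k, ∑ l, (star (star (U i j) * W i k) * (M i l * (star (U l j) * W l k))).re =
        Complex.normSq (U i j) := by
      intro i
      rw [Finset.sum_comm]
      rw [Finset.sum_eq_single i]
      · rw [← Complex.re_sum]
        have e : ∑ k, star (star (U i j) * W i k) * (M i i * (star (U i j) * W i k)) =
            (∑ k, W i k * star (W i k)) * (star (U i j) * U i j) := by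
          rw [Finset.sum_mul]
          refine Finset.sum_congr rfl fun k _ => ?_
          simp only [star_mul', star_star, hM1]
          ring
        rw [e, hone, if_pos rfl, one_mul]
        simp [Complex.normSq_apply]
      · intro l _ hl
        rw [← Complex.re_sum]
        have e : ∑ k, star (star (U i j) * W i k) * (M i l * (star (U l j) * W l k)) =
            (∑ k, W l k * star (W i k)) * (U i j * M i l * star (U l j)) := by
          rw [Finset.sum_mul]
          refine Finset.sum_congr rfl fun k _ => ?_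
          simp only [star_mul', star_star]
          ring
        rw [e, hone, if_neg hl, zero_mul, Complex.zero_re]
      · intro h; exact absurd (Finset.mem_univ i) h
    rw [Finset.sum_congr rfl fun i _ => key i, hU.sum_normSq_col]
  have hνpos : ∀ k, 0 < ν k := by
    intro k
    rw [hν]
    obtain ⟨j, -, hj⟩ := Finset.exists_ne_zero_of_sum_ne_zero
      (show ∑ j, Ω k j ≠ 0 by rw [hrow]; exact one_ne_zero)
    exact Finset.sum_pos' (fun j _ => mul_nonneg (hc j).le (hΩ0 k j))
      ⟨j, Finset.mem_univ j, mul_pos (hc j) (lt_of_le_of_ne (hΩ0 k j) (Ne.symm hj))⟩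
  refine ⟨hW.posDef_iff.2 hνpos, ?_⟩
  rw [hU.det_re, hW.det_re]
  have key : ∑ j, Real.log (c j) ≤ ∑ k, Real.log (ν k) := by
    calc ∑ j, Real.log (c j) = ∑ j, (∑ k, Ω k j) * Real.log (c j) := by simp [hcol]
      _ = ∑ k, ∑ j, Ω k j * Real.log (c j) := by
          rw [Finset.sum_comm]
          exact Finset.sum_congr rfl fun j _ => Finset.sum_mul _ _ _
      _ ≤ ∑ k, Real.log (ν k) := Finset.sum_le_sum fun k _ => ?_
    have h1 : ∀ j, Ω k j * Real.log (c j) ≤
        Ω k j * (Real.log (ν k) - 1) + (ν k)⁻¹ * (c j * Ω k j) := fun j => by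
      have := Real.log_le_sub_one_of_pos (div_pos (hc j) (hνpos k))
      rw [Real.log_div (hc j).ne' (hνpos k).ne', div_eq_inv_mul] at this
      nlinarith [hΩ0 k j]
    refine (Finset.sum_le_sum fun j _ => h1 j).trans (le_of_eq ?_)
    rw [Finset.sum_add_distrib, ← Finset.sum_mul, ← Finset.mul_sum, hrow, ← hν,
      inv_mul_cancel₀ (hνpos k).ne']
    ring
  rw [← Real.log_prod fun j _ => (hc j).ne', ← Real.log_prod fun k _ => (hνpos k).ne'] at key
  exact (Real.log_le_log_iff (Finset.prod_pos fun j _ => hc j)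
    (Finset.prod_pos fun k _ => hνpos k)).1 key

theorem kernel_self {a : ℝ} (ha : 0 < a) :
    ∫ s in Ioi (0 : ℝ), (a + s)⁻¹ * (a + s)⁻¹ = a⁻¹ := by
  have h : ∫ s in Ioi (0 : ℝ), (a + s)⁻¹ * (a + s)⁻¹ = 0 - -(a + 0)⁻¹ := by
    refine integral_Ioi_of_hasDerivAt_of_tendsto' (f := fun s => -(a + s)⁻¹) (fun s hs => ?_)
      (integrableOn_kernel ha ha) ?_
    · have : a + s ≠ 0 := (add_pos_of_pos_of_nonneg ha hs).ne'
      exact (((hasDerivAt_id s).const_add a).inv this).neg.congr_deriv (by simp; field_simp)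
    · simpa using (tendsto_inv_atTop_zero.comp (tendsto_atTop_add_const_left _ a tendsto_id)).neg
  simpa using h

/-- The kernel of the derivative of the logarithm, normalised to unit diagonal. -/
noncomputable def logKer (a : Fin n → ℝ) : CMat n :=
  Matrix.of fun i j => ((√(a i) * √(a j) * ∫ s in Ioi (0 : ℝ), (a i + s)⁻¹ * (a j + s)⁻¹ : ℝ) : ℂ)

theorem logKer_facts {a : Fin n → ℝ} (ha : ∀ i, 0 < a i) :
    (logKer a).IsHermitian ∧ (∀ i, logKer a i i = 1) ∧ ∀ y, 0 ≤ qf (logKer a) y := by
  refine ⟨?_, fun i => ?_, fun y => ?_⟩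
  · ext i j
    simp only [logKer, conjTranspose_apply, of_apply, Complex.star_def, Complex.conj_ofReal]
    congr 1
    rw [mul_comm (√(a j))]
    congr 1
    simp_rw [mul_comm (a j + _)⁻¹]
  · rw [logKer, of_apply, kernel_self (ha i), Real.mul_self_sqrt (ha i).le,
      mul_inv_cancel₀ (ha i).ne', Complex.ofReal_one]
  · have e : qf (logKer a) y = ∫ s in Ioi (0 : ℝ),
        ∑ i, ∑ j, ((starRingEnd ℂ) (y i) * y j).re * (√(a i) * √(a j)) *
          ((a i + s)⁻¹ * (a j + s)⁻¹) := by
      rw [integral_finsetSum _ fun i _ => integrable_finsetSum _ fun j _ =>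
        (integrableOn_kernel (ha i) (ha j)).const_mul _]
      simp only [qf, dotProduct, mulVec, Finset.mul_sum, Complex.re_sum, Pi.star_apply, logKer,
        of_apply]
      refine Finset.sum_congr rfl fun i _ => ?_
      rw [integral_finsetSum _ fun j _ => (integrableOn_kernel (ha i) (ha j)).const_mul _]
      refine Finset.sum_congr rfl fun j _ => ?_
      rw [integral_const_mul, Complex.star_def, mul_left_comm, Complex.re_ofReal_mul]
      ring
    rw [e]
    refine setIntegral_nonneg measurableSet_Ioi fun s _ => ?_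
    set w : Fin n → ℝ := fun i => √(a i) * (a i + s)⁻¹
    have e2 : ∑ i, ∑ j, ((starRingEnd ℂ) (y i) * y j).re * (√(a i) * √(a j)) *
        ((a i + s)⁻¹ * (a j + s)⁻¹) =
        (∑ i, (y i).re * w i) ^ 2 + (∑ i, (y i).im * w i) ^ 2 := by
      rw [sq, sq, Finset.sum_mul_sum, Finset.sum_mul_sum, ← Finset.sum_add_distrib]
      refine Finset.sum_congr rfl fun i _ => ?_
      rw [← Finset.sum_add_distrib]
      refine Finset.sum_congr rfl fun j _ => ?_
      simp [w]
      ring
    rw [e2]
    positivity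

/-- `dlog_A` at a positive definite direction. -/
theorem dlogM_posDef {A C : CMat n} (hA : A.PosDef) (hC : C.PosDef) :
    (dlogM A C).PosDef ∧ C.det.re ≤ (dlogM A C).det.re * A.det.re ∧
      trR (A * dlogM A C * A) = trR (C * A) := by
  obtain ⟨V, a, h⟩ := exists_spec hA.1
  have ha := h.posDef_iff.1 hA
  set C' := Vᴴ * C * V with hC'
  obtain ⟨hMh, hM1, hMq⟩ := logKer_facts ha
  obtain ⟨hΦ, hdet⟩ := schur_det (posDef_conj hC h.1) hMh hM1 hMq
  set Φ : CMat n := Matrix.of fun i j => logKer a i j * C' i j with hΦdef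
  set D : CMat n := diagonal fun i => (((√(a i))⁻¹ : ℝ) : ℂ) with hD
  have hDh : Dᴴ = D := by simp [hD, diagonal_conjTranspose]
  have hP : Vᴴ * dlogM A C * V = Dᴴ * Φ * D := by
    ext i j
    rw [dlogM_spec h ha C i j, hDh, hD, mul_diagonal, diagonal_mul, hΦdef, of_apply, logKer,
      of_apply, hC']
    have hi : (√(a i) : ℂ) ≠ 0 := by exact_mod_cast (Real.sqrt_pos.2 (ha i)).ne'
    have hj : (√(a j) : ℂ) ≠ 0 := by exact_mod_cast (Real.sqrt_pos.2 (ha j)).ne'
    push_cast
    field_simp
  have hback : ∀ M : CMat n, V * (Vᴴ * M * V) * Vᴴ = M := fun M => by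
    simp only [Matrix.mul_assoc, h.2.1, Matrix.mul_one]
    rw [← Matrix.mul_assoc, h.2.1, Matrix.one_mul]
  have hDpd : (Dᴴ * Φ * D).PosDef := by
    refine hΦ.conjTranspose_mul_mul_same ?_
    intro x y hxy
    funext i
    have := congrFun hxy i
    simp only [hD, mulVec_diagonal] at this
    exact mul_left_cancel₀ (by exact_mod_cast inv_ne_zero (Real.sqrt_pos.2 (ha i)).ne') this
  refine ⟨?_, ?_, ?_⟩
  · have := posDef_conj (V := Vᴴ) hDpd (by rw [conjTranspose_conjTranspose, h.2.1])
    rwa [conjTranspose_conjTranspose, ← hP, hback] at this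
  · rw [← det_conj_self (V := V) (M := dlogM A C) h.1, hP, det_mul, det_mul, hDh, hD, det_diagonal,
      h.det_re, ← Complex.ofReal_prod, Complex.mul_re, Complex.re_ofReal_mul, Complex.ofReal_im,
      mul_zero, sub_zero, Complex.ofReal_re]
    have e : (∏ i, (√(a i))⁻¹) * (∏ i, (√(a i))⁻¹) * ∏ i, a i = 1 := by
      rw [← Finset.prod_mul_distrib, ← Finset.prod_mul_distrib]
      refine Finset.prod_eq_one fun i _ => ?_
      rw [← mul_inv, Real.mul_self_sqrt (ha i).le, inv_mul_cancel₀ (ha i).ne']
    rw [show (∏ i, (√(a i))⁻¹) * Φ.det.re * (∏ i, (√(a i))⁻¹) * ∏ i, a i =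
      Φ.det.re * ((∏ i, (√(a i))⁻¹) * (∏ i, (√(a i))⁻¹) * ∏ i, a i) by ring, e, mul_one,
      ← det_conj_self (V := V) (M := C) h.1]
    exact hdet
  · rw [trR_mul_comm, ← Matrix.mul_assoc, (h.mul h).trR_mul, trR_mul_comm C A, h.trR_mul]
    refine Finset.sum_congr rfl fun i _ => ?_
    rw [dlogM_spec h ha C i i, kernel_self (ha i), Complex.re_ofReal_mul, ← mul_assoc, mul_assoc
      (a i), mul_inv_cancel₀ (ha i).ne', mul_one]

/-- `kmat A B` is positive definite and `det K det A det B ≥ 1`. -/
theorem kmat_det (A B : CMat n) (hA : A.PosDef) (hB : B.PosDef) :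
    (kmat A B).PosDef ∧ 1 ≤ (kmat A B).det.re * A.det.re * B.det.re := by
  have hS : (A + B).PosDef := hA.add hB
  set S := A + B with hSdef
  set C := S⁻¹ with hC
  obtain ⟨hPp, hPd, hPt⟩ := dlogM_posDef hA hS.inv
  obtain ⟨hQp, hQd, hQt⟩ := dlogM_posDef hB hS.inv
  set P := dlogM A C
  set Q := dlogM B C
  refine ⟨hPp.add hQp, ?_⟩
  change 1 ≤ (P + Q).det.re * A.det.re * B.det.re
  have uP : IsUnit P.det := P.isUnit_iff_isUnit_det.1 hPp.isUnit
  have uQ : IsUnit Q.det := Q.isUnit_iff_isUnit_det.1 hQp.isUnit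
  have uS : IsUnit S.det := S.isUnit_iff_isUnit_det.1 hS.isUnit
  set X := P⁻¹ + Q⁻¹ with hX
  have hK : P + Q = P * X * Q := by
    rw [hX, Matrix.mul_add, Matrix.add_mul, Matrix.mul_nonsing_inv _ uP, Matrix.one_mul,
      Matrix.mul_assoc, Matrix.nonsing_inv_mul _ uQ, Matrix.mul_one, add_comm]
  set Om := A * P * A + B * Q * B with hOm
  have hconj : ∀ {R M : CMat n}, R.PosDef → M.PosDef → (R * M * R).PosDef := by
    intro R M hR hM
    have := hM.conjTranspose_mul_mul_same (B := R) (Matrix.mulVec_injective_of_isUnit hR.isUnit)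
    rwa [hR.1.eq] at this
  have hOmp : Om.PosDef := (hconj hA hPp).add (hconj hB hQp)
  have uO : IsUnit Om.det := Om.isUnit_iff_isUnit_det.1 hOmp.isUnit
  set Z := S * Om⁻¹ * S with hZ
  have hZp : Z.PosDef := hconj hS hOmp.inv
  have hY : (X - Z).PosSemidef := by
    set u := Om⁻¹ * S with hu
    have huh : uᴴ = S * Om⁻¹ := by rw [hu, conjTranspose_mul, hS.1.eq, hOmp.1.inv.eq]
    have h1 := (hPp.posSemidef.conjTranspose_mul_mul_same (P⁻¹ - A * u)).add
      (hQp.posSemidef.conjTranspose_mul_mul_same (Q⁻¹ - B * u))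
    convert h1 using 1
    have e3 : uᴴ * (A * P * A) * u + uᴴ * (B * Q * B) * u = Z := by
      rw [← Matrix.add_mul, ← Matrix.mul_add, ← hOm, huh, hu, hZ]
      simp only [Matrix.mul_assoc]
      rw [← Matrix.mul_assoc Om, Matrix.mul_nonsing_inv _ uO, Matrix.one_mul]
    have e4 : uᴴ * A + uᴴ * B = Z := by rw [← Matrix.mul_add, ← hSdef, huh, hZ]
    have e5 : A * u + B * u = Z := by
      rw [← Matrix.add_mul, ← hSdef, hu, hZ, Matrix.mul_assoc]
    have expand : ∀ {R T : CMat n}, R.PosDef → T.IsHermitian →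
        (R⁻¹ - T * u)ᴴ * R * (R⁻¹ - T * u) =
          R⁻¹ - T * u - uᴴ * T + uᴴ * (T * R * T) * u := by
      intro R T hR hT
      have uR : IsUnit R.det := R.isUnit_iff_isUnit_det.1 hR.isUnit
      rw [conjTranspose_sub, conjTranspose_mul, hT.eq, hR.1.inv.eq, Matrix.sub_mul,
        Matrix.nonsing_inv_mul _ uR, Matrix.sub_mul, Matrix.one_mul, Matrix.mul_sub,
        Matrix.mul_assoc (uᴴ * T) R R⁻¹, Matrix.mul_nonsing_inv _ uR, Matrix.mul_one]
      simp only [Matrix.mul_assoc]
      abel
    rw [expand hPp hA.1, expand hQp hB.1, hX]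
    linear_combination (norm := abel) e4 + e5 - e3
  have hdetX : Z.det.re ≤ X.det.re := by simpa using det_le_add hZp hY
  have htr : trR Om = n := by
    have h1 : trR Om = trR (A * P * A) + trR (B * Q * B) := by simp [hOm, trR]
    have h2 : trR (C * A) + trR (C * B) = trR (C * S) := by simp [hSdef, trR, Matrix.mul_add]
    rw [h1, hPt, hQt, h2, hC, Matrix.nonsing_inv_mul _ uS]
    simp [trR]
  have hdetO : Om.det.re ≤ 1 := by
    obtain ⟨W, o, ho⟩ := exists_spec hOmp.1
    have hop := ho.posDef_iff.1 hOmp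
    rw [ho.det_re]
    have h1 : ∑ i, Real.log (o i) ≤ ∑ i, (o i - 1) :=
      Finset.sum_le_sum fun i _ => Real.log_le_sub_one_of_pos (hop i)
    rw [← Real.log_prod fun i _ => (hop i).ne', Finset.sum_sub_distrib, ← ho.trR_eq, htr] at h1
    simp only [Finset.sum_const, Finset.card_univ, Fintype.card_fin, nsmul_eq_mul, mul_one,
      sub_self] at h1
    exact (Real.log_nonpos_iff (Finset.prod_nonneg fun i _ => (hop i).le)).1 h1
  have hre : ∀ {M N : CMat n}, N.IsHermitian → (M * N).det.re = M.det.re * N.det.re := by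
    intro M N hN
    rw [det_mul, Complex.mul_re, det_im hN, mul_zero, sub_zero]
  have hZe : S.det.re * S.det.re = Om.det.re * Z.det.re := by
    have : Om * (S⁻¹ * Z) = S := by
      rw [hZ]
      simp only [← Matrix.mul_assoc]
      rw [Matrix.mul_assoc Om S⁻¹ S, Matrix.nonsing_inv_mul _ uS, Matrix.mul_one,
        Matrix.mul_nonsing_inv _ uO, Matrix.one_mul]
    have h1 := congrArg (fun M : CMat n => (M.det : ℂ)) this
    simp only [det_mul] at h1
    have h2 : (S.det * S⁻¹.det) = 1 := by rw [← det_mul, Matrix.mul_nonsing_inv _ uS, det_one]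
    have h3 : Om.det * Z.det = S.det * S.det := by linear_combination S.det * h1 - Om.det * Z.det * h2
    have := congrArg Complex.re h3
    simp only [Complex.mul_re, det_im hS.1, det_im hOmp.1, det_im hZp.1, mul_zero, sub_zero] at this
    exact this.symm
  have hX' : X.IsHermitian := hPp.1.inv.add hQp.1.inv
  rw [hK, hre hQp.1, hre hX']
  have hC1 : C.det.re * S.det.re = 1 := by
    rw [← hre hS.1, hC, Matrix.nonsing_inv_mul _ uS, det_one, Complex.one_re]
  have p1 := det_re_pos hPp
  have p2 := det_re_pos hQp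
  have p3 := det_re_pos hZp
  have p4 := det_re_pos hA
  have p5 := det_re_pos hB
  have p6 := det_re_pos hS
  have p7 : 0 < C.det.re := det_re_pos hS.inv
  have h5 : C.det.re * C.det.re * Z.det.re ≤ P.det.re * A.det.re * (Q.det.re * B.det.re) * X.det.re :=
    mul_le_mul (mul_le_mul hPd hQd p7.le (mul_pos p1 p4).le) hdetX p3.le
      (mul_pos (mul_pos p1 p4) (mul_pos p2 p5)).le
  have h6 : 1 ≤ C.det.re * C.det.re * Z.det.re := by
    have h7 : Om.det.re * (C.det.re * C.det.re * Z.det.re) = 1 := by
      linear_combination (-(C.det.re * C.det.re)) * hZe + (C.det.re * S.det.re + 1) * hC1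
    nlinarith [mul_pos (mul_pos p7 p7) p3, det_re_pos hOmp]
  calc (1 : ℝ) ≤ _ := h6
    _ ≤ _ := h5
    _ = P.det.re * X.det.re * Q.det.re * A.det.re * B.det.re := by ring

end Vale.Agent.P371.Calib
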