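import Vale.Agent.P371.Calib.LiftPath
import Vale.Agent.P371.Calib.Final

/-!
# P371: the reduction of every exponent between one half and three halves to lifting

If every finite family of bound states can be lifted, up to `ε`, to a Riccati path with a no
larger `∫ tr V^(γ+1/2)`, then the one state constant is the sharp constant.
-/

namespace Vale.Agent.P371.Calib

open Matrix MeasureTheory Set Filter
open Vale.Agent.LT (trPow IsPotentialPow IsOrthonormal)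
open scoped ComplexOrder Topology

variable {n : ℕ}

/-- The quotient of the two constants is the one state constant. -/
theorem youngC_div_jconst {γ : ℝ} (hγ : 1 / 2 < γ) :
    Gamma.youngC (γ + 1 / 2) 1 / jconst (γ - 1 / 2) = Gamma.oneState γ := by
  have hα : 0 < γ - 1 / 2 := by linarith
  have g1 := Real.Gamma_pos_of_pos (show 0 < γ + 1 / 2 by linarith)
  have g2 := Real.Gamma_pos_of_pos (show 0 < γ + 1 by linarith)
  rw [jconst_eq hα, show γ - 1 / 2 + 1 = γ + 1 / 2 by ring,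
    show γ - 1 / 2 + 3 / 2 = γ + 1 by ring, Gamma.oneState,
    show γ + 3 / 2 = γ + 1 / 2 + 1 by ring, Real.Gamma_add_one (by linarith : γ + 1 / 2 ≠ 0),
    Gamma.youngC, mul_one, show γ + 1 / 2 - 1 = γ - 1 / 2 by ring,
    Real.rpow_neg (by positivity), Real.div_rpow hα.le (by linarith),
    Real.div_rpow (by linarith) hα.le]
  have := Real.rpow_pos_of_pos hα (γ - 1 / 2)
  have := Real.rpow_pos_of_pos (show 0 < γ + 1 / 2 by linarith) (γ - 1 / 2)
  field_simp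

/-- The bound along a path, normalised. -/
theorem IsPath.sum_rpow_le_oneState {γ : ℝ} (h0 : 1 / 2 < γ) (h1 : γ < 3 / 2) {κ : Fin n → ℝ}
    (hκ : ∀ i, 0 ≤ κ i) {R V : ℝ → CMat n} (h : IsPath κ R V) {g : ℝ → ℝ} (hg : Integrable g)
    (hVg : ∀ᵐ x, trPow (γ + 1 / 2) (V x) ≤ g x) :
    ∑ i, κ i ^ (2 * γ) ≤ Gamma.oneState γ * ∫ x, g x := by
  have e : 1 + (γ - 1 / 2) = γ + 1 / 2 := by ring
  have := h.sum_rpow_le (α := γ - 1 / 2) (by linarith) (by linarith) hκ hg (by rwa [e])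
  rw [e, show 2 * (γ - 1 / 2) + 1 = 2 * γ by ring] at this
  have hJ := jconst_pos (α := γ - 1 / 2) (by linarith)
  rw [← youngC_div_jconst h0, div_mul_eq_mul_div, le_div_iff₀ hJ]
  linarith

/-- Approximate lifting of bound states to Riccati paths, with no larger `∫ tr V^(γ+1/2)`. -/
def LiftHyp (γ : ℝ) (m : ℕ) : Prop :=
  ∀ (W : ℝ → Matrix (Fin m) (Fin m) ℂ) (N : ℕ) (μ : Fin N → ℝ) (ψ : Fin N → Fin m → ℝ → ℂ),
    IsPotentialPow (γ + 1 / 2) W → (∀ i, μ i < 0 ∧ Vale.Agent.LT.IsEigenfunction W (μ i) (ψ i)) →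
    IsOrthonormal ψ → ∀ ε : ℝ, 0 < ε →
      ∃ (κ : Fin N → ℝ) (R V : ℝ → CMat N) (g : ℝ → ℝ),
        (∀ i, 0 ≤ κ i ∧ √|μ i| - ε ≤ κ i) ∧ IsPath κ R V ∧ Integrable g ∧
          (∀ᵐ x, trPow (γ + 1 / 2) (V x) ≤ g x) ∧
          ∫ x, g x ≤ (∫ x, trPow (γ + 1 / 2) (W x)) + ε

/-- Lifting gives the bound. -/
theorem sum_rpow_le_of_lift {γ : ℝ} (h0 : 1 / 2 < γ) (h1 : γ < 3 / 2) {N : ℕ} (μ : Fin N → ℝ)
    (I : ℝ) (h : ∀ ε : ℝ, 0 < ε → ∃ (κ : Fin N → ℝ) (R V : ℝ → CMat N) (g : ℝ → ℝ),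
      (∀ i, 0 ≤ κ i ∧ √|μ i| - ε ≤ κ i) ∧ IsPath κ R V ∧ Integrable g ∧
        (∀ᵐ x, trPow (γ + 1 / 2) (V x) ≤ g x) ∧ ∫ x, g x ≤ I + ε) :
    ∑ i, |μ i| ^ γ ≤ Gamma.oneState γ * I := by
  have hpos : 0 ≤ Gamma.oneState γ := by
    rw [← youngC_div_jconst h0]
    refine div_nonneg ?_ (jconst_pos (by linarith)).le
    rw [Gamma.youngC, show γ + 1 / 2 - 1 = γ - 1 / 2 by ring]
    have : 0 < γ - 1 / 2 := by linarith
    positivity
  have hle : ∀ ε : ℝ, 0 < ε →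
      ∑ i, max (√|μ i| - ε) 0 ^ (2 * γ) ≤ Gamma.oneState γ * (I + ε) := by
    intro ε hε
    obtain ⟨κ, R, V, g, hκ, hp, hg, hVg, hI⟩ := h ε hε
    refine le_trans (Finset.sum_le_sum fun i _ => ?_)
      ((hp.sum_rpow_le_oneState h0 h1 (fun i => (hκ i).1) hg hVg).trans
        (mul_le_mul_of_nonneg_left hI hpos))
    exact Real.rpow_le_rpow (le_max_right _ _) (max_le (hκ i).2 (hκ i).1) (by linarith)
  have hc : Continuous fun ε : ℝ =>
      ∑ i, max (√|μ i| - ε) 0 ^ (2 * γ) :=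
    continuous_finsetSum _ fun i _ =>
      ((continuous_const.sub continuous_id).max continuous_const).rpow_const
        fun _ => Or.inr (by linarith)
  have hd : Continuous fun ε : ℝ => Gamma.oneState γ * (I + ε) :=
    continuous_const.mul (continuous_const.add continuous_id)
  have key := le_of_tendsto_of_tendsto ((hc.tendsto 0).mono_left nhdsWithin_le_nhds)
    ((hd.tendsto 0).mono_left nhdsWithin_le_nhds)
    (eventually_nhdsWithin_of_forall fun ε (hε : (0 : ℝ) < ε) => hle ε hε :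
      ∀ᶠ ε in 𝓝[>] (0 : ℝ), _ ≤ _)
  rw [add_zero] at key
  refine le_trans (le_of_eq (Finset.sum_congr rfl fun i _ => ?_)) key
  rw [sub_zero, max_eq_left (Real.sqrt_nonneg _), Real.sqrt_eq_rpow,
    ← Real.rpow_mul (abs_nonneg _)]
  congr 1
  ring

/-- Lifting determines the sharp constant. -/
theorem isGreatest_of_lift {γ : ℝ} (h0 : 1 / 2 < γ) (h1 : γ < 3 / 2) {m : ℕ} (hm : 1 ≤ m)
    (hlift : LiftHyp γ m) : IsGreatest (ratiosPow γ m) (Gamma.oneState γ) := by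
  refine ⟨ratiosPow_of_scalar h0 hm (Gamma.oneState_mem_ratios h0), fun r hr => ?_⟩
  obtain ⟨W, N, μ, ψ, hW, hpos, heig, ho, rfl⟩ := hr
  rw [div_le_iff₀ hpos]
  exact sum_rpow_le_of_lift h0 h1 μ _ (hlift W N μ ψ hW heig ho)

/-- The lifting of scalar bound states: a nonnegative matrix potential of trace at most `W` whose
Riccati path runs between the two corners. -/
def ScalarLift (γ : ℝ) : Prop :=
  ∀ (W : ℝ → ℝ) (N : ℕ) (μ : Fin N → ℝ) (ψ : Fin N → ℝ → ℂ),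
    Gamma.IsPotentialP (γ + 1 / 2) W → IsBoundStates W μ ψ → ∀ ε : ℝ, 0 < ε →
      ∃ (κ : Fin N → ℝ) (R V : ℝ → CMat N) (U : ℝ → ℝ),
        (∀ i, 0 ≤ κ i ∧ √|μ i| - ε ≤ κ i) ∧ IsPath κ R V ∧ (∀ᵐ x, trR (V x) ≤ U x) ∧
          Integrable (fun x => U x ^ (γ + 1 / 2)) ∧
          ∫ x, U x ^ (γ + 1 / 2) ≤ (∫ x, W x ^ (γ + 1 / 2)) + ε

/-- Scalar lifting proves the one dimensional Lieb-Thirring conjecture. -/
theorem isGreatest_of_scalarLift {γ : ℝ} (h0 : 1 / 2 < γ) (h1 : γ < 3 / 2)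
    (hlift : ScalarLift γ) : IsGreatest (Gamma.ratios γ) (Gamma.oneState γ) := by
  refine ⟨Gamma.oneState_mem_ratios h0, fun r hr => ?_⟩
  obtain ⟨W, N, μ, ψ, hW, hpos, hb, rfl⟩ := hr
  rw [div_le_iff₀ hpos]
  refine sum_rpow_le_of_lift h0 h1 μ _ fun ε hε => ?_
  obtain ⟨κ, R, V, U, hκ, hp, htr, hi, hI⟩ := hlift W N μ ψ hW hb ε hε
  refine ⟨κ, R, V, fun x => U x ^ (γ + 1 / 2), hκ, hp, hi, ?_, hI⟩
  filter_upwards [htr, hp.2.2.1] with x hx hode
  have ht := trR_nonneg hode.1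
  refine (trPow_le hode.1 (by linarith)).trans ?_
  rw [← Real.rpow_add_one' ht (by linarith), sub_add_cancel]
  exact Real.rpow_le_rpow ht hx (by linarith)

end Vale.Agent.P371.Calib
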