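import Vale.Agent.P371.Calib.TInt
import Vale.Agent.P371.Calib.Endpoints
import Vale.Agent.P371.Calib.FinalTools
import Vale.Agent.P371.Calib.PerT
import Vale.Agent.P371.Calib.KTrace
import Vale.Agent.LT.AC

/-!
# P371: Riccati paths and their potential

For `κ ≥ 0` and `L = diag κ²`, a Riccati path is a Hermitian solution of `R' = L - R² - V`,
`V ≥ 0`, running from `√L` to `-√L`.  Such a path stays between `-√L` and `√L`, and
`∑ κ ^ (2α+1)` times `∫_{-1}^{1} (1-σ²)^α` is at most `youngC (1+α) 1 * ∫ tr V^(1+α)`.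
-/

namespace Vale.Agent.P371.Calib

open Matrix MeasureTheory Set Filter
open Vale.Agent.LT (MatDerivAt MatAC trPow)
open scoped ComplexOrder Topology ComplexConjugate

variable {n : ℕ}

/-- The diagonal matrix of a real vector. -/
noncomputable def diagC (a : Fin n → ℝ) : CMat n := diagonal fun i => (a i : ℂ)

theorem spec_diagC (a : Fin n → ℝ) : Spec (diagC a) 1 a := by
  refine ⟨by simp, by simp, by simp [diagC]⟩

theorem sqrtM_diagC {κ : Fin n → ℝ} (hκ : ∀ i, 0 ≤ κ i) :
    sqrtM (diagC fun i => κ i ^ 2) = diagC κ :=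
  (spec_diagC _).sqrtM.eq (spec_diagC κ) fun i => Real.sqrt_sq (hκ i)

/-- `R` is a Hermitian solution of `R' = diag κ² - R² - V`, `V ≥ 0`, running from `diag κ` to
`- diag κ`. -/
def IsPath (κ : Fin n → ℝ) (R V : ℝ → CMat n) : Prop :=
  (∀ x, (R x).IsHermitian) ∧ (∀ a b, MatAC R a b) ∧
    (∀ᵐ x, (V x).PosSemidef ∧
      MatDerivAt R ((diagC fun i => κ i ^ 2) - R x * R x - V x) x) ∧
    Tendsto R atBot (𝓝 (diagC κ)) ∧ Tendsto R atTop (𝓝 (-diagC κ))

/-! ## A path stays feasible -/

/-- The quadratic form of a matrix. -/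
noncomputable def formR (v : Fin n → ℂ) (A : CMat n) : ℝ := (star v ⬝ᵥ A *ᵥ v).re

theorem formR_nonneg {A : CMat n} (hA : A.PosSemidef) (v : Fin n → ℂ) : 0 ≤ formR v A :=
  (Complex.le_def.1 (hA.dotProduct_mulVec_nonneg v)).1

theorem formR_eq_sum (v : Fin n → ℂ) (A : CMat n) :
    formR v A = (∑ i, ∑ j, conj (v i) * v j * A i j).re := by
  rw [formR, Vale.Agent.LT.form_entry]

theorem formR_add (v : Fin n → ℂ) (A B : CMat n) : formR v (A + B) = formR v A + formR v B := by
  simp [formR, Matrix.add_mulVec, dotProduct_add]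

theorem posSemidef_of_formR {A : CMat n} (hA : A.IsHermitian) (h : ∀ v, 0 ≤ formR v A) :
    A.PosSemidef := by
  refine PosSemidef.of_dotProduct_mulVec_nonneg hA fun v => Complex.le_def.2 ⟨h v, ?_⟩
  exact (hA.im_star_dotProduct_mulVec_self v).symm

theorem posSemidef_hermitian_sq {X : CMat n} (hX : X.IsHermitian) : (X * X).PosSemidef := by
  have := posSemidef_conjTranspose_mul_self X
  rwa [hX.eq] at this

/-- Comparison: if `D' + c (K D + D K) ≥ 0` with `K = diag κ` then the form of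
`exp (c x K) D(x) exp (c x K)` increases. -/
theorem form_mono {κ : Fin n → ℝ} (c x₀ : ℝ) {D : ℝ → CMat n} {a b : ℝ} (hab : a ≤ b)
    (hac : MatAC D a b)
    (hd : ∀ᵐ x, ∃ D', MatDerivAt D D' x ∧
      (D' + (c : ℂ) • (diagC κ * D x + D x * diagC κ)).PosSemidef) (v : Fin n → ℂ) :
    formR (fun i => Complex.exp (c * κ i * (a - x₀)) * v i) (D a) ≤
      formR (fun i => Complex.exp (c * κ i * (b - x₀)) * v i) (D b) := by
  set e : Fin n → Fin n → ℝ → ℂ :=
    fun i j x => Complex.exp ((c * (κ i + κ j) : ℂ) * (x - x₀)) with he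
  have hform : ∀ x : ℝ, formR (fun i => Complex.exp (c * κ i * (x - x₀)) * v i) (D x) =
      (∑ i, ∑ j, conj (v i) * v j * (e i j x * D x i j)).re := by
    intro x
    rw [formR_eq_sum]
    congr 1
    refine Finset.sum_congr rfl fun i _ => Finset.sum_congr rfl fun j _ => ?_
    simp only [map_mul, ← Complex.exp_conj, Complex.conj_ofReal, map_sub, he]
    rw [mul_add, add_mul, Complex.exp_add]
    ring
  set f : ℝ → ℝ := fun (x : ℝ) => formR (fun i => Complex.exp (c * κ i * (x - x₀)) * v i) (D x) with hf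
  have hde : ∀ i j x, HasDerivAt (e i j) ((c * (κ i + κ j) : ℂ) * e i j x) x := by
    intro i j x
    have h := ((((hasDerivAt_id x).ofReal_comp).sub_const (x₀ : ℂ)).const_mul
      (c * (κ i + κ j) : ℂ)).cexp
    refine h.congr_deriv ?_
    simp only [he, id, Complex.ofReal_one, mul_one]
    ring
  have hfac : AbsolutelyContinuousOnInterval f a b := by
    rw [show f = fun x => (∑ i, ∑ j, conj (v i) * v j * (e i j x * D x i j)).re from funext hform]
    refine Vale.Agent.LT.ac_re (Vale.Agent.LT.ac_sum _ fun i _ => Vale.Agent.LT.ac_sum _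
      fun j _ => Vale.Agent.LT.ac_mul (Vale.Agent.LT.ac_const _ a b)
        (Vale.Agent.LT.ac_mul ?_ (hac i j)))
    have hc : Continuous fun x => (c * (κ i + κ j) : ℂ) * e i j x := by
      simp only [he]; fun_prop
    exact Vale.Agent.LT.ac_primitive (fun x y => hc.intervalIntegrable x y) fun x y =>
      intervalIntegral.integral_eq_sub_of_hasDerivAt (fun t _ => hde i j t)
        (hc.intervalIntegrable x y)
  have hnonneg : ∀ᵐ x, x ∈ uIcc a b → 0 ≤ deriv f x := by
    filter_upwards [hd] with x ⟨D', hD', hp⟩ _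
    have h : HasDerivAt f
        (formR (fun i => Complex.exp (c * κ i * (x - x₀)) * v i)
          (D' + (c : ℂ) • (diagC κ * D x + D x * diagC κ))) x := by
      rw [show f = fun x => (∑ i, ∑ j, conj (v i) * v j * (e i j x * D x i j)).re from funext hform]
      have hs : HasDerivAt (fun x => ∑ i, ∑ j, conj (v i) * v j * (e i j x * D x i j))
          (∑ i, ∑ j, conj (v i) * v j *
            ((c * (κ i + κ j) : ℂ) * e i j x * D x i j + e i j x * D' i j)) x :=
        HasDerivAt.fun_sum fun i _ => HasDerivAt.fun_sum fun j _ =>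
          ((hde i j x).mul (hD' i j)).const_mul _
      refine (Complex.reCLM.hasFDerivAt.comp_hasDerivAt x hs).congr_deriv ?_
      rw [formR_eq_sum, Complex.reCLM_apply]
      congr 1
      refine Finset.sum_congr rfl fun i _ => Finset.sum_congr rfl fun j _ => ?_
      have hE : e i j x = Complex.exp (c * κ i * (x - x₀)) * Complex.exp (c * κ j * (x - x₀)) := by
        rw [he, ← Complex.exp_add]; ring_nf
      rw [hE]
      simp only [map_mul, ← Complex.exp_conj, Complex.conj_ofReal, map_sub, diagC,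
        Matrix.add_apply, Matrix.smul_apply, Matrix.diagonal_mul, Matrix.mul_diagonal, smul_eq_mul]
      ring
    rw [h.deriv]
    exact formR_nonneg hp _
  have key : 0 ≤ ∫ x in a..b, deriv f x := by
    refine intervalIntegral.integral_nonneg_of_ae_restrict hab ?_
    refine (ae_restrict_iff' measurableSet_Icc).2 ?_
    filter_upwards [hnonneg] with x hx hmem using hx (by rwa [uIcc_of_le hab])
  rw [hfac.integral_deriv_eq_sub] at key
  simpa [hf] using key

theorem norm_exp_le_one {r : ℝ} (hr : r ≤ 0) : ‖Complex.exp (r : ℂ)‖ ≤ 1 := by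
  rw [Complex.norm_exp]
  simpa using Real.exp_le_one_iff.2 hr

theorem tendsto_formR_zero {l : Filter ℝ} {w : ℝ → Fin n → ℂ} {C : Fin n → ℝ} {D : ℝ → CMat n}
    (hw : ∀ᶠ a in l, ∀ i, ‖w a i‖ ≤ C i) (hD : Tendsto D l (𝓝 0)) :
    Tendsto (fun a => formR (w a) (D a)) l (𝓝 0) := by
  have h : Tendsto (fun a => ∑ i, ∑ j, C i * C j * ‖D a i j‖) l (𝓝 0) := by
    rw [show (0 : ℝ) = ∑ i : Fin n, ∑ j : Fin n, C i * C j * ‖(0 : CMat n) i j‖ by simp]
    exact tendsto_finsetSum _ fun i _ => tendsto_finsetSum _ fun j _ =>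
      ((tendsto_pi_nhds.1 (tendsto_pi_nhds.1 hD i) j).norm).const_mul _
  refine squeeze_zero_norm' ?_ h
  filter_upwards [hw] with a ha
  rw [Real.norm_eq_abs, formR_eq_sum]
  refine (Complex.abs_re_le_norm _).trans ((norm_sum_le _ _).trans ?_)
  refine Finset.sum_le_sum fun i _ => (norm_sum_le _ _).trans (Finset.sum_le_sum fun j _ => ?_)
  rw [norm_mul, norm_mul, Complex.norm_conj]
  exact mul_le_mul_of_nonneg_right (mul_le_mul (ha i) (ha j) (norm_nonneg _)
    ((norm_nonneg _).trans (ha i))) (norm_nonneg _)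

theorem diagC_sq (κ : Fin n → ℝ) : diagC κ * diagC κ = diagC fun i => κ i ^ 2 := by
  simp [diagC, sq]

/-- A Riccati path stays between `-√L` and `√L`. -/
theorem IsPath.feasible {κ : Fin n → ℝ} {R V : ℝ → CMat n} (hκ : ∀ i, 0 ≤ κ i)
    (h : IsPath κ R V) (x : ℝ) : Feasible (diagC fun i => κ i ^ 2) (diagC κ - R x) := by
  obtain ⟨hher, hac, hode, hbot, htop⟩ := h
  have hK : (diagC κ).IsHermitian := (spec_diagC κ).isHermitian
  have hcK : ∀ a b, MatAC (fun _ => diagC κ) a b := fun a b i j => Vale.Agent.LT.ac_const _ a b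
  have h1 : (diagC κ - R x).PosSemidef := by
    refine posSemidef_of_formR (hK.sub (hher x)) fun v => ?_
    have hm : ∀ a ≤ x, formR (fun i => Complex.exp ((1 : ℝ) * κ i * (a - x)) * v i)
        (diagC κ - R a) ≤ formR v (diagC κ - R x) := by
      intro a ha
      have := form_mono (κ := κ) 1 x (D := fun t => diagC κ - R t) ha
        (fun i j => (hcK a x i j).fun_sub (hac a x i j)) ?_ v
      · simpa using this
      filter_upwards [hode] with t ⟨hV, hR⟩
      refine ⟨_, (Vale.Agent.LT.matDerivAt_const (diagC κ) t).sub hR, ?_⟩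
      have e : 0 - ((diagC fun i => κ i ^ 2) - R t * R t - V t) +
          ((1 : ℝ) : ℂ) • (diagC κ * (diagC κ - R t) + (diagC κ - R t) * diagC κ) =
          V t + (diagC κ - R t) * (diagC κ - R t) := by
        rw [← diagC_sq, Complex.ofReal_one, one_smul]
        noncomm_ring
      rw [e]
      exact hV.add (posSemidef_hermitian_sq (hK.sub (hher t)))
    refine le_of_tendsto (tendsto_formR_zero (C := fun i => ‖v i‖) ?_
      (by simpa using hbot.const_sub (diagC κ))) (eventually_atBot.2 ⟨x, hm⟩)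
    filter_upwards [eventually_le_atBot x] with a ha i
    rw [norm_mul]
    refine mul_le_of_le_one_left (norm_nonneg _) ?_
    have := norm_exp_le_one (r := 1 * κ i * (a - x))
      (by have := hκ i; nlinarith)
    push_cast at this ⊢
    exact this
  have h2 : (diagC κ + R x).PosSemidef := by
    refine posSemidef_of_formR (hK.add (hher x)) fun v => ?_
    have hm : ∀ b, x ≤ b → formR (fun i => Complex.exp ((-1 : ℝ) * κ i * (b - x)) * v i)
        (diagC κ + R b) ≤ formR v (diagC κ + R x) := by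
      intro b hb
      have := form_mono (κ := κ) (-1) x (D := fun t => -(diagC κ + R t)) hb
        (fun i j => ((hcK x b i j).fun_add (hac x b i j)).fun_neg) ?_ v
      · have hneg : ∀ (w : Fin n → ℂ) (A : CMat n), formR w (-A) = -formR w A := fun w A => by
          simp [formR, Matrix.neg_mulVec]
        rw [hneg, hneg] at this
        have := neg_le_neg this
        simpa using this
      filter_upwards [hode] with t ⟨hV, hR⟩
      refine ⟨-((diagC fun i => κ i ^ 2) - R t * R t - V t), fun i j => ?_, ?_⟩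
      · exact ((hR i j).const_add (diagC κ i j)).neg
      have e : -((diagC fun i => κ i ^ 2) - R t * R t - V t) +
          ((-1 : ℝ) : ℂ) • (diagC κ * -(diagC κ + R t) + -(diagC κ + R t) * diagC κ) =
          V t + (diagC κ + R t) * (diagC κ + R t) := by
        rw [← diagC_sq, Complex.ofReal_neg, Complex.ofReal_one, neg_smul, one_smul]
        noncomm_ring
      rw [e]
      exact hV.add (posSemidef_hermitian_sq (hK.add (hher t)))
    refine le_of_tendsto (tendsto_formR_zero (C := fun i => ‖v i‖) ?_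
      (by simpa using htop.const_add (diagC κ))) (eventually_atTop.2 ⟨x, hm⟩)
    filter_upwards [eventually_ge_atTop x] with a ha i
    rw [norm_mul]
    refine mul_le_of_le_one_left (norm_nonneg _) ?_
    have := norm_exp_le_one (r := -1 * κ i * (a - x))
      (by have := hκ i; nlinarith)
    push_cast at this ⊢
    exact this
  refine ⟨(spec_diagC _).posSemidef_iff.2 fun i => sq_nonneg _, h1, ?_⟩
  rw [sqrtM_diagC hκ]
  convert h2 using 1
  rw [two_smul]
  abel

/-! ## The potential along a path -/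

/-- The potential along a matrix path is absolutely continuous. -/
theorem psiA_path_ac {α : ℝ} {L : CMat n} {B : ℝ → CMat n} {a b : ℝ} (h0 : 0 < α) (h1 : α < 1)
    (hB : MatAC B a b) (hF : ∀ x, Feasible L (B x)) :
    AbsolutelyContinuousOnInterval (fun x => psiA α L (B x)) a b := by
  set S : Set ((ℝ × ℝ) × ℝ) := (uIcc a b ×ˢ uIcc a b) ×ˢ Icc (0 : ℝ) 1
  have hBc : ContinuousOn B (uIcc a b) :=
    continuousOn_pi.2 fun i => continuousOn_pi.2 fun j => (hB i j).continuousOn
  have hx : ContinuousOn (fun z : (ℝ × ℝ) × ℝ => B z.1.1) S :=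
    hBc.comp (continuous_fst.comp continuous_fst).continuousOn fun z hz => hz.1.1
  have hy : ContinuousOn (fun z : (ℝ × ℝ) × ℝ => B z.1.2) S :=
    hBc.comp (continuous_snd.comp continuous_fst).continuousOn fun z hz => hz.1.2
  have hseg : ContinuousOn
      (fun z : (ℝ × ℝ) × ℝ => (L, B z.1.2 + (z.2 : ℂ) • (B z.1.1 - B z.1.2))) S :=
    continuousOn_const.prodMk (hy.add
      ((Complex.continuous_ofReal.comp continuous_snd).continuousOn.smul (hx.sub hy)))
  have hpal := (palM_continuousOn h0 h1).comp hseg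
    (fun z hz => feasible_seg (hF z.1.2) (hF z.1.1) hz.2)
  have hS : IsCompact S := (isCompact_uIcc.prod isCompact_uIcc).prod isCompact_Icc
  choose M hM using fun i j => hS.exists_bound_of_continuousOn
    (continuousOn_pi.1 (continuousOn_pi.1 hpal i) j)
  have hM0 : ∀ i j, 0 ≤ M i j := fun i j => (norm_nonneg _).trans
    (hM i j ((a, a), 0) ⟨⟨left_mem_uIcc, left_mem_uIcc⟩, left_mem_Icc.2 zero_le_one⟩)
  refine ac_of_abs_le_sum (C := ∑ i, ∑ j, M i j)
    (V := fun (z : Fin n × Fin n) x => B x z.1 z.2) (fun z => hB z.1 z.2) fun x hx y hy => ?_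
  rw [Real.dist_eq, psiA_seg_integral h0 h1 (hF y) (hF x)]
  rw [← Real.norm_eq_abs]
  refine le_trans (intervalIntegral.norm_integral_le_of_norm_le_const (a := (0 : ℝ)) (b := 1)
    (C := (∑ i, ∑ j, M i j) * ∑ z : Fin n × Fin n, dist (B x z.1 z.2) (B y z.1 z.2))
    fun v hv => ?_) (le_of_eq (by rw [sub_zero, abs_one, mul_one]))
  rw [uIoc_of_le zero_le_one] at hv
  rw [Real.norm_eq_abs, trR_eq_sum]
  refine (Complex.abs_re_le_norm _).trans ((norm_sum_le _ _).trans ?_)
  rw [Finset.sum_mul]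
  refine Finset.sum_le_sum fun i _ => (norm_sum_le _ _).trans ?_
  rw [Finset.sum_mul]
  refine Finset.sum_le_sum fun j _ => ?_
  rw [norm_mul]
  refine mul_le_mul (hM i j ((x, y), v) ⟨⟨hx, hy⟩, Ioc_subset_Icc_self hv⟩) ?_ (norm_nonneg _)
    (hM0 i j)
  rw [Matrix.sub_apply, ← dist_eq_norm]
  exact Finset.single_le_sum (f := fun z : Fin n × Fin n => dist (B x z.1 z.2) (B y z.1 z.2))
    (fun z _ => dist_nonneg) (Finset.mem_univ (j, i))

/-- The mean value theorem for the potential. -/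
theorem psiA_mvt_pos {α : ℝ} {L B₀ B₁ : CMat n} (h0 : 0 < α) (h1 : α < 1)
    (h₀ : Feasible L B₀) (h₁ : Feasible L B₁) : ∃ θ ∈ Icc (0 : ℝ) 1,
      psiA α L B₁ - psiA α L B₀ =
        trR (palM α L (B₀ + (θ : ℂ) • (B₁ - B₀)) * (B₁ - B₀)) := by
  have hm : MapsTo (fun w : ℝ => (L, B₀ + (w : ℂ) • (B₁ - B₀))) (Icc 0 1)
      {p | Feasible p.1 p.2} := fun w hw => feasible_seg h₀ h₁ hw
  have c1 := (psiA_continuousOn h0 h1).comp (continuous_seg L B₀ B₁).continuousOn hm
  simp only [Function.comp_def] at c1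
  obtain ⟨c, hc, he⟩ := exists_hasDerivAt_eq_slope
    (fun w : ℝ => psiA α L (B₀ + (w : ℂ) • (B₁ - B₀)))
    (fun w : ℝ => trR (palM α L (B₀ + (w : ℂ) • (B₁ - B₀)) * (B₁ - B₀))) zero_lt_one
    c1
    (fun w hw => psiA_seg_deriv h0 h1 h₀ h₁ hw)
  exact ⟨c, Ioo_subset_Icc_self hc, by simpa using he.symm⟩

theorem tendsto_trR_mul {X Y : ℝ → CMat n} {l : Filter ℝ} {P D : CMat n}
    (hX : Tendsto X l (𝓝 P)) (hY : Tendsto Y l (𝓝 D)) :
    Tendsto (fun y => trR (X y * Y y)) l (𝓝 (trR (P * D))) := by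
  simp only [trR_eq_sum]
  refine (Complex.continuous_re.tendsto _).comp (tendsto_finsetSum _ fun i _ =>
    tendsto_finsetSum _ fun j _ => ?_)
  exact (tendsto_pi_nhds.1 (tendsto_pi_nhds.1 hX i) j).mul
    (tendsto_pi_nhds.1 (tendsto_pi_nhds.1 hY j) i)

theorem tendsto_within {E F : Type*} [TopologicalSpace E] [TopologicalSpace F] {f : E → F}
    {s : Set E} {p : E} (hc : ContinuousWithinAt f s p) {u : ℝ → E} {l : Filter ℝ}
    (hu : Tendsto u l (𝓝 p)) (hs : ∀ x, u x ∈ s) : Tendsto (fun x => f (u x)) l (𝓝 (f p)) :=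
  hc.tendsto.comp (tendsto_nhdsWithin_iff.2 ⟨hu, Eventually.of_forall hs⟩)

theorem tendsto_seg_point {B : ℝ → CMat n} {θ : ℝ → ℝ} {x : ℝ} {l : Filter ℝ}
    (hB : Tendsto B l (𝓝 (B x))) (hθ : ∀ y, θ y ∈ Icc (0 : ℝ) 1) :
    Tendsto (fun y => B x + (θ y : ℂ) • (B y - B x)) l (𝓝 (B x)) := by
  refine tendsto_pi_nhds.2 fun i => tendsto_pi_nhds.2 fun j => ?_
  refine tendsto_iff_norm_sub_tendsto_zero.2
    (squeeze_zero (fun y => norm_nonneg _) (g := fun y => ‖B y i j - B x i j‖) (fun y => ?_) ?_)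
  · rw [Matrix.add_apply, add_sub_cancel_left, Matrix.smul_apply, Matrix.sub_apply, smul_eq_mul,
      norm_mul, Complex.norm_real, Real.norm_eq_abs, abs_of_nonneg (hθ y).1]
    exact mul_le_of_le_one_left (norm_nonneg _) (hθ y).2
  · simpa using ((tendsto_pi_nhds.1 (tendsto_pi_nhds.1 hB i) j).sub_const (B x i j)).norm

/-- Chain rule for the potential along a path. -/
theorem psiA_path_deriv {α : ℝ} {L D : CMat n} {B : ℝ → CMat n} {x : ℝ} (h0 : 0 < α) (h1 : α < 1)
    (hB : MatDerivAt B D x) (hF : ∀ y, Feasible L (B y)) :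
    HasDerivAt (fun y => psiA α L (B y)) (trR (palM α L (B x) * D)) x := by
  choose θ hθ he using fun y => psiA_mvt_pos h0 h1 (hF x) (hF y)
  rw [hasDerivAt_iff_tendsto_slope]
  have hBx : Tendsto B (𝓝[≠] x) (𝓝 (B x)) :=
    tendsto_nhdsWithin_of_tendsto_nhds
      (tendsto_pi_nhds.2 fun i => tendsto_pi_nhds.2 fun j => (hB i j).continuousAt)
  have hsl : Tendsto (fun y : ℝ => (((y - x)⁻¹ : ℝ) : ℂ) • (B y - B x)) (𝓝[≠] x) (𝓝 D) := by
    refine tendsto_pi_nhds.2 fun i => tendsto_pi_nhds.2 fun j => ?_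
    refine (hasDerivAt_iff_tendsto_slope.1 (hB i j)).congr fun y => ?_
    simp [slope, vsub_eq_sub, Complex.real_smul, Matrix.smul_apply]
  have hpal : Tendsto (fun y => palM α L (B x + (θ y : ℂ) • (B y - B x))) (𝓝[≠] x)
      (𝓝 (palM α L (B x))) :=
    tendsto_within (f := fun p : CMat n × CMat n => palM α p.1 p.2)
      (u := fun y => (L, B x + (θ y : ℂ) • (B y - B x)))
      (palM_continuousOn h0 h1 (L, B x) (hF x))
      (tendsto_const_nhds.prodMk_nhds (tendsto_seg_point hBx hθ))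
      (fun y => feasible_seg (hF x) (hF y) (hθ y))
  refine (tendsto_trR_mul hpal hsl).congr fun y => ?_
  rw [slope_def_field, he, Matrix.mul_smul, trR_smul, div_eq_inv_mul]

/-- The pointwise bound. -/
theorem pal_bound {α : ℝ} {L B V : CMat n} (h0 : 0 < α) (h1 : α < 1) (hF : Feasible L B)
    (hV : V.PosSemidef) :
    trR (palM α L B * (V - (L - rM L B * rM L B))) ≤
      Gamma.youngC (1 + α) 1 * trPow (1 + α) V := by
  obtain ⟨U, w, hU⟩ := exists_spec hV.1
  have hw := hU.posSemidef_iff.1 hV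
  set c : ℝ := α / (1 + α) with hc
  have hc0 : 0 < c := div_pos h0 (by linarith)
  have hW : ((c : ℂ) • V).PosSemidef := hV.smul (Complex.zero_le_real.2 hc0.le)
  have h := main_ineq_pos (per_t_of_trace kmat_trace) h0 h1 hF hW
  rw [Matrix.mul_smul, trR_smul, (hU.smul c).trF_eq] at h
  have e1 : (1 + α) * (c * trR (palM α L B * V)) = α * trR (palM α L B * V) := by
    rw [hc]; field_simp
  have e2 : (∑ i, (c * w i) ^ (1 + α)) = c ^ (1 + α) * trPow (1 + α) V := by
    rw [trPow_eq_sum hU, Finset.mul_sum]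
    exact Finset.sum_congr rfl fun i _ => Real.mul_rpow hc0.le (hw i)
  have e3 : c ^ (1 + α) = α * Gamma.youngC (1 + α) 1 := by
    rw [Gamma.youngC, show 1 + α - 1 = α by ring, mul_one, Real.rpow_neg (by positivity),
      ← Real.inv_rpow (by positivity), inv_div, ← hc, Real.rpow_add hc0, Real.rpow_one, hc]
    field_simp
  rw [e1, e2, e3] at h
  rw [Matrix.mul_sub, trR_sub]
  nlinarith [h]

theorem psiA_full {α : ℝ} (h0 : 0 < α) (h1 : α < 1) {κ : Fin n → ℝ} (hκ : ∀ i, 0 ≤ κ i) :
    psiA α (diagC fun i => κ i ^ 2) (diagC fun i => 2 * κ i) =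
      jconst α * ∑ i, κ i ^ (2 * α + 1) := by
  rw [Endpoints.psiA_comm h0 h1 (spec_diagC _) (spec_diagC _)
    (fun i => mul_nonneg zero_le_two (hκ i)) fun i => le_rfl, Finset.mul_sum]
  exact Finset.sum_congr rfl fun i _ => Endpoints.integral_half h0 (hκ i)

/-- The increase of the potential along a path. -/
theorem IsPath.psiA_step {α : ℝ} (h0 : 0 < α) (h1 : α < 1) {κ : Fin n → ℝ}
    (hκ : ∀ i, 0 ≤ κ i) {R V : ℝ → CMat n} (h : IsPath κ R V) {g : ℝ → ℝ} (hg : Integrable g)
    (hVg : ∀ᵐ x, trPow (1 + α) (V x) ≤ g x) {a b : ℝ} (hab : a ≤ b) :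
    psiA α (diagC fun i => κ i ^ 2) (diagC κ - R b) -
        psiA α (diagC fun i => κ i ^ 2) (diagC κ - R a) ≤
      ∫ x in a..b, Gamma.youngC (1 + α) 1 * g x := by
  have hfeas := h.feasible hκ
  obtain ⟨-, hac, hode, -, -⟩ := h
  have hFac : AbsolutelyContinuousOnInterval
      (fun x => psiA α (diagC fun i => κ i ^ 2) (diagC κ - R x)) a b :=
    psiA_path_ac (B := fun x => diagC κ - R x) h0 h1
      (fun i j => (Vale.Agent.LT.ac_const _ a b).fun_sub (hac a b i j)) hfeas
  have hC0 : 0 ≤ Gamma.youngC (1 + α) 1 := by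
    rw [Gamma.youngC, show 1 + α - 1 = α by ring]
    positivity
  have hi := hFac.integral_deriv_eq_sub
  refine le_trans (le_of_eq hi.symm) ?_
  refine intervalIntegral.integral_mono_ae_restrict hab hFac.intervalIntegrable_deriv
    (hg.const_mul _).intervalIntegrable ?_
  refine ae_restrict_of_ae ?_
  filter_upwards [hode, hVg] with x ⟨hV, hR⟩ hx
  have hd := psiA_path_deriv (B := fun x => diagC κ - R x) h0 h1
    ((Vale.Agent.LT.matDerivAt_const (diagC κ) x).sub hR) hfeas
  rw [hd.deriv]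
  refine le_trans (le_of_eq ?_)
    ((pal_bound h0 h1 (hfeas x) hV).trans (mul_le_mul_of_nonneg_left hx hC0))
  congr 2
  rw [rM, sqrtM_diagC hκ, sub_sub_cancel]
  abel

/-- The bound along a path. -/
theorem IsPath.sum_rpow_le {α : ℝ} (h0 : 0 < α) (h1 : α < 1) {κ : Fin n → ℝ}
    (hκ : ∀ i, 0 ≤ κ i) {R V : ℝ → CMat n} (h : IsPath κ R V) {g : ℝ → ℝ} (hg : Integrable g)
    (hVg : ∀ᵐ x, trPow (1 + α) (V x) ≤ g x) :
    jconst α * ∑ i, κ i ^ (2 * α + 1) ≤ Gamma.youngC (1 + α) 1 * ∫ x, g x := by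
  have hfeas := h.feasible hκ
  have step := fun a b hab => h.psiA_step h0 h1 hκ hg hVg (a := a) (b := b) hab
  obtain ⟨-, -, -, hbot, htop⟩ := h
  set L : CMat n := diagC fun i => κ i ^ 2 with hL
  set B : ℝ → CMat n := fun x => diagC κ - R x with hB
  set F : ℝ → ℝ := fun x => psiA α L (B x)
  set C := Gamma.youngC (1 + α) 1 with hC
  have hLp : L.PosSemidef := (spec_diagC _).posSemidef_iff.2 fun i => sq_nonneg _
  have hend : Feasible L (diagC fun i => 2 * κ i) := by
    refine ⟨hLp, (spec_diagC _).posSemidef_iff.2 fun i => mul_nonneg zero_le_two (hκ i), ?_⟩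
    rw [hL, sqrtM_diagC hκ]
    have e : (2 : ℂ) • diagC κ - diagC (fun i => 2 * κ i) = 0 := by
      ext i j; by_cases hij : i = j <;> simp [diagC, hij]
    rw [e]
    exact PosSemidef.zero
  have hlim : ∀ (l : Filter ℝ) (B₁ : CMat n), Tendsto B l (𝓝 B₁) → Feasible L B₁ →
      Tendsto F l (𝓝 (psiA α L B₁)) := fun l B₁ hl hF₁ =>
    tendsto_within (f := fun p : CMat n × CMat n => psiA α p.1 p.2)
      (u := fun x => (L, B x)) (psiA_continuousOn h0 h1 (L, B₁) hF₁)
      (tendsto_const_nhds.prodMk_nhds hl) hfeas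
  have ha := hlim atBot 0 (by simpa [hB] using hbot.const_sub (diagC κ)) (feasible_zero hLp)
  have hb := hlim atTop (diagC fun i => 2 * κ i) ?_ hend
  · have hn : Tendsto (fun k : ℕ => -(k : ℝ)) atTop atBot :=
      tendsto_neg_atTop_atBot.comp tendsto_natCast_atTop_atTop
    have key := le_of_tendsto_of_tendsto ((hb.comp tendsto_natCast_atTop_atTop).sub (ha.comp hn))
      (intervalIntegral_tendsto_integral (hg.const_mul C) hn tendsto_natCast_atTop_atTop)
      (Eventually.of_forall fun k : ℕ => step _ _ (by simp))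
    rw [psiA_zero, sub_zero, hL, psiA_full h0 h1 hκ, integral_const_mul] at key
    exact key
  · have e : diagC (fun i => 2 * κ i) = diagC κ - -diagC κ := by
      ext i j; by_cases hij : i = j <;> simp [diagC, hij, two_mul]
    rw [e]
    exact htop.const_sub _

end Vale.Agent.P371.Calib
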