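import Vale.Agent.LT.AC
import Vale.Agent.P371.Kinetic
import Vale.Agent.P371.Calib.FinalTools
import Vale.Agent.P371.Calib.EndDefs

/-!
# P371: integration of the calibration along the line
-/

namespace Vale.Agent.P371.Calib

open Matrix MeasureTheory Set Filter Complex
open scoped ComplexConjugate ComplexOrder Topology
open Vale.Agent.LT (fam trPow MatDerivAt)

variable {m N : ℕ}

/-- The bound on the derivative of the calibration along a path. -/
def DerivHyp (α : ℝ) : Prop :=
  ∀ {n m : ℕ} (ε δ T : ℝ), 0 < ε → 0 < δ →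
    ∀ (A : ℝ → Matrix (Fin m) (Fin n) ℂ) (A' : Matrix (Fin m) (Fin n) ℂ) (G : ℝ → CMat n) (x d : ℝ),
      MatDerivAt A A' x → MatDerivAt G ((A x)ᴴ * A x) x → (∀ y, G y ∈ box δ T) →
      HasDerivAt (fun y => value α ε ((A y)ᴴ * A y) (G y)) d x →
        d ≤ ((A'ᴴ * A').trace).re - trF (fun r => r ^ (1 + 1 / α)) ((A x)ᴴ * A x)

/-- The calibration is Lipschitz on bounded sets. -/
def LipHyp (α : ℝ) : Prop :=
  ∀ {n : ℕ} (ε δ T R : ℝ), 0 < ε → 0 < δ →
    ∃ C : ℝ, ∀ P₀ P₁ G₀ G₁ : CMat n, P₀.PosSemidef → P₁.PosSemidef → trR P₀ ≤ R → trR P₁ ≤ R →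
      G₀ ∈ box δ T → G₁ ∈ box δ T →
      |value α ε P₀ G₀ - value α ε P₁ G₁| ≤ C * ∑ i, ∑ j, (‖(P₀ - P₁) i j‖ + ‖(G₀ - G₁) i j‖)

/-- The values of the calibration at both ends. -/
def EndHyp (γ : ℝ) : Prop :=
  ∀ {n : ℕ} (ε δ : ℝ) (g : Fin n → ℝ), 0 < ε → 0 < δ → (∀ i, δ ≤ g i) →
    -bconst γ * (∑ i, g i ^ (γ / (γ - 1))) - ε * n ≤
        value (γ - 1 / 2) ε 0 (diagonal fun i => (g i : ℂ)) ∧
      value (γ - 1 / 2) ε (0 : CMat n) ((δ : ℂ) • 1) ≤ 0

theorem trR_gram (A : Matrix (Fin m) (Fin N) ℂ) : trR (Aᴴ * A) = ∑ i, ∑ c, ‖A c i‖ ^ 2 := by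
  rw [trR, Vale.Agent.LT.re_trace_gram]
  simp [normSq_eq_norm_sq]

theorem posSemidef_real_smul_one {r : ℝ} (hr : 0 ≤ r) : ((r : ℂ) • (1 : CMat N)).PosSemidef := by
  rw [smul_one_eq_diagonal]
  exact PosSemidef.diagonal fun _ => by simpa using hr

theorem trPow_integrable {A : ℝ → Matrix (Fin m) (Fin N) ℂ} (hc : ∀ c i, Continuous fun x => A x c i)
    (hi : Integrable fun x => trR ((A x)ᴴ * A x)) {R : ℝ} (hR : ∀ x, trR ((A x)ᴴ * A x) ≤ R)
    {q : ℝ} (hq : 1 ≤ q) : Integrable fun x => trPow q ((A x)ᴴ * A x) := by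
  refine (hi.const_mul (R ^ (q - 1))).mono' ?_ (Eventually.of_forall fun x => ?_)
  · exact (continuous_trPow (continuous_matrix fun i j => Vale.Agent.LT.gram_entry_continuous hc i j)
      (fun x => posSemidef_conjTranspose_mul_self _) hR (by linarith)).aestronglyMeasurable
  · have hp : ((A x)ᴴ * A x).PosSemidef := posSemidef_conjTranspose_mul_self _
    rw [Real.norm_eq_abs, abs_of_nonneg (Vale.Agent.LT.trPow_nonneg hp q)]
    exact (trPow_le hp hq).trans (mul_le_mul_of_nonneg_right
      (Real.rpow_le_rpow (trR_nonneg hp) (hR x) (by linarith)) (trR_nonneg hp))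

/-- The line integral of the calibration, with regularisation. -/
theorem line_approx {γ : ℝ} (hγ : 1 < γ) (hder : DerivHyp (γ - 1 / 2)) (hlip : LipHyp (γ - 1 / 2))
    (hend : EndHyp γ) {t : Fin N → ℝ} (ht : ∀ i, 0 ≤ t i) {u du : Fin N → Fin m → ℝ → ℂ}
    (hu : ∀ i c, MemH1 (u i c) (du i c))
    (hou : ∀ i j, ∫ x, ∑ c, conj (u i c x) * u j c x = if i = j then (t i : ℂ) else 0)
    {ε δ : ℝ} (hε : 0 < ε) (hδ : 0 < δ) :
    Integrable (fun x => trPow (1 + 1 / (γ - 1 / 2)) ((fam u x)ᴴ * fam u x)) ∧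
      ∫ x, trPow (1 + 1 / (γ - 1 / 2)) ((fam u x)ᴴ * fam u x) ≤
        (∑ i, ∫ x, ∑ c, ‖du i c x‖ ^ 2) +
          bconst γ * (∑ i, (δ + t i) ^ (γ / (γ - 1))) + ε * N := by
  set α : ℝ := γ - 1 / 2 with hα
  set q : ℝ := 1 + 1 / α
  have hα0 : 0 < α := by rw [hα]; linarith
  have hq : 1 ≤ q := le_add_of_nonneg_right (by positivity)
  set A := fam u
  set A' := fam du
  set P : ℝ → CMat N := fun x => (A x)ᴴ * A x with hP
  have hAc : ∀ c i, Continuous fun x => A x c i := fun c i => (hu i c).continuous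
  have hPc : ∀ i j, Continuous fun x => P x i j := fun i j =>
    Vale.Agent.LT.gram_entry_continuous hAc i j
  have hPp : ∀ x, (P x).PosSemidef := fun x => posSemidef_conjTranspose_mul_self _
  choose M hM using fun i c => (hu i c).exists_bound
  set R : ℝ := ∑ i, ∑ c, M i c ^ 2
  have hPR : ∀ x, trR (P x) ≤ R := fun x => by
    rw [trR_gram]
    exact Finset.sum_le_sum fun i _ => Finset.sum_le_sum fun c _ =>
      pow_le_pow_left₀ (norm_nonneg _) (hM i c x) 2
  have hR0 : 0 ≤ R := Finset.sum_nonneg fun _ _ => Finset.sum_nonneg fun _ _ => sq_nonneg _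
  have hPt : Integrable fun x => trR (P x) := by
    simp only [hP, trR_gram]
    exact integrable_finsetSum _ fun i _ => integrable_finsetSum _ fun c _ =>
      (hu i c).integrable_normSq
  have hQ : Integrable fun x => trPow q (P x) := trPow_integrable hAc hPt hPR hq
  have hPn : ∀ x i j, ‖P x i j‖ ≤ trR (P x) := fun x i j => Vale.Agent.LT.norm_gram_le (A x) i j
  have hPi : ∀ i j, Integrable fun x => P x i j := fun i j =>
    hPt.mono' (hPc i j).aestronglyMeasurable (Eventually.of_forall fun x => hPn x i j)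
  have htot : ∀ i j, ∫ x, P x i j = if i = j then (t i : ℂ) else 0 := fun i j => by
    rw [← hou i j]
    simp [hP, A, fam, Matrix.mul_apply]
  -- the accumulated Gram matrix
  set Γ : ℝ → CMat N := fun x => Matrix.of fun i j => ∫ s in Iic x, P s i j with hΓ
  have hΓh : ∀ x, (Γ x).IsHermitian := fun x => by
    ext i j
    simp only [hΓ, conjTranspose_apply, Matrix.of_apply, Complex.star_def]
    rw [← integral_conj]
    refine integral_congr_ae (Eventually.of_forall fun s => ?_)
    exact (congrFun (congrFun (hPp s).1 i) j)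
  have hform : ∀ x (v : Fin N → ℂ), (star v ⬝ᵥ Γ x *ᵥ v) =
      ((∫ s in Iic x, ∑ c, normSq ((A s *ᵥ v) c) : ℝ) : ℂ) := fun x v => by
    rw [Vale.Agent.LT.form_entry, ← integral_complex_ofReal]
    simp only [← Vale.Agent.LT.gram_form, Vale.Agent.LT.form_entry]
    rw [integral_finsetSum _ fun i _ => integrable_finsetSum _ fun j _ =>
      ((hPi i j).const_mul _).integrableOn]
    refine Finset.sum_congr rfl fun i _ => ?_
    rw [integral_finsetSum _ fun j _ => ((hPi i j).const_mul _).integrableOn]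
    exact Finset.sum_congr rfl fun j _ => (integral_const_mul _ _).symm
  have hmass : ∀ v : Fin N → ℂ, Integrable (fun s => ∑ c, normSq ((A s *ᵥ v) c)) ∧
      ∫ s, ∑ c, normSq ((A s *ᵥ v) c) = ∑ i, t i * normSq (v i) := fun v => by
    have e : ∀ s, ((∑ c, normSq ((A s *ᵥ v) c) : ℝ) : ℂ) =
        ∑ i, ∑ j, conj (v i) * v j * P s i j := fun s => by
      rw [← Vale.Agent.LT.gram_form, Vale.Agent.LT.form_entry]
    have hi : Integrable fun s => ((∑ c, normSq ((A s *ᵥ v) c) : ℝ) : ℂ) := by
      simp only [e]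
      exact integrable_finsetSum _ fun i _ =>
        integrable_finsetSum _ fun j _ => (hPi i j).const_mul _
    refine ⟨by simpa using hi.re, Complex.ofReal_injective ?_⟩
    rw [← integral_complex_ofReal, integral_congr_ae (Eventually.of_forall e),
      integral_finsetSum _ fun i _ => integrable_finsetSum _ fun j _ => (hPi i j).const_mul _,
      Complex.ofReal_sum]
    refine Finset.sum_congr rfl fun i _ => ?_
    rw [integral_finsetSum _ fun j _ => (hPi i j).const_mul _]
    simp only [integral_const_mul, htot, mul_ite, mul_zero, Finset.sum_ite_eq, Finset.mem_univ,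
      if_true, Complex.ofReal_mul, normSq_eq_conj_mul_self]
    ring
  set G : ℝ → CMat N := fun x => (δ : ℂ) • 1 + Γ x with hG
  set S : ℝ := ∑ i, t i
  have hS : 0 ≤ S := Finset.sum_nonneg fun i _ => ht i
  set T : ℝ := δ + S with hT
  have hbox : ∀ x, G x ∈ box δ T := fun x => by
    constructor
    · rw [hG, add_sub_cancel_left]
      refine PosSemidef.of_dotProduct_mulVec_nonneg (hΓh x) fun v => ?_
      rw [hform]
      exact Complex.zero_le_real.2 (setIntegral_nonneg measurableSet_Iic fun s _ =>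
        Finset.sum_nonneg fun c _ => normSq_nonneg _)
    · have e : (T : ℂ) • (1 : CMat N) - G x = (S : ℂ) • 1 - Γ x := by
        simp only [hG, hT, Complex.ofReal_add, add_smul, add_sub_add_left_eq_sub]
      rw [e]
      refine PosSemidef.of_dotProduct_mulVec_nonneg
        ((posSemidef_real_smul_one hS).1.sub (hΓh x)) fun v => ?_
      rw [Matrix.sub_mulVec, dotProduct_sub, hform, Matrix.smul_mulVec, Matrix.one_mulVec,
        dotProduct_smul, Vale.Agent.LT.star_dot_self, smul_eq_mul, ← Complex.ofReal_mul,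
        ← Complex.ofReal_sub]
      refine Complex.zero_le_real.2 (sub_nonneg.2 ?_)
      refine (setIntegral_le_integral (hmass v).1 (Eventually.of_forall fun s =>
        Finset.sum_nonneg fun c _ => normSq_nonneg _)).trans ?_
      rw [(hmass v).2, Finset.mul_sum]
      exact Finset.sum_le_sum fun i _ => mul_le_mul_of_nonneg_right
        (Finset.single_le_sum (fun j _ => ht j) (Finset.mem_univ i)) (normSq_nonneg _)
  have hΓsub : ∀ i j x y, ∫ s in x..y, P s i j = Γ y i j - Γ x i j := fun i j x y =>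
    (intervalIntegral.integral_Iic_sub_Iic (hPi i j).integrableOn (hPi i j).integrableOn).symm
  have hGd : ∀ x, MatDerivAt G (P x) x := fun x i j => by
    have e : (fun y => G y i j) = fun y => G 0 i j + ∫ s in (0:ℝ)..y, P s i j := funext fun y => by
      rw [hΓsub]
      simp [hG]
    rw [e]
    exact (intervalIntegral.integral_hasDerivAt_right (hPi i j).intervalIntegrable
      (hPi i j).aestronglyMeasurable.stronglyMeasurableAtFilter (hPc i j).continuousAt).const_add _
  set F : ℝ → ℝ := fun x => value α ε (P x) (G x)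
  obtain ⟨C, hC⟩ := @hlip N ε δ T R hε hδ
  -- absolute continuity and the derivative
  set g : ℝ → ℝ := fun x => (∑ i, ∑ c, ‖du i c x‖ ^ 2) - trPow q (P x)
  have hD : Integrable fun x => ∑ i, ∑ c, ‖du i c x‖ ^ 2 :=
    integrable_finsetSum _ fun i _ => integrable_finsetSum _ fun c _ =>
      (hu i c).integrable_deriv_normSq
  have hgi : Integrable g := hD.sub hQ
  have step : ∀ a b : ℝ, a ≤ b → F b - F a ≤ ∫ x in a..b, g x := by
    intro a b hab
    have hA : Vale.Agent.LT.MatAC A a b := fun c i =>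
      Vale.Agent.LT.ac_primitive (hu i c).intervalIntegrable (hu i c).2.2
    have hPac : Vale.Agent.LT.MatAC P a b := hA.conjTranspose.matMul hA
    have hΓac : Vale.Agent.LT.MatAC Γ a b := fun i j =>
      Vale.Agent.LT.ac_primitive (fun x y => (hPi i j).intervalIntegrable) (hΓsub i j)
    have hac : AbsolutelyContinuousOnInterval F a b := by
      refine ac_of_abs_le_sum (C := C) (V := Sum.elim (fun z : Fin N × Fin N => fun x => P x z.1 z.2)
        (fun z : Fin N × Fin N => fun x => Γ x z.1 z.2))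
        (by rintro (⟨i, j⟩ | ⟨i, j⟩); exacts [hPac i j, hΓac i j]) fun x _ y _ => ?_
      refine (hC _ _ _ _ (hPp x) (hPp y) (hPR x) (hPR y) (hbox x) (hbox y)).trans (le_of_eq ?_)
      simp only [Fintype.sum_sum_type, Fintype.sum_prod_type, Sum.elim_inl, Sum.elim_inr,
        Finset.sum_add_distrib, dist_eq_norm, hG, Matrix.sub_apply, Matrix.add_apply,
        add_sub_add_left_eq_sub]
    rw [← hac.integral_deriv_eq_sub]
    refine intervalIntegral.integral_mono_ae_restrict hab hac.intervalIntegrable_deriv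
      hgi.intervalIntegrable ?_
    refine (ae_restrict_iff' measurableSet_Icc).2 ?_
    filter_upwards [hac.ae_differentiableAt, ae_all_iff.2 fun i => ae_all_iff.2 fun c =>
      (hu i c).ae_hasDerivAt] with x hx hx' hmem
    have h1 := hder ε δ T hε hδ A (A' x) G x (deriv F x) (fun c i => hx' i c) (hGd x) hbox
      (hx (by rwa [Set.uIcc_of_le hab])).hasDerivAt
    refine h1.trans (le_of_eq ?_)
    show trR ((A' x)ᴴ * A' x) - trPow q (P x) = g x
    rw [trR_gram]
    rfl
  -- the two ends
  obtain ⟨a, b, ha, hb, ha0, hb0⟩ := exists_seq_small hPt fun x => trR_nonneg (hPp x)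
  have hzero : trR (0 : CMat N) ≤ R := by simpa [trR] using hR0
  have hlim : ∀ (s : ℕ → ℝ) (G₁ : CMat N), G₁ ∈ box δ T →
      Tendsto (fun k => trR (P (s k))) atTop (𝓝 0) →
      (∀ i j, Tendsto (fun k => G (s k) i j) atTop (𝓝 (G₁ i j))) →
      Tendsto (fun k => F (s k)) atTop (𝓝 (value α ε 0 G₁)) := by
    intro s G₁ h1 hs hsG
    rw [tendsto_iff_dist_tendsto_zero]
    refine squeeze_zero (fun k => dist_nonneg) (fun k => hC _ _ _ _ (hPp (s k)) PosSemidef.zero
      (hPR (s k)) hzero (hbox (s k)) h1) ?_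
    rw [← mul_zero C]
    refine Tendsto.const_mul C ?_
    rw [show (0 : ℝ) = ∑ _i : Fin N, ∑ _j : Fin N, ((0 : ℝ) + 0) by simp]
    refine tendsto_finsetSum _ fun i _ => tendsto_finsetSum _ fun j _ => Tendsto.add ?_ ?_
    · exact squeeze_zero (fun k => norm_nonneg _) (fun k => by simpa using hPn (s k) i j) hs
    · simpa using (tendsto_iff_norm_sub_tendsto_zero.1 (hsG i j))
  have hΓa : ∀ i j, Tendsto (fun k => Γ (a k) i j) atTop (𝓝 0) := fun i j => by
    have h1 := intervalIntegral_tendsto_integral_Iic (b := (0:ℝ)) (hPi i j).integrableOn ha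
    simp only [hΓsub] at h1
    simpa [hΓ] using h1.const_sub (Γ 0 i j)
  have hΓb : ∀ i j, Tendsto (fun k => Γ (b k) i j) atTop (𝓝 (if i = j then (t i : ℂ) else 0)) :=
    fun i j => by
    have h1 := intervalIntegral_tendsto_integral_Ioi (a := (0:ℝ)) (hPi i j).integrableOn hb
    simp only [hΓsub] at h1
    have h2 := h1.const_add (Γ 0 i j)
    simp only [hΓ, Matrix.of_apply, add_sub_cancel,
      intervalIntegral.integral_Iic_add_Ioi (hPi i j).integrableOn (hPi i j).integrableOn,
      htot] at h2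
    exact h2
  obtain ⟨e1, e2⟩ := @hend N ε δ (fun i => δ + t i) hε hδ fun i => le_add_of_nonneg_right (ht i)
  have hbox0 : ((δ : ℂ) • 1 : CMat N) ∈ box δ T := ⟨by simpa using PosSemidef.zero, by
    rw [← sub_smul, ← Complex.ofReal_sub]
    exact posSemidef_real_smul_one (by linarith)⟩
  have hbox1 : (diagonal fun i => ((δ + t i : ℝ) : ℂ)) ∈ box δ T := by
    constructor
    · rw [smul_one_eq_diagonal, diagonal_sub]
      exact PosSemidef.diagonal fun i => by simpa using ht i
    · rw [smul_one_eq_diagonal, diagonal_sub]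
      refine PosSemidef.diagonal fun i => ?_
      have := Finset.single_le_sum (fun j _ => ht j) (Finset.mem_univ i)
      simp only [hT, S, Pi.zero_apply, ← Complex.ofReal_sub]
      exact Complex.zero_le_real.2 (by linarith)
  have hFa := hlim a _ hbox0 ha0 fun i j => by simpa [hG] using (hΓa i j).const_add _
  have hFb := hlim b _ hbox1 hb0 fun i j => by
    have h := (hΓb i j).const_add (((δ : ℂ) • (1 : CMat N)) i j)
    by_cases hij : i = j
    · subst hij; simpa [hG] using h
    · simpa [hG, hij] using h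
  have key : value α ε 0 (diagonal fun i => ((δ + t i : ℝ) : ℂ)) - value α ε 0 ((δ : ℂ) • (1 : CMat N)) ≤
      ∫ x, g x := by
    refine le_of_tendsto_of_tendsto (hFb.sub hFa) (intervalIntegral_tendsto_integral hgi ha hb) ?_
    filter_upwards [ha.eventually (eventually_le_atBot 0), hb.eventually (eventually_ge_atTop 0)]
      with k h1 h2 using step _ _ (h1.trans h2)
  refine ⟨hQ, ?_⟩
  rw [integral_sub hD hQ, integral_finsetSum _ fun i _ => integrable_finsetSum _ fun c _ =>
    (hu i c).integrable_deriv_normSq] at key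
  linarith

end Vale.Agent.P371.Calib
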