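import Vale.Agent.P371.Calib.Spec

/-!
# P371: bounds for the integrand `yT` of the calibration

Everything is read off quadratic forms: `qf H x = re ⟨x, H x⟩`.
-/

namespace Vale.Agent.P371.Calib

open Matrix MeasureTheory Set Filter Finset
open scoped ComplexOrder Topology

variable {n : ℕ}

/-- The real quadratic form of a matrix. -/
noncomputable def qf (H : CMat n) (x : Fin n → ℂ) : ℝ := (star x ⬝ᵥ H *ᵥ x).re

theorem qf_add (A B : CMat n) (x : Fin n → ℂ) : qf (A + B) x = qf A x + qf B x := by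
  simp [qf, add_mulVec, dotProduct_add]

theorem qf_sub (A B : CMat n) (x : Fin n → ℂ) : qf (A - B) x = qf A x - qf B x := by
  simp [qf, sub_mulVec, dotProduct_sub]

theorem qf_smul (r : ℝ) (A : CMat n) (x : Fin n → ℂ) : qf ((r : ℂ) • A) x = r * qf A x := by
  simp [qf, smul_mulVec, dotProduct_smul]

theorem qf_nonneg {A : CMat n} (hA : A.PosSemidef) (x : Fin n → ℂ) : 0 ≤ qf A x :=
  hA.re_dotProduct_nonneg x

theorem qf_one (x : Fin n → ℂ) : qf 1 x = ∑ i, Complex.normSq (x i) := by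
  simp [qf, dotProduct, Complex.re_sum, Complex.normSq_apply]

theorem qf_one_nonneg (x : Fin n → ℂ) : 0 ≤ qf 1 x := by
  rw [qf_one]; exact sum_nonneg fun i _ => Complex.normSq_nonneg _

/-- A column of a matrix as a vector. -/
def colV (V : CMat n) (k : Fin n) : Fin n → ℂ := fun i => V i k

theorem qf_colV (H V : CMat n) (k : Fin n) : qf H (colV V k) = ((Vᴴ * H * V) k k).re := by
  simp only [qf, colV, dotProduct, mulVec, Matrix.mul_apply, conjTranspose_apply, Finset.sum_mul,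
    Finset.mul_sum, Pi.star_apply]
  rw [Finset.sum_comm]
  simp only [mul_assoc]

section spec

variable {A V : CMat n} {a : Fin n → ℝ}

theorem Spec.add (h : Spec A V a) {B : CMat n} {b : Fin n → ℝ} (h' : Spec B V b) :
    Spec (A + B) V fun i => a i + b i := by
  refine ⟨h.1, h.2.1, ?_⟩
  have e : (diagonal fun i => ((a i + b i : ℝ) : ℂ)) =
      diagonal (fun i => (a i : ℂ)) + diagonal fun i => (b i : ℂ) := by
    rw [diagonal_add]; push_cast; rfl
  rw [e, Matrix.mul_add, Matrix.add_mul, ← h.2.2, ← h'.2.2]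

theorem Spec.sub (h : Spec A V a) {B : CMat n} {b : Fin n → ℝ} (h' : Spec B V b) :
    Spec (A - B) V fun i => a i - b i := by
  refine ⟨h.1, h.2.1, ?_⟩
  have e : (diagonal fun i => ((a i - b i : ℝ) : ℂ)) =
      diagonal (fun i => (a i : ℂ)) - diagonal fun i => (b i : ℂ) := by
    rw [diagonal_sub]; push_cast; rfl
  rw [e, Matrix.mul_sub, Matrix.sub_mul, ← h.2.2, ← h'.2.2]

theorem Spec.eq (h : Spec A V a) {B : CMat n} {b : Fin n → ℝ} (h' : Spec B V b)
    (e : ∀ i, a i = b i) : A = B := by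
  rw [h.2.2, h'.2.2, show a = b from funext e]

theorem Spec.qf_eq (h : Spec A V a) (x : Fin n → ℂ) :
    qf A x = ∑ k, a k * Complex.normSq ((Vᴴ *ᵥ x) k) := by
  have e : star (Vᴴ *ᵥ x) = star x ᵥ* V := by rw [star_mulVec, conjTranspose_conjTranspose]
  rw [qf, h.2.2, ← Matrix.mulVec_mulVec, ← Matrix.mulVec_mulVec, Matrix.dotProduct_mulVec, ← e]
  simp [dotProduct, Complex.re_sum, mulVec_diagonal, Complex.normSq_apply]
  exact sum_congr rfl fun k _ => by ring

theorem Spec.qf_one_eq (h : Spec A V a) (x : Fin n → ℂ) :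
    qf 1 x = ∑ k, Complex.normSq ((Vᴴ *ᵥ x) k) := by
  have h1 : Spec (1 : CMat n) V fun _ => 1 := ⟨h.1, h.2.1, by simp [h.2.1]⟩
  simpa using h1.qf_eq x

theorem Spec.qf_le_lin (h : Spec A V a) {F : CMat n} {f : Fin n → ℝ} (hF : Spec F V f) {p q : ℝ}
    (hle : ∀ k, f k ≤ p * a k + q) (x : Fin n → ℂ) : qf F x ≤ p * qf A x + q * qf 1 x := by
  rw [hF.qf_eq, h.qf_eq, h.qf_one_eq, mul_sum, mul_sum, ← sum_add_distrib]
  refine sum_le_sum fun k _ => ?_
  nlinarith [mul_le_mul_of_nonneg_right (hle k) (Complex.normSq_nonneg ((Vᴴ *ᵥ x) k))]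

theorem Spec.lin_le_qf (h : Spec A V a) {F : CMat n} {f : Fin n → ℝ} (hF : Spec F V f) {p q : ℝ}
    (hle : ∀ k, p * a k + q ≤ f k) (x : Fin n → ℂ) : p * qf A x + q * qf 1 x ≤ qf F x := by
  rw [hF.qf_eq, h.qf_eq, h.qf_one_eq, mul_sum, mul_sum, ← sum_add_distrib]
  refine sum_le_sum fun k _ => ?_
  nlinarith [mul_le_mul_of_nonneg_right (hle k) (Complex.normSq_nonneg ((Vᴴ *ᵥ x) k))]

theorem Spec.qf_le (h : Spec A V a) {c : ℝ} (hle : ∀ k, a k ≤ c) (x : Fin n → ℂ) :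
    qf A x ≤ c * qf 1 x := by
  have := h.qf_le_lin h (p := 0) (q := c) (by simpa using hle) x
  linarith

theorem Spec.le_qf (h : Spec A V a) {c : ℝ} (hle : ∀ k, c ≤ a k) (x : Fin n → ℂ) :
    c * qf 1 x ≤ qf A x := by
  have := h.lin_le_qf h (p := 0) (q := c) (by simpa using hle) x
  linarith

theorem Spec.qf_colV_eq (h : Spec A V a) (k : Fin n) : qf A (colV V k) = a k := by
  rw [qf_colV, h.conj_self]; simp

theorem Spec.qf_colV_one (h : Spec A V a) (k : Fin n) : qf 1 (colV V k) = 1 := by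
  rw [qf_colV, Matrix.mul_one, h.1]; simp

theorem Spec.eig_le (h : Spec A V a) {c : ℝ} (hc : ∀ x, qf A x ≤ c * qf 1 x) (k : Fin n) :
    a k ≤ c := by
  simpa [h.qf_colV_eq, h.qf_colV_one] using hc (colV V k)

theorem Spec.le_eig (h : Spec A V a) {c : ℝ} (hc : ∀ x, c * qf 1 x ≤ qf A x) (k : Fin n) :
    c ≤ a k := by
  simpa [h.qf_colV_eq, h.qf_colV_one] using hc (colV V k)

theorem Spec.trR_mul_le (h : Spec A V a) (ha : ∀ k, 0 ≤ a k) (H : CMat n) {c : ℝ}
    (hH : ∀ x, qf H x ≤ c * qf 1 x) : trR (A * H) ≤ c * trR A := by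
  rw [h.trR_mul, h.trR_eq, mul_sum]
  refine sum_le_sum fun k _ => ?_
  rw [← qf_colV, mul_comm c]
  exact mul_le_mul_of_nonneg_left (by simpa [h.qf_colV_one] using hH (colV V k)) (ha k)

theorem Spec.eig_le_trR (h : Spec A V a) (ha : ∀ k, 0 ≤ a k) (k : Fin n) : a k ≤ trR A := by
  rw [h.trR_eq]; exact single_le_sum (fun i _ => ha i) (mem_univ k)

end spec

theorem trR_mul_comm (A B : CMat n) : trR (A * B) = trR (B * A) := by
  rw [trR, trR, Matrix.trace_mul_comm]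

theorem trR_mul_le {H B : CMat n} (hB : B.PosSemidef) {c : ℝ}
    (hH : ∀ x, qf H x ≤ c * qf 1 x) : trR (H * B) ≤ c * trR B := by
  obtain ⟨V, b, h⟩ := exists_spec hB.1
  rw [trR_mul_comm]
  exact h.trR_mul_le (h.posSemidef_iff.1 hB) H hH

theorem norm_entry_le_of_qf {H : CMat n} (hH : H.IsHermitian) {c : ℝ}
    (hc : ∀ x, |qf H x| ≤ c * qf 1 x) (i j : Fin n) : ‖H i j‖ ≤ c := by
  obtain ⟨V, a, h⟩ := exists_spec hH
  have hb : ∀ k, |a k| ≤ c := fun k => by
    simpa [h.qf_colV_eq, h.qf_colV_one] using hc (colV V k)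
  have e : H i j = ∑ k, V i k * (a k : ℂ) * star (V j k) := by
    conv_lhs => rw [h.2.2, Matrix.mul_apply]
    simp [mul_diagonal]
  rw [e]
  calc ‖∑ k, V i k * (a k : ℂ) * star (V j k)‖
      ≤ ∑ k, c * ((Complex.normSq (V i k) + Complex.normSq (V j k)) / 2) := by
        refine (norm_sum_le _ _).trans (sum_le_sum fun k _ => ?_)
        rw [norm_mul, norm_mul, norm_star, Complex.norm_real, Real.norm_eq_abs,
          Complex.normSq_eq_norm_sq, Complex.normSq_eq_norm_sq]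
        have h0 := hb k
        have h1 : 0 ≤ c := (abs_nonneg _).trans h0
        nlinarith [mul_le_mul_of_nonneg_left h0 (mul_nonneg (norm_nonneg (V i k)) (norm_nonneg (V j k))),
          mul_nonneg h1 (sq_nonneg (‖V i k‖ - ‖V j k‖))]
    _ = c := by
        rw [← mul_sum, ← sum_div, sum_add_distrib, h.sum_normSq_row, h.sum_normSq_row]
        norm_num

theorem abs_trR_mul_le {H : CMat n} (hH : H.IsHermitian) {c : ℝ}
    (hc : ∀ x, |qf H x| ≤ c * qf 1 x) (M : CMat n) :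
    |trR (H * M)| ≤ c * ∑ i, ∑ j, ‖M i j‖ := by
  refine (Complex.abs_re_le_norm _).trans ?_
  rw [Finset.sum_comm, mul_sum]
  simp only [Matrix.trace, Matrix.diag, Matrix.mul_apply]
  refine (norm_sum_le _ _).trans (sum_le_sum fun i _ => (norm_sum_le _ _).trans ?_)
  rw [mul_sum]
  refine sum_le_sum fun j _ => ?_
  rw [norm_mul]
  exact mul_le_mul_of_nonneg_right (norm_entry_le_of_qf hH hc i j) (norm_nonneg _)

/-! ## The matrices at a fixed `t` -/

variable {L B : CMat n} {t ℓ : ℝ}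

theorem isHermitian_cfc (f : ℝ → ℝ) (A : CMat n) : (cfc f A).IsHermitian := cfc_predicate f A

theorem muM_spec {V : CMat n} {l : Fin n → ℝ} (hL : Spec L V l) (t : ℝ) :
    Spec (muM L t) V fun k => √(l k + t) :=
  (hL.add_smul_one t).sqrtM

theorem qM_spec {V : CMat n} {l : Fin n → ℝ} (hL : Spec L V l) (t : ℝ) :
    Spec (qM L t) V fun k => √(l k + t) + √(l k) :=
  (muM_spec hL t).add hL.sqrtM

theorem qM_posDef (hL : L.PosSemidef) (ht : 0 < t) : (qM L t).PosDef := by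
  obtain ⟨V, l, h⟩ := exists_spec hL.1
  exact (qM_spec h t).posDef_iff.2 fun k => add_pos_of_pos_of_nonneg
    (Real.sqrt_pos.2 (by linarith [h.posSemidef_iff.1 hL k])) (Real.sqrt_nonneg _)

theorem smul_qM_inv (hL : L.PosSemidef) (ht : 0 < t) :
    (t : ℂ) • (qM L t)⁻¹ = muM L t - sqrtM L := by
  obtain ⟨V, l, h⟩ := exists_spec hL.1
  have hp : ∀ k, 0 < √(l k + t) + √(l k) := fun k => add_pos_of_pos_of_nonneg
    (Real.sqrt_pos.2 (by linarith [h.posSemidef_iff.1 hL k])) (Real.sqrt_nonneg _)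
  refine (((qM_spec h t).inv fun k => (hp k).ne').smul t).eq ((muM_spec h t).sub h.sqrtM) fun k => ?_
  have h0 := h.posSemidef_iff.1 hL k
  rw [← div_eq_mul_inv, div_eq_iff (hp k).ne']
  nlinarith [Real.mul_self_sqrt h0, Real.mul_self_sqrt (show (0:ℝ) ≤ l k + t by linarith)]

theorem amM_eq (hL : L.PosSemidef) (ht : 0 < t) :
    amM L B t = (t : ℂ) • (qM L t)⁻¹ + B := by
  rw [smul_qM_inv hL ht]; rfl

theorem apM_eq : apM L B t = qM L t - B := rfl

theorem apM_add_amM : apM L B t + amM L B t = (2 : ℂ) • muM L t := by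
  rw [two_smul, apM, amM]; abel

theorem apM_isHermitian (hB : B.IsHermitian) : (apM L B t).IsHermitian :=
  ((isHermitian_cfc _ _).add (isHermitian_cfc _ _)).sub hB

theorem amM_isHermitian (hB : B.IsHermitian) : (amM L B t).IsHermitian :=
  ((isHermitian_cfc _ _).sub (isHermitian_cfc _ _)).add hB

theorem yT_isHermitian : (yT L B t).IsHermitian := by
  refine ((isHermitian_cfc _ _).add (isHermitian_cfc _ _)).sub ?_
  rw [smul_one_eq_diagonal]
  exact isHermitian_diagonal_of_self_adjoint _ (by ext i; simp)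

/-- Two-sided bounds on the quadratic forms of `apM` and `amM`, with `ℓ ≥ tr L`. -/
theorem ap_am_bounds (hF : Feasible L B) (hℓ : trR L ≤ ℓ) (ht : 0 < t) (x : Fin n → ℂ) :
    (t / (2 * √(ℓ + t)) * qf 1 x ≤ qf (apM L B t) x ∧
        (√t - √ℓ) * qf 1 x ≤ qf (apM L B t) x ∧
        qf (apM L B t) x ≤ (√(ℓ + t) + √ℓ) * qf 1 x) ∧
      t / (2 * √(ℓ + t)) * qf 1 x ≤ qf (amM L B t) x ∧
        (√t - √ℓ) * qf 1 x ≤ qf (amM L B t) x ∧
        qf (amM L B t) x ≤ (√(ℓ + t) + √ℓ) * qf 1 x := by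
  obtain ⟨V, l, h⟩ := exists_spec hF.1.1
  have h0 := h.posSemidef_iff.1 hF.1
  have hl : ∀ k, l k ≤ ℓ := fun k => (h.eig_le_trR h0 k).trans hℓ
  have hB := qf_nonneg hF.2.1 x
  have hD := qf_nonneg hF.2.2 x
  have e1 : qf (apM L B t) x = qf (muM L t) x + qf (sqrtM L) x - qf B x := by
    rw [apM, qf_sub, qf_add]
  have e2 : qf (amM L B t) x = qf (muM L t) x - qf (sqrtM L) x + qf B x := by
    rw [amM, qf_add, qf_sub]
  have e3 : qf ((2 : ℂ) • sqrtM L - B) x = 2 * qf (sqrtM L) x - qf B x := by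
    rw [qf_sub, show (2 : ℂ) = ((2 : ℝ) : ℂ) by norm_num, qf_smul]
  rw [e3] at hD
  have low1 : t / (2 * √(ℓ + t)) * qf 1 x ≤ qf (muM L t - sqrtM L) x := by
    refine ((muM_spec h t).sub h.sqrtM).le_qf (fun k => ?_) x
    have hk := h0 k
    have hs : 0 < √(l k + t) := Real.sqrt_pos.2 (by linarith)
    have hsl := Real.sqrt_le_sqrt (show l k + t ≤ ℓ + t by linarith [hl k])
    have hsl2 := Real.sqrt_le_sqrt (show l k ≤ l k + t by linarith)
    rw [div_le_iff₀ (by linarith)]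
    nlinarith [Real.mul_self_sqrt hk, Real.mul_self_sqrt (show (0:ℝ) ≤ l k + t by linarith)]
  have low2 : (√t - √ℓ) * qf 1 x ≤ qf (muM L t - sqrtM L) x := by
    refine ((muM_spec h t).sub h.sqrtM).le_qf (fun k => ?_) x
    linarith [Real.sqrt_le_sqrt (show t ≤ l k + t by linarith [h0 k]), Real.sqrt_le_sqrt (hl k)]
  have up : qf (muM L t + sqrtM L) x ≤ (√(ℓ + t) + √ℓ) * qf 1 x := by
    refine ((muM_spec h t).add h.sqrtM).qf_le (fun k => ?_) x
    linarith [Real.sqrt_le_sqrt (show l k + t ≤ ℓ + t by linarith [hl k]),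
      Real.sqrt_le_sqrt (hl k)]
  rw [qf_sub] at low1 low2
  rw [qf_add] at up
  rw [e1, e2]
  exact ⟨⟨by linarith, by linarith, by linarith⟩, by linarith, by linarith, by linarith⟩

theorem feasible_trR_nonneg (hF : Feasible L B) : 0 ≤ trR L := by
  obtain ⟨V, l, h⟩ := exists_spec hF.1.1
  rw [h.trR_eq]
  exact sum_nonneg fun k _ => h.posSemidef_iff.1 hF.1 k

theorem apM_posDef (hF : Feasible L B) (ht : 0 < t) : (apM L B t).PosDef := by
  obtain ⟨V, a, h⟩ := exists_spec (apM_isHermitian (t := t) (L := L) hF.2.1.1)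
  have h0 := feasible_trR_nonneg hF
  exact h.posDef_iff.2 fun k => lt_of_lt_of_le
    (div_pos ht (mul_pos two_pos (Real.sqrt_pos.2 (by linarith : (0:ℝ) < trR L + t))))
    (h.le_eig (fun x => (ap_am_bounds hF le_rfl ht x).1.1) k)

theorem amM_posDef (hF : Feasible L B) (ht : 0 < t) : (amM L B t).PosDef := by
  obtain ⟨V, a, h⟩ := exists_spec (amM_isHermitian (t := t) (L := L) hF.2.1.1)
  have h0 := feasible_trR_nonneg hF
  exact h.posDef_iff.2 fun k => lt_of_lt_of_le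
    (div_pos ht (mul_pos two_pos (Real.sqrt_pos.2 (by linarith : (0:ℝ) < trR L + t))))
    (h.le_eig (fun x => (ap_am_bounds hF le_rfl ht x).2.1) k)

theorem qf_yT (x : Fin n → ℂ) :
    qf (yT L B t) x =
      qf (logM (apM L B t)) x + qf (logM (amM L B t)) x - Real.log t * qf 1 x := by
  rw [yT, qf_sub, qf_add, qf_smul]

theorem qf_muM_le (hL : L.PosSemidef) (hℓ : trR L ≤ ℓ) (x : Fin n → ℂ) :
    qf (muM L t) x ≤ √(ℓ + t) * qf 1 x := by
  obtain ⟨V, l, h⟩ := exists_spec hL.1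
  exact (muM_spec h t).qf_le
    (fun k => Real.sqrt_le_sqrt (by linarith [h.eig_le_trR (h.posSemidef_iff.1 hL) k])) x

theorem le_qf_muM (hL : L.PosSemidef) (x : Fin n → ℂ) : √t * qf 1 x ≤ qf (muM L t) x := by
  obtain ⟨V, l, h⟩ := exists_spec hL.1
  exact (muM_spec h t).le_qf
    (fun k => Real.sqrt_le_sqrt (by linarith [h.posSemidef_iff.1 hL k])) x

theorem qf_logM_le {A : CMat n} (hA : A.PosDef) {c : ℝ} (hc : 0 < c) (x : Fin n → ℂ) :
    qf (logM A) x ≤ c⁻¹ * qf A x + (Real.log c - 1) * qf 1 x := by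
  obtain ⟨V, a, h⟩ := exists_spec hA.1
  refine h.qf_le_lin h.logM (fun k => ?_) x
  have hk := h.posDef_iff.1 hA k
  have := Real.log_le_sub_one_of_pos (div_pos hk hc)
  rw [Real.log_div hk.ne' hc.ne', div_eq_inv_mul] at this
  linarith

theorem log_le_qf_logM {A : CMat n} (hA : A.IsHermitian) {c : ℝ} (hc : 0 < c)
    (hle : ∀ y, c * qf 1 y ≤ qf A y) (x : Fin n → ℂ) :
    Real.log c * qf 1 x ≤ qf (logM A) x := by
  obtain ⟨V, a, h⟩ := exists_spec hA
  exact h.logM.le_qf (fun k => Real.log_le_log hc (h.le_eig hle k)) x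

/-- The upper bound. -/
theorem qf_yT_le (hF : Feasible L B) (hℓ : trR L ≤ ℓ) (ht : 0 < t) (x : Fin n → ℂ) :
    qf (yT L B t) x ≤ Real.log (1 + ℓ / t) * qf 1 x := by
  have hℓt : 0 < ℓ + t := by linarith [feasible_trR_nonneg hF]
  have hc : 0 < √(ℓ + t) := Real.sqrt_pos.2 hℓt
  have h1 := qf_logM_le (apM_posDef hF ht) hc x
  have h2 := qf_logM_le (amM_posDef hF ht) hc x
  have h3 : qf (apM L B t) x + qf (amM L B t) x ≤ 2 * √(ℓ + t) * qf 1 x := by
    rw [← qf_add, apM_add_amM, show (2 : ℂ) = ((2 : ℝ) : ℂ) by norm_num, qf_smul, mul_assoc]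
    exact mul_le_mul_of_nonneg_left (qf_muM_le hF.1 hℓ x) zero_le_two
  have h4 : (√(ℓ + t))⁻¹ * (qf (apM L B t) x + qf (amM L B t) x) ≤ 2 * qf 1 x := by
    rw [inv_mul_le_iff₀ hc]; linarith
  have h5 : Real.log (1 + ℓ / t) = 2 * Real.log (√(ℓ + t)) - Real.log t := by
    rw [Real.log_sqrt hℓt.le, show 1 + ℓ / t = (ℓ + t) / t by field_simp; ring,
      Real.log_div hℓt.ne' ht.ne']
    ring
  rw [qf_yT, h5]
  nlinarith [qf_one_nonneg x]

/-- A crude lower bound, for small `t`. -/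
theorem le_qf_yT_small (hF : Feasible L B) (hℓ : trR L ≤ ℓ) (ht : 0 < t) (x : Fin n → ℂ) :
    (Real.log t - Real.log (4 * (ℓ + t))) * qf 1 x ≤ qf (yT L B t) x := by
  have hℓt : 0 < ℓ + t := by linarith [feasible_trR_nonneg hF]
  have hc : 0 < t / (2 * √(ℓ + t)) := div_pos ht (mul_pos two_pos (Real.sqrt_pos.2 hℓt))
  have h1 := log_le_qf_logM (apM_isHermitian (t := t) (L := L) hF.2.1.1) hc
    (fun y => (ap_am_bounds hF hℓ ht y).1.1) x
  have h2 := log_le_qf_logM (amM_isHermitian (t := t) (L := L) hF.2.1.1) hc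
    (fun y => (ap_am_bounds hF hℓ ht y).2.1) x
  have h5 : 2 * Real.log (t / (2 * √(ℓ + t))) - Real.log t =
      Real.log t - Real.log (4 * (ℓ + t)) := by
    rw [Real.log_div ht.ne' (by positivity), Real.log_mul two_ne_zero (by positivity),
      Real.log_sqrt hℓt.le, Real.log_mul (by norm_num) hℓt.ne',
      show (4 : ℝ) = 2 ^ 2 by norm_num, Real.log_pow]
    push_cast; ring
  rw [qf_yT, ← h5]
  linarith

theorem log_lower {a c : ℝ} (hc : 0 < c) (h : |a - c| ≤ c / 2) :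
    Real.log c + (a - c) / c - 2 * ((a - c) / c) ^ 2 ≤ Real.log a := by
  obtain ⟨d, rfl⟩ : ∃ d, a = c * (1 + d) := ⟨a / c - 1, by field_simp; ring⟩
  have hd : |d| ≤ 1 / 2 := by
    rw [show c * (1 + d) - c = c * d by ring, abs_mul, abs_of_pos hc] at h
    nlinarith
  have hd' := abs_le.1 hd
  rw [show (c * (1 + d) - c) / c = d by field_simp; ring,
    Real.log_mul hc.ne' (by linarith)]
  have h1 := Real.one_sub_inv_le_log_of_pos (show 0 < 1 + d by linarith)
  have h2 : d - 2 * d ^ 2 ≤ 1 - (1 + d)⁻¹ := by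
    rw [← sub_nonneg, show 1 - (1 + d)⁻¹ - (d - 2 * d ^ 2) = d ^ 2 * (1 + 2 * d) / (1 + d) by
      rw [eq_div_iff (by linarith : (1 + d) ≠ 0), sub_mul, sub_mul, inv_mul_cancel₀ (by linarith)]
      ring]
    exact div_nonneg (mul_nonneg (sq_nonneg d) (by linarith)) (by linarith)
  linarith

theorem le_qf_logM_large {A : CMat n} (hA : A.IsHermitian) {c r : ℝ} (hc : 0 < c)
    (hr : 2 * r ≤ c) (hle : ∀ y, (c - r) * qf 1 y ≤ qf A y)
    (hge : ∀ y, qf A y ≤ (c + r) * qf 1 y) (x : Fin n → ℂ) :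
    c⁻¹ * qf A x + (Real.log c - 1 - 2 * (r / c) ^ 2) * qf 1 x ≤ qf (logM A) x := by
  obtain ⟨V, a, h⟩ := exists_spec hA
  refine h.lin_le_qf h.logM (fun k => ?_) x
  have hb : |a k - c| ≤ r := abs_le.2
    ⟨by linarith [h.le_eig hle k], by linarith [h.eig_le hge k]⟩
  have h1 := log_lower hc (hb.trans (by linarith))
  have h2 : ((a k - c) / c) ^ 2 ≤ (r / c) ^ 2 := by
    refine sq_le_sq' ?_ ?_
    · rw [← neg_div]; exact div_le_div_of_nonneg_right (abs_le.1 hb).1 hc.le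
    · exact div_le_div_of_nonneg_right (abs_le.1 hb).2 hc.le
  have h3 : (a k - c) / c = c⁻¹ * a k - 1 := by field_simp
  rw [h3] at h1 h2
  linarith

/-- The lower bound for large `t`. -/
theorem le_qf_yT_large (hF : Feasible L B) (hℓ : trR L ≤ ℓ) (ht : 0 < t) (h16 : 16 * ℓ ≤ t)
    (x : Fin n → ℂ) : -(16 * ℓ / t) * qf 1 x ≤ qf (yT L B t) x := by
  have hℓ0 : 0 ≤ ℓ := (feasible_trR_nonneg hF).trans hℓ
  have hc : 0 < √t := Real.sqrt_pos.2 ht
  have h4 : 4 * √ℓ ≤ √t := by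
    rw [show 4 * √ℓ = √(16 * ℓ) by
      rw [Real.sqrt_mul (by norm_num), show (16:ℝ) = 4 ^ 2 by norm_num, Real.sqrt_sq (by norm_num)]]
    exact Real.sqrt_le_sqrt h16
  have hadd : √(ℓ + t) ≤ √t + √ℓ := by
    rw [Real.sqrt_le_left (by positivity)]
    nlinarith [Real.sq_sqrt ht.le, Real.sq_sqrt hℓ0, Real.sqrt_nonneg ℓ]
  have hN := fun y => qf_one_nonneg (n := n) y
  have h1 := le_qf_logM_large (apM_isHermitian (t := t) (L := L) hF.2.1.1) hc
    (r := 2 * √ℓ) (by linarith)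
    (fun y => by nlinarith [(ap_am_bounds hF hℓ ht y).1.2.1, hN y, Real.sqrt_nonneg ℓ])
    (fun y => by nlinarith [(ap_am_bounds hF hℓ ht y).1.2.2, hN y]) x
  have h2 := le_qf_logM_large (amM_isHermitian (t := t) (L := L) hF.2.1.1) hc
    (r := 2 * √ℓ) (by linarith)
    (fun y => by nlinarith [(ap_am_bounds hF hℓ ht y).2.2.1, hN y, Real.sqrt_nonneg ℓ])
    (fun y => by nlinarith [(ap_am_bounds hF hℓ ht y).2.2.2, hN y]) x
  have h3 : 2 * qf 1 x ≤ (√t)⁻¹ * (qf (apM L B t) x + qf (amM L B t) x) := by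
    rw [← qf_add, apM_add_amM, show (2 : ℂ) = ((2 : ℝ) : ℂ) by norm_num, qf_smul,
      le_inv_mul_iff₀ hc]
    nlinarith [le_qf_muM (t := t) hF.1 x]
  have h5 : (2 * √ℓ / √t) ^ 2 = 4 * ℓ / t := by
    rw [div_pow, mul_pow, Real.sq_sqrt hℓ0, Real.sq_sqrt ht.le]; norm_num
  rw [h5] at h1 h2
  rw [qf_yT]
  have h6 : Real.log t = 2 * Real.log (√t) := by rw [Real.log_sqrt ht.le]; ring
  rw [h6]
  have h7 : -(16 * ℓ / t) = -(2 * (2 * (4 * ℓ / t))) := by ring
  rw [h7]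
  nlinarith

/-! ## The majorant -/

/-- The majorant of all integrands. -/
noncomputable def maj (t : ℝ) : ℝ := (1 + |Real.log t|) / (1 + t)

theorem maj_nonneg (ht : 0 ≤ t) : 0 ≤ maj t := div_nonneg (by positivity) (by linarith)

theorem continuousOn_maj : ContinuousOn maj (Ioi 0) :=
  ContinuousOn.div
    (continuousOn_const.add (Real.continuousOn_log.mono fun _ hx => ne_of_gt hx).abs)
    (continuousOn_const.add continuousOn_id) fun x (hx : 0 < x) => by
      show (1:ℝ) + x ≠ 0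
      linarith

/-- The constant of the majorant. -/
noncomputable def majC (ℓ : ℝ) : ℝ :=
  (Real.log 4 + Real.log (17 * ℓ + 1) + 1) * (16 * ℓ + 2) + 32 * ℓ

theorem abs_qf_yT_le (hF : Feasible L B) (hℓ : trR L ≤ ℓ) (h1 : 1 ≤ ℓ) (ht : 0 < t)
    (x : Fin n → ℂ) : |qf (yT L B t) x| ≤ majC ℓ * maj t * qf 1 x := by
  have hN := qf_one_nonneg x
  have hK : 1 ≤ Real.log 4 + Real.log (17 * ℓ + 1) + 1 := by
    linarith [Real.log_nonneg (show (1:ℝ) ≤ 4 by norm_num),
      Real.log_nonneg (show (1:ℝ) ≤ 17 * ℓ + 1 by linarith)]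
  suffices hs : ∃ u, -u * qf 1 x ≤ qf (yT L B t) x ∧ qf (yT L B t) x ≤ u * qf 1 x ∧
      u ≤ majC ℓ * maj t by
    obtain ⟨u, hl, hu, hle⟩ := hs
    rw [abs_le]
    constructor <;> nlinarith [mul_le_mul_of_nonneg_right hle hN]
  have hup := qf_yT_le hF hℓ ht x
  rcases le_total t (16 * ℓ + 1) with hsm | hlg
  · refine ⟨(Real.log 4 + Real.log (17 * ℓ + 1) + 1) * (1 + |Real.log t|), ?_, ?_, ?_⟩
    · refine le_trans ?_ (le_qf_yT_small hF hℓ ht x)
      refine mul_le_mul_of_nonneg_right ?_ hN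
      rw [Real.log_mul (by norm_num) (by linarith)]
      nlinarith [Real.log_le_log (by linarith) (show ℓ + t ≤ 17 * ℓ + 1 by linarith),
        neg_abs_le (Real.log t), mul_le_mul_of_nonneg_right hK (abs_nonneg (Real.log t))]
    · refine hup.trans (mul_le_mul_of_nonneg_right ?_ hN)
      rw [show 1 + ℓ / t = (ℓ + t) / t by field_simp; ring, Real.log_div (by linarith) ht.ne']
      nlinarith [Real.log_le_log (by linarith) (show ℓ + t ≤ 17 * ℓ + 1 by linarith),
        neg_abs_le (Real.log t), mul_le_mul_of_nonneg_right hK (abs_nonneg (Real.log t)),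
        Real.log_nonneg (show (1:ℝ) ≤ 4 by norm_num)]
    · rw [maj, majC, ← mul_div_assoc, le_div_iff₀ (by linarith)]
      nlinarith [abs_nonneg (Real.log t), mul_nonneg
        (mul_nonneg (zero_le_one.trans hK) (by positivity : 0 ≤ 1 + |Real.log t|))
        (show 0 ≤ (16 * ℓ + 2) - (1 + t) by linarith)]
  · refine ⟨16 * ℓ / t, ?_, ?_, ?_⟩
    · simpa using le_qf_yT_large hF hℓ ht (by linarith) x
    · refine hup.trans (mul_le_mul_of_nonneg_right ?_ hN)
      have := Real.log_le_sub_one_of_pos (show 0 < 1 + ℓ / t by positivity)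
      have h3 : ℓ / t ≤ 16 * ℓ / t := div_le_div_of_nonneg_right (by linarith) ht.le
      linarith
    · rw [maj, majC, ← mul_div_assoc, le_div_iff₀ (by linarith), div_mul_eq_mul_div,
        div_le_iff₀ ht]
      nlinarith [abs_nonneg (Real.log t), mul_nonneg (mul_nonneg (zero_le_one.trans hK)
        (show (0:ℝ) ≤ 16 * ℓ + 2 by linarith))
        (mul_nonneg ht.le (by positivity : 0 ≤ 1 + |Real.log t|)),
        mul_nonneg (show (0:ℝ) ≤ ℓ by linarith) (mul_nonneg ht.le (abs_nonneg (Real.log t)))]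

theorem norm_yT_le (hF : Feasible L B) (hℓ : trR L ≤ ℓ) (h1 : 1 ≤ ℓ) (ht : 0 < t)
    (i j : Fin n) : ‖yT L B t i j‖ ≤ majC ℓ * maj t :=
  norm_entry_le_of_qf yT_isHermitian (fun x => abs_qf_yT_le hF hℓ h1 ht x) i j

theorem abs_trR_yT_le (hF : Feasible L B) (hℓ : trR L ≤ ℓ) (h1 : 1 ≤ ℓ) (ht : 0 < t)
    (M : CMat n) : |trR (yT L B t * M)| ≤ majC ℓ * maj t * ∑ i, ∑ j, ‖M i j‖ :=
  abs_trR_mul_le yT_isHermitian (fun x => abs_qf_yT_le hF hℓ h1 ht x) M

/-! ## Integrals against `t ^ (α - 1)` -/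

variable {α : ℝ}

theorem abs_log_le {ε : ℝ} (hε : 0 < ε) (ht : 0 < t) :
    |Real.log t| ≤ (t ^ ε + t ^ (-ε)) / ε := by
  have h1 := Real.log_le_rpow_div ht.le hε
  have h2 := Real.log_le_rpow_div (inv_nonneg.2 ht.le) hε
  rw [Real.log_inv, Real.inv_rpow ht.le, ← Real.rpow_neg ht.le] at h2
  have h3 := div_nonneg (Real.rpow_nonneg ht.le ε) hε.le
  have h4 := div_nonneg (Real.rpow_nonneg ht.le (-ε)) hε.le
  rw [add_div, abs_le]
  constructor <;> linarith

theorem maj_le_small {ε : ℝ} (hε : 0 < ε) (ht : 0 < t) (ht1 : t ≤ 1) :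
    maj t ≤ (1 + 2 / ε) * t ^ (-ε) := by
  have h1 := abs_log_le hε ht
  have h2 : t ^ ε ≤ t ^ (-ε) :=
    Real.rpow_le_rpow_of_exponent_ge ht ht1 (by linarith)
  have h3 : (1:ℝ) ≤ t ^ (-ε) := Real.one_le_rpow_of_pos_of_le_one_of_nonpos ht ht1 (by linarith)
  have h4 : (t ^ ε + t ^ (-ε)) / ε ≤ 2 / ε * t ^ (-ε) := by
    rw [div_mul_eq_mul_div]; gcongr; linarith
  rw [maj, div_le_iff₀ (by linarith)]
  nlinarith [mul_nonneg (mul_nonneg (show (0:ℝ) ≤ 1 + 2 / ε by positivity)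
    (Real.rpow_nonneg ht.le (-ε))) ht.le]

theorem maj_le_large {ε : ℝ} (hε : 0 < ε) (ht1 : 1 ≤ t) :
    maj t ≤ (1 + 2 / ε) * t ^ (ε - 1) := by
  have ht : 0 < t := zero_lt_one.trans_le ht1
  have h1 := abs_log_le hε ht
  have h2 : t ^ (-ε) ≤ t ^ ε := Real.rpow_le_rpow_of_exponent_le ht1 (by linarith)
  have h3 : (1:ℝ) ≤ t ^ ε := Real.one_le_rpow ht1 hε.le
  have h4 : (t ^ ε + t ^ (-ε)) / ε ≤ 2 / ε * t ^ ε := by
    rw [div_mul_eq_mul_div]; gcongr; linarith
  rw [maj, Real.rpow_sub_one ht.ne', ← mul_div_assoc, div_le_div_iff₀ (by linarith) ht]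
  nlinarith [mul_nonneg (show (0:ℝ) ≤ 1 + 2 / ε by positivity) (Real.rpow_nonneg ht.le ε)]

theorem integrableOn_rpow_mul_maj (h0 : 0 < α) (h1 : α < 1) :
    IntegrableOn (fun t => t ^ (α - 1) * maj t) (Ioi 0) := by
  obtain ⟨ε, hε, hεa, hεb⟩ : ∃ ε, 0 < ε ∧ ε < α ∧ ε < 1 - α :=
    ⟨min α (1 - α) / 2, by have := lt_min h0 (sub_pos.2 h1); linarith,
      by have := min_le_left α (1 - α); linarith, by have := min_le_right α (1 - α); linarith⟩
  have hc : ContinuousOn (fun t => t ^ (α - 1) * maj t) (Ioi 0) :=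
    (continuousOn_id.rpow_const fun x hx => Or.inl (ne_of_gt hx)).mul continuousOn_maj
  rw [← Ioc_union_Ioi_eq_Ioi zero_le_one, integrableOn_union]
  constructor
  · have hi : IntegrableOn (fun t : ℝ => (1 + 2 / ε) * t ^ (α - 1 - ε)) (Ioc 0 1) :=
      ((intervalIntegrable_iff_integrableOn_Ioc_of_le zero_le_one).1
        (intervalIntegral.intervalIntegrable_rpow' (by linarith))).const_mul _
    refine hi.mono' ((hc.mono Ioc_subset_Ioi_self).aestronglyMeasurable measurableSet_Ioc)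
      (ae_restrict_of_forall_mem measurableSet_Ioc fun t ht => ?_)
    rw [Real.norm_eq_abs, abs_of_nonneg
      (mul_nonneg (Real.rpow_nonneg ht.1.le _) (maj_nonneg ht.1.le)),
      sub_eq_add_neg (α - 1) ε, Real.rpow_add ht.1, mul_left_comm]
    exact mul_le_mul_of_nonneg_left (maj_le_small hε ht.1 ht.2) (Real.rpow_nonneg ht.1.le _)
  · have hi : IntegrableOn (fun t : ℝ => (1 + 2 / ε) * t ^ (α - 1 + (ε - 1))) (Ioi 1) :=
      (integrableOn_Ioi_rpow_of_lt (by linarith) zero_lt_one).const_mul _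
    refine hi.mono' ((hc.mono (Ioi_subset_Ioi zero_le_one)).aestronglyMeasurable measurableSet_Ioi)
      (ae_restrict_of_forall_mem measurableSet_Ioi fun t (ht : 1 < t) => ?_)
    have ht0 : 0 < t := zero_lt_one.trans ht
    rw [Real.norm_eq_abs, abs_of_nonneg
      (mul_nonneg (Real.rpow_nonneg ht0.le _) (maj_nonneg ht0.le)),
      Real.rpow_add ht0, mul_left_comm]
    exact mul_le_mul_of_nonneg_left (maj_le_large hε ht.le) (Real.rpow_nonneg ht0.le _)

theorem integrableOn_rpow_mul_of_le (h0 : 0 < α) (h1 : α < 1) {f : ℝ → ℝ} {C : ℝ}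
    (hf : ContinuousOn f (Ioi 0)) (hb : ∀ t, 0 < t → |f t| ≤ C * maj t) :
    IntegrableOn (fun t => t ^ (α - 1) * f t) (Ioi 0) := by
  refine ((integrableOn_rpow_mul_maj h0 h1).const_mul C).mono'
    (((continuousOn_id.rpow_const fun x hx => Or.inl (ne_of_gt hx)).mul hf).aestronglyMeasurable
      measurableSet_Ioi) (ae_restrict_of_forall_mem measurableSet_Ioi fun t (ht : 0 < t) => ?_)
  rw [Real.norm_eq_abs, abs_mul, abs_of_nonneg (Real.rpow_nonneg ht.le _), mul_left_comm]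
  exact mul_le_mul_of_nonneg_left (hb t ht) (Real.rpow_nonneg ht.le _)

theorem integrableOn_rpow_mul_of_le_complex (h0 : 0 < α) (h1 : α < 1) {f : ℝ → ℂ} {C : ℝ}
    (hf : ContinuousOn f (Ioi 0)) (hb : ∀ t, 0 < t → ‖f t‖ ≤ C * maj t) :
    IntegrableOn (fun t => ((t ^ (α - 1) : ℝ) : ℂ) * f t) (Ioi 0) := by
  refine ((integrableOn_rpow_mul_maj h0 h1).const_mul C).mono'
    (((Complex.continuous_ofReal.comp_continuousOn
      (continuousOn_id.rpow_const fun x hx => Or.inl (ne_of_gt hx))).mul hf).aestronglyMeasurable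
      measurableSet_Ioi) (ae_restrict_of_forall_mem measurableSet_Ioi fun t (ht : 0 < t) => ?_)
  rw [norm_mul, Complex.norm_real, Real.norm_eq_abs, abs_of_nonneg (Real.rpow_nonneg ht.le _),
    mul_left_comm]
  exact mul_le_mul_of_nonneg_left (hb t ht) (Real.rpow_nonneg ht.le _)

theorem tendsto_rpow_mul_maj_zero (h0 : 0 < α) :
    Tendsto (fun t => t ^ α * maj t) (𝓝[>] 0) (𝓝 0) := by
  have hp : 0 < α / 2 := by linarith
  have h2 : Tendsto (fun t : ℝ => (1 + 2 / (α / 2)) * t ^ (α / 2)) (𝓝[>] 0) (𝓝 0) := by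
    have := ((Real.continuousAt_rpow_const (0:ℝ) (α / 2) (Or.inr hp.le)).tendsto).mono_left
      (nhdsWithin_le_nhds (s := Ioi (0:ℝ)))
    rw [Real.zero_rpow hp.ne'] at this
    simpa using this.const_mul (1 + 2 / (α / 2))
  refine squeeze_zero' (eventually_nhdsWithin_of_forall fun t (ht : 0 < t) =>
    mul_nonneg (Real.rpow_nonneg ht.le _) (maj_nonneg ht.le)) ?_ h2
  filter_upwards [Ioo_mem_nhdsGT zero_lt_one] with t ht
  refine (mul_le_mul_of_nonneg_left (maj_le_small hp ht.1 ht.2.le)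
    (Real.rpow_nonneg ht.1.le _)).trans (le_of_eq ?_)
  rw [mul_left_comm, ← Real.rpow_add ht.1]; ring_nf

theorem tendsto_rpow_mul_maj_atTop (h1 : α < 1) :
    Tendsto (fun t => t ^ α * maj t) atTop (𝓝 0) := by
  have hp : 0 < (1 - α) / 2 := by linarith
  have h2 : Tendsto (fun t : ℝ => (1 + 2 / ((1 - α) / 2)) * t ^ (-((1 - α) / 2))) atTop (𝓝 0) := by
    simpa using (tendsto_rpow_neg_atTop hp).const_mul (1 + 2 / ((1 - α) / 2))
  refine squeeze_zero' ((eventually_gt_atTop 0).mono fun t ht =>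
    mul_nonneg (Real.rpow_nonneg ht.le _) (maj_nonneg ht.le)) ?_ h2
  filter_upwards [eventually_ge_atTop 1] with t ht
  have ht0 : 0 < t := by linarith
  refine (mul_le_mul_of_nonneg_left (maj_le_large hp ht)
    (Real.rpow_nonneg ht0.le _)).trans (le_of_eq ?_)
  rw [mul_left_comm, ← Real.rpow_add ht0]; ring_nf

end Vale.Agent.P371.Calib
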