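import Vale.Agent.P371.Calib.ContFeas
import Vale.Agent.P371.Calib.DlogM
import Vale.Agent.LT.MatCalc

/-!
# P371: derivatives and integrals of the calibration potential
-/

namespace Vale.Agent.P371.Calib

open Matrix MeasureTheory Set Filter Finset
open Vale.Agent.LT (MatDerivAt matDerivAt_const)
open scoped ComplexOrder Topology

variable {n : ℕ}

theorem hasDerivAt_trR {f : ℝ → CMat n} {f' : CMat n} {x : ℝ} (hf : MatDerivAt f f' x) :
    HasDerivAt (fun y => trR (f y)) (trR f') x :=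
  Complex.reCLM.hasFDerivAt.comp_hasDerivAt x hf.trace

theorem hasDerivAt_trR_mul {f : ℝ → CMat n} {f' : CMat n} {x : ℝ} (hf : MatDerivAt f f' x)
    (M : CMat n) : HasDerivAt (fun y => trR (f y * M)) (trR (f' * M)) x := by
  simpa using hasDerivAt_trR (hf.matMul (matDerivAt_const M x))

theorem trR_eq_sum (A D : CMat n) : trR (A * D) = (∑ i, ∑ j, A i j * D j i).re := by
  simp [trR, Matrix.trace, Matrix.mul_apply]

theorem continuous_sum_norm : Continuous fun M : CMat n => ∑ i, ∑ j, ‖M i j‖ :=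
  continuous_finsetSum _ fun i _ => continuous_finsetSum _ fun j _ =>
    ((continuous_apply j).comp (continuous_apply i)).norm

theorem continuous_trR : Continuous (trR (n := n)) :=
  Complex.continuous_re.comp (continuous_finsetSum _ fun i _ =>
    (continuous_apply i).comp (continuous_apply i))

/-! ## Perturbations and feasibility -/

theorem posDef_add_small {A D : CMat n} (hA : A.PosDef) (hD : D.IsHermitian) :
    ∀ᶠ v : ℝ in 𝓝 0, (A + (v : ℂ) • D).PosDef := by
  obtain ⟨V, a, h⟩ := exists_spec hA.1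
  obtain ⟨U, d, hd⟩ := exists_spec hD
  have ha := h.posDef_iff.1 hA
  set S := ∑ k, (a k)⁻¹ + 1 with hS
  set K := ∑ k, |d k| + 1 with hK
  have hS0 : 0 < S := by
    have := Finset.sum_nonneg fun k (_ : k ∈ Finset.univ) => (inv_pos.2 (ha k)).le
    linarith
  have hK0 : 0 < K := by
    have := Finset.sum_nonneg fun k (_ : k ∈ Finset.univ) => abs_nonneg (d k)
    linarith
  have hlow : ∀ k, S⁻¹ ≤ a k := fun k => by
    rw [inv_le_comm₀ hS0 (ha k)]
    have := single_le_sum (f := fun k => (a k)⁻¹) (fun i _ => (inv_pos.2 (ha i)).le) (mem_univ k)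
    linarith
  have hb : ∀ k, |d k| ≤ K := fun k => by
    have := single_le_sum (f := fun k => |d k|) (fun i _ => abs_nonneg _) (mem_univ k)
    linarith
  have hv : ∀ᶠ v : ℝ in 𝓝 0, |v| * K < S⁻¹ := by
    have : Tendsto (fun v : ℝ => |v| * K) (𝓝 0) (𝓝 0) :=
      (continuous_abs.mul continuous_const).tendsto' 0 0 (by simp)
    exact this.eventually (eventually_lt_nhds (inv_pos.2 hS0))
  filter_upwards [hv] with v hv
  have hH : (A + (v : ℂ) • D).IsHermitian := hA.1.add (hd.smul v).isHermitian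
  obtain ⟨W, e, he⟩ := exists_spec hH
  refine he.posDef_iff.2 fun k => lt_of_lt_of_le (sub_pos.2 hv) (he.le_eig (fun x => ?_) k)
  rw [qf_add, qf_smul]
  have h1 := h.le_qf hlow x
  have h2 := hd.qf_le (fun k => (le_abs_self _).trans (hb k)) x
  have h3 := hd.le_qf (fun k => neg_le_of_abs_le (hb k)) x
  have h4 : |v * qf D x| ≤ |v| * K * qf 1 x := by
    rw [abs_mul, mul_assoc]
    exact mul_le_mul_of_nonneg_left (abs_le.2 ⟨by linarith, h2⟩) (abs_nonneg v)
  have h5 := (abs_le.1 h4).1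
  linarith

theorem matDerivAt_line (X D : CMat n) (v : ℝ) :
    MatDerivAt (fun w => X + (w : ℂ) • D) D v := fun i j => by
  simpa using ((hasDerivAt_id v).ofReal_comp.mul_const (D i j)).const_add (X i j)

variable {L B B₀ B₁ : CMat n} {t v α : ℝ}

theorem feasible_seg (h₀ : Feasible L B₀) (h₁ : Feasible L B₁) (hv : v ∈ Icc (0 : ℝ) 1) :
    Feasible L (B₀ + (v : ℂ) • (B₁ - B₀)) := by
  have ha : (0 : ℂ) ≤ ((1 - v : ℝ) : ℂ) := Complex.zero_le_real.2 (by linarith [hv.2])
  have hb : (0 : ℂ) ≤ (v : ℂ) := Complex.zero_le_real.2 hv.1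
  refine ⟨h₀.1, ?_, ?_⟩
  · have := (h₀.2.1.smul ha).add (h₁.2.1.smul hb)
    convert this using 1
    push_cast; module
  · have := (h₀.2.2.smul ha).add (h₁.2.2.smul hb)
    convert this using 1
    push_cast; module

theorem feasible_zero (hL : L.PosSemidef) : Feasible L 0 := by
  refine ⟨hL, Matrix.PosSemidef.zero, ?_⟩
  obtain ⟨V, l, h⟩ := exists_spec hL.1
  rw [sub_zero, show (2 : ℂ) = ((2 : ℝ) : ℂ) by norm_num]
  exact (h.sqrtM.smul 2).posSemidef_iff.2 fun k => mul_nonneg zero_le_two (Real.sqrt_nonneg _)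

theorem trR_le_max (L : CMat n) : trR L ≤ max 1 (trR L) := le_max_right _ _

/-! ## Derivatives in `t` -/

theorem muM_deriv (hL : L.PosSemidef) (B : CMat n) (ht : 0 < t) :
    MatDerivAt (fun s => muM L s) (apM L B t + amM L B t)⁻¹ t := by
  obtain ⟨V, l, h⟩ := exists_spec hL.1
  have h0 := h.posSemidef_iff.1 hL
  have hpos : ∀ k, 0 < √(l k + t) := fun k => Real.sqrt_pos.2 (by linarith [h0 k])
  have hD := ((muM_spec h t).smul 2).inv fun k => mul_ne_zero two_ne_zero (hpos k).ne'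
  rw [apM_add_amM, show (2 : ℂ) = ((2 : ℝ) : ℂ) by norm_num, hD.2.2]
  intro i j
  have e : (fun s => muM L s i j) =
      fun s => ∑ k, V i k * (√(l k + s) : ℂ) * star (V j k) := by
    funext s
    conv_lhs => rw [(muM_spec h s).2.2, Matrix.mul_apply]
    simp [mul_diagonal]
  rw [e, Matrix.mul_apply]
  refine (HasDerivAt.fun_sum fun k _ => ?_)
  rw [mul_diagonal, conjTranspose_apply]
  have hk : HasDerivAt (fun s => √(l k + s)) ((2 * √(l k + t))⁻¹) t := by
    simpa using ((hasDerivAt_id t).const_add (l k)).sqrt (by simp only [id]; linarith [h0 k])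
  exact (hk.ofReal_comp.const_mul (V i k)).mul_const _

theorem apM_deriv (hL : L.PosSemidef) (ht : 0 < t) :
    MatDerivAt (fun s => apM L B s) (apM L B t + amM L B t)⁻¹ t := by
  have := ((muM_deriv hL B ht).add (matDerivAt_const (sqrtM L) t)).sub (matDerivAt_const B t)
  simp only [add_zero, sub_zero] at this
  exact this

theorem amM_deriv (hL : L.PosSemidef) (ht : 0 < t) :
    MatDerivAt (fun s => amM L B s) (apM L B t + amM L B t)⁻¹ t := by
  have := ((muM_deriv hL B ht).sub (matDerivAt_const (sqrtM L) t)).add (matDerivAt_const B t)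
  simp only [add_zero, sub_zero] at this
  exact this

theorem eventually_apM_posDef (hF : Feasible L B) (ht : 0 < t) :
    ∀ᶠ s in 𝓝 t, (apM L B s).PosDef ∧ (amM L B s).PosDef :=
  (eventually_gt_nhds ht).mono fun _ hs => ⟨apM_posDef hF hs, amM_posDef hF hs⟩

theorem yT_deriv (hF : Feasible L B) (ht : 0 < t) :
    MatDerivAt (fun s => yT L B s)
      (kmat (apM L B t) (amM L B t) - ((t⁻¹ : ℝ) : ℂ) • 1) t := by
  have h1 := logM_deriv ((eventually_apM_posDef hF ht).mono fun _ h => h.1) (apM_deriv hF.1 ht)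
  have h2 := logM_deriv ((eventually_apM_posDef hF ht).mono fun _ h => h.2) (amM_deriv hF.1 ht)
  have h3 : MatDerivAt (fun s => (Real.log s : ℂ) • (1 : CMat n)) (((t⁻¹ : ℝ) : ℂ) • 1) t :=
    fun i j => (Real.hasDerivAt_log ht.ne').ofReal_comp.mul_const _
  exact (h1.add h2).sub h3

theorem continuousOn_yT (hF : Feasible L B) (i j : Fin n) :
    ContinuousOn (fun t => yT L B t i j) (Ioi 0) :=
  fun _ ht => (yT_deriv hF ht i j).continuousAt.continuousWithinAt

theorem continuousOn_trR_yT (hF : Feasible L B) (M : CMat n) :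
    ContinuousOn (fun t => trR (yT L B t * M)) (Ioi 0) :=
  fun _ ht => (hasDerivAt_trR_mul (yT_deriv hF ht) M).continuousAt.continuousWithinAt

theorem psiQ_eq (hL : L.PosSemidef) (B : CMat n) (ht : 0 < t) :
    psiQ (qM L t) B t = trF eta (apM L 0 t) - trF eta (apM L B t) - trF eta (amM L 0 t) +
      trF eta (amM L B t) - trR B * Real.log t := by
  rw [psiQ, amM_eq hL ht, amM_eq hL ht, add_zero, apM_eq, apM_eq, sub_zero]

theorem continuousOn_psiQ (hF : Feasible L B) :
    ContinuousOn (fun t => psiQ (qM L t) B t) (Ioi 0) := by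
  refine ContinuousOn.congr (f := fun t => trF eta (apM L 0 t) - trF eta (apM L B t) -
    trF eta (amM L 0 t) + trF eta (amM L B t) - trR B * Real.log t) (fun t ht => ?_)
    fun t ht => psiQ_eq hF.1 B ht
  have h0 := feasible_zero hF.1
  have a1 := trEta_deriv ((eventually_apM_posDef h0 ht).mono fun _ h => h.1) (apM_deriv hF.1 ht)
  have a2 := trEta_deriv ((eventually_apM_posDef hF ht).mono fun _ h => h.1) (apM_deriv hF.1 ht)
  have a3 := trEta_deriv ((eventually_apM_posDef h0 ht).mono fun _ h => h.2) (amM_deriv hF.1 ht)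
  have a4 := trEta_deriv ((eventually_apM_posDef hF ht).mono fun _ h => h.2) (amM_deriv hF.1 ht)
  exact ((((a1.fun_sub a2).fun_sub a3).fun_add a4).fun_sub
    ((Real.hasDerivAt_log (ne_of_gt ht)).const_mul (trR B))).continuousAt.continuousWithinAt

/-! ## The derivative in `B` at fixed `t` -/

theorem psiQ_B_zero (Q : CMat n) (t : ℝ) : psiQ Q 0 t = 0 := by
  simp [psiQ, trR]

theorem psiQ_seg_deriv (h₀ : Feasible L B₀) (h₁ : Feasible L B₁) (ht : 0 < t)
    (hv : v ∈ Icc (0 : ℝ) 1) :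
    HasDerivAt (fun w : ℝ => psiQ (qM L t) (B₀ + (w : ℂ) • (B₁ - B₀)) t)
      (trR (yT L (B₀ + (v : ℂ) • (B₁ - B₀)) t * (B₁ - B₀))) v := by
  set D := B₁ - B₀ with hD
  have hF := feasible_seg h₀ h₁ hv
  rw [← hD] at hF
  have hDh : D.IsHermitian := h₁.2.1.1.sub h₀.2.1.1
  have dB := matDerivAt_line B₀ D v
  have dap : MatDerivAt (fun w : ℝ => apM L (B₀ + (w : ℂ) • D) t) (-D) v := by
    simpa [apM] using (matDerivAt_const (muM L t + sqrtM L) v).sub dB
  have dam : MatDerivAt (fun w : ℝ => amM L (B₀ + (w : ℂ) • D) t) D v := by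
    simpa [amM] using (matDerivAt_const (muM L t - sqrtM L) v).add dB
  have hsh : Tendsto (fun w : ℝ => w - v) (𝓝 v) (𝓝 0) :=
    (continuous_id.sub continuous_const).tendsto' v 0 (sub_self v)
  have pap : ∀ᶠ w : ℝ in 𝓝 v, (apM L (B₀ + (w : ℂ) • D) t).PosDef := by
    filter_upwards [hsh.eventually (posDef_add_small (apM_posDef hF ht) hDh.neg)] with w hw
    convert hw using 1
    simp only [apM]; push_cast; module
  have pam : ∀ᶠ w : ℝ in 𝓝 v, (amM L (B₀ + (w : ℂ) • D) t).PosDef := by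
    filter_upwards [hsh.eventually (posDef_add_small (amM_posDef hF ht) hDh)] with w hw
    convert hw using 1
    simp only [amM]; push_cast; module
  have e := ((((hasDerivAt_const v (trF eta (apM L 0 t))).fun_sub (trEta_deriv pap dap)).fun_sub
    (hasDerivAt_const v (trF eta (amM L 0 t)))).fun_add (trEta_deriv pam dam)).fun_sub
      ((hasDerivAt_trR dB).mul_const (Real.log t))
  refine (e.congr_of_eventuallyEq (Eventually.of_forall fun w => psiQ_eq h₀.1 _ ht)).congr_deriv ?_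
  rw [yT, Matrix.sub_mul, Matrix.add_mul, Matrix.smul_mul, Matrix.one_mul, Matrix.mul_neg]
  simp only [trR, Matrix.trace_sub, Matrix.trace_add, Matrix.trace_neg, Matrix.trace_smul,
    Complex.sub_re, Complex.add_re, Complex.neg_re, smul_eq_mul, Complex.re_ofReal_mul]
  ring

theorem psiQ_mvt (h₀ : Feasible L B₀) (h₁ : Feasible L B₁) (ht : 0 < t) :
    ∃ θ ∈ Icc (0 : ℝ) 1, psiQ (qM L t) B₁ t - psiQ (qM L t) B₀ t =
      trR (yT L (B₀ + (θ : ℂ) • (B₁ - B₀)) t * (B₁ - B₀)) := by
  obtain ⟨c, hc, he⟩ := exists_hasDerivAt_eq_slope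
    (fun w : ℝ => psiQ (qM L t) (B₀ + (w : ℂ) • (B₁ - B₀)) t)
    (fun w : ℝ => trR (yT L (B₀ + (w : ℂ) • (B₁ - B₀)) t * (B₁ - B₀))) zero_lt_one
    (fun w hw => (psiQ_seg_deriv h₀ h₁ ht hw).continuousAt.continuousWithinAt)
    (fun w hw => psiQ_seg_deriv h₀ h₁ ht (Ioo_subset_Icc_self hw))
  exact ⟨c, Ioo_subset_Icc_self hc, by simpa using he.symm⟩

theorem abs_psiQ_le (hF : Feasible L B) {ℓ : ℝ} (hℓ : trR L ≤ ℓ) (h1 : 1 ≤ ℓ)
    (ht : 0 < t) : |psiQ (qM L t) B t| ≤ majC ℓ * maj t * ∑ i, ∑ j, ‖B i j‖ := by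
  obtain ⟨θ, hθ, he⟩ := psiQ_mvt (feasible_zero hF.1) hF ht
  have hS := feasible_seg (feasible_zero hF.1) hF hθ
  simp only [psiQ_B_zero, sub_zero] at he hS
  rw [he]
  exact abs_trR_yT_le hS hℓ h1 ht B

theorem psiQ_le_log (hF : Feasible L B) {ℓ : ℝ} (hℓ : trR L ≤ ℓ) (ht : 0 < t) :
    psiQ (qM L t) B t ≤ Real.log (1 + ℓ / t) * trR B := by
  obtain ⟨θ, hθ, he⟩ := psiQ_mvt (feasible_zero hF.1) hF ht
  have hS := feasible_seg (feasible_zero hF.1) hF hθ
  simp only [psiQ_B_zero, sub_zero] at he hS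
  rw [he]
  exact trR_mul_le hF.2.1 (qf_yT_le hS hℓ ht)

theorem integrableOn_psiQ (h0 : 0 < α) (h1 : α < 1) (hF : Feasible L B) :
    IntegrableOn (fun t => t ^ (α - 1) * psiQ (qM L t) B t) (Ioi 0) :=
  integrableOn_rpow_mul_of_le h0 h1 (continuousOn_psiQ hF)
    (C := majC (max 1 (trR L)) * ∑ i, ∑ j, ‖B i j‖) fun t ht => by
      rw [mul_right_comm]
      exact abs_psiQ_le hF (trR_le_max L) (le_max_left _ _) ht

theorem integrableOn_yT (h0 : 0 < α) (h1 : α < 1) (hF : Feasible L B)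
    (i j : Fin n) :
    IntegrableOn (fun t => ((t ^ (α - 1) : ℝ) : ℂ) * yT L B t i j) (Ioi 0) :=
  integrableOn_rpow_mul_of_le_complex h0 h1 (continuousOn_yT hF i j)
    fun _ ht => norm_yT_le hF (trR_le_max L) (le_max_left _ _) ht i j

theorem integrableOn_trR_yT (h0 : 0 < α) (h1 : α < 1) (hF : Feasible L B)
    (M : CMat n) : IntegrableOn (fun t => t ^ (α - 1) * trR (yT L B t * M)) (Ioi 0) :=
  integrableOn_rpow_mul_of_le h0 h1 (continuousOn_trR_yT hF M)
    (C := majC (max 1 (trR L)) * ∑ i, ∑ j, ‖M i j‖) fun t ht => by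
      rw [mul_right_comm]
      exact abs_trR_yT_le hF (trR_le_max L) (le_max_left _ _) ht M

theorem trR_palM_mul (h0 : 0 < α) (h1 : α < 1) (hF : Feasible L B)
    (M : CMat n) :
    trR (palM α L B * M) =
      kconst α * ∫ t in Ioi (0 : ℝ), t ^ (α - 1) * trR (yT L B t * M) := by
  have hi := integrableOn_yT (α := α) h0 h1 hF
  have hs : ∀ i, Integrable (fun t => ∑ j, ((t ^ (α - 1) : ℝ) : ℂ) * yT L B t i j * M j i)
      (volume.restrict (Ioi (0 : ℝ))) :=
    fun i => integrable_finsetSum _ fun j _ => (hi i j).mul_const _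
  have e : ∀ t : ℝ, t ^ (α - 1) * trR (yT L B t * M) =
      RCLike.re (∑ i, ∑ j, ((t ^ (α - 1) : ℝ) : ℂ) * yT L B t i j * M j i) := fun t => by
    rw [trR_eq_sum, RCLike.re_eq_complex_re, ← Complex.re_ofReal_mul]
    simp only [Finset.mul_sum, mul_assoc]
  simp only [e]
  rw [integral_re (integrable_finsetSum _ fun i _ => hs i),
    integral_finsetSum _ fun i _ => hs i, trR_eq_sum, RCLike.re_eq_complex_re,
    ← Complex.re_ofReal_mul]
  congr 1
  rw [Finset.mul_sum]
  refine sum_congr rfl fun i _ => ?_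
  rw [integral_finsetSum _ fun j _ => (hi i j).mul_const _, Finset.mul_sum]
  refine sum_congr rfl fun j _ => ?_
  rw [integral_mul_const, palM, Matrix.of_apply, mul_assoc]

theorem palM_isHermitian : (palM α L B).IsHermitian := by
  refine Matrix.IsHermitian.ext fun i j => ?_
  simp only [palM, Matrix.of_apply, RCLike.star_def, map_mul, Complex.conj_ofReal, ← integral_conj]
  congr 1
  refine setIntegral_congr_fun measurableSet_Ioi fun t _ => ?_
  show ((t ^ (α - 1) : ℝ) : ℂ) * (starRingEnd ℂ) (yT L B t j i) = _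
  rw [← (yT_isHermitian (L := L) (B := B) (t := t)).apply i j, RCLike.star_def]

/-! ## Continuity on feasible pairs -/

theorem eventually_bound (p₀ : CMat n × CMat n) :
    ∀ᶠ p in 𝓝[{p : CMat n × CMat n | Feasible p.1 p.2}] p₀, Feasible p.1 p.2 ∧
      trR p.1 ≤ max 1 (trR p₀.1 + 1) ∧
        ∑ i, ∑ j, ‖p.2 i j‖ ≤ (∑ i, ∑ j, ‖p₀.2 i j‖) + 1 := by
  refine eventually_mem_nhdsWithin.and ((nhdsWithin_le_nhds ?_ : _ ∈ _))
  filter_upwards [(continuous_trR.comp continuous_fst).tendsto p₀ |>.eventually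
      (eventually_le_nhds (lt_add_one (trR p₀.1))),
    (continuous_sum_norm.comp continuous_snd).tendsto p₀ |>.eventually
      (eventually_le_nhds (lt_add_one (∑ i, ∑ j, ‖p₀.2 i j‖)))] with p h1 h2
  exact ⟨h1.trans (le_max_right _ _), h2⟩

theorem palM_continuousOn (h0 : 0 < α) (h1 : α < 1) :
    ContinuousOn (fun p : CMat n × CMat n => palM α p.1 p.2) {p | Feasible p.1 p.2} := by
  have : FirstCountableTopology (CMat n × CMat n) :=
    inferInstanceAs (FirstCountableTopology ((Fin n → Fin n → ℂ) × (Fin n → Fin n → ℂ)))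
  refine continuousOn_pi.2 fun i => continuousOn_pi.2 fun j p₀ hp₀ =>
    continuousWithinAt_const.mul ?_
  refine continuousWithinAt_of_dominated
    (bound := fun t => majC (max 1 (trR p₀.1 + 1)) * (t ^ (α - 1) * maj t)) ?_ ?_
    ((integrableOn_rpow_mul_maj h0 h1).const_mul _) ?_
  · exact eventually_nhdsWithin_of_forall fun p hp =>
      (integrableOn_yT (α := α) h0 h1 hp i j).aestronglyMeasurable
  · filter_upwards [eventually_bound p₀] with p hp
    refine ae_restrict_of_forall_mem measurableSet_Ioi fun t (ht : 0 < t) => ?_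
    rw [norm_mul, Complex.norm_real, Real.norm_eq_abs, abs_of_nonneg (Real.rpow_nonneg ht.le _),
      mul_left_comm]
    exact mul_le_mul_of_nonneg_left (norm_yT_le hp.1 hp.2.1 (le_max_left _ _) ht i j)
      (Real.rpow_nonneg ht.le _)
  · refine ae_restrict_of_forall_mem measurableSet_Ioi fun t (ht : 0 < t) => ?_
    exact continuousWithinAt_const.mul
      (continuousWithinAt_pi.1 (continuousWithinAt_pi.1 (yT_continuousOn ht p₀ hp₀) i) j)

theorem psiA_continuousOn (h0 : 0 < α) (h1 : α < 1) :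
    ContinuousOn (fun p : CMat n × CMat n => psiA α p.1 p.2) {p | Feasible p.1 p.2} := by
  have : FirstCountableTopology (CMat n × CMat n) :=
    inferInstanceAs (FirstCountableTopology ((Fin n → Fin n → ℂ) × (Fin n → Fin n → ℂ)))
  intro p₀ hp₀
  refine continuousWithinAt_const.mul ?_
  refine continuousWithinAt_of_dominated
    (bound := fun t => majC (max 1 (trR p₀.1 + 1)) * ((∑ i, ∑ j, ‖p₀.2 i j‖) + 1) *
      (t ^ (α - 1) * maj t)) ?_ ?_ ((integrableOn_rpow_mul_maj h0 h1).const_mul _) ?_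
  · exact eventually_nhdsWithin_of_forall fun p hp' =>
      (integrableOn_psiQ (α := α) h0 h1 hp').aestronglyMeasurable
  · filter_upwards [eventually_bound p₀] with p hp'
    refine ae_restrict_of_forall_mem measurableSet_Ioi fun t (ht : 0 < t) => ?_
    rw [Real.norm_eq_abs, abs_mul, abs_of_nonneg (Real.rpow_nonneg ht.le _)]
    have h := abs_psiQ_le hp'.1 hp'.2.1 (le_max_left _ _) ht
    have hC : 0 ≤ majC (max 1 (trR p₀.1 + 1)) * maj t := by
      refine mul_nonneg ?_ (maj_nonneg ht.le)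
      have hℓ := le_max_left 1 (trR p₀.1 + 1)
      unfold majC
      have := Real.log_nonneg (show (1:ℝ) ≤ 17 * max 1 (trR p₀.1 + 1) + 1 by linarith)
      have := Real.log_nonneg (show (1:ℝ) ≤ 4 by norm_num)
      exact add_nonneg (mul_nonneg (by linarith) (by linarith)) (by linarith)
    refine (mul_le_mul_of_nonneg_left (h.trans (mul_le_mul_of_nonneg_left hp'.2.2 hC))
      (Real.rpow_nonneg ht.le _)).trans (le_of_eq ?_)
    ring
  · exact ae_restrict_of_forall_mem measurableSet_Ioi fun t (ht : 0 < t) =>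
      continuousWithinAt_const.mul (psiQ_continuousOn ht p₀ hp₀)

/-! ## The segment formula -/

theorem continuous_seg (L B₀ B₁ : CMat n) :
    Continuous fun v : ℝ => (L, B₀ + (v : ℂ) • (B₁ - B₀)) :=
  continuous_const.prodMk (continuous_const.add (Complex.continuous_ofReal.smul continuous_const))

theorem psiA_seg_deriv (h0 : 0 < α) (h1 : α < 1)
    (h₀ : Feasible L B₀) (h₁ : Feasible L B₁) (hv : v ∈ Ioo (0 : ℝ) 1) :
    HasDerivAt (fun w : ℝ => psiA α L (B₀ + (w : ℂ) • (B₁ - B₀)))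
      (trR (palM α L (B₀ + (v : ℂ) • (B₁ - B₀)) * (B₁ - B₀))) v := by
  have hF : ∀ w ∈ Ioo (0 : ℝ) 1, Feasible L (B₀ + (w : ℂ) • (B₁ - B₀)) :=
    fun w hw => feasible_seg h₀ h₁ (Ioo_subset_Icc_self hw)
  rw [trR_palM_mul h0 h1 (hF v hv)]
  refine HasDerivAt.const_mul _ ?_
  refine (hasDerivAt_integral_of_dominated_loc_of_deriv_le (𝕜 := ℝ) (μ := volume.restrict (Ioi (0 : ℝ)))
    (F := fun w t => t ^ (α - 1) * psiQ (qM L t) (B₀ + (w : ℂ) • (B₁ - B₀)) t)
    (F' := fun w t => t ^ (α - 1) * trR (yT L (B₀ + (w : ℂ) • (B₁ - B₀)) t * (B₁ - B₀)))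
    (bound := fun t => majC (max 1 (trR L)) * (∑ i, ∑ j, ‖(B₁ - B₀) i j‖) *
      (t ^ (α - 1) * maj t))
    (isOpen_Ioo.mem_nhds hv) ?_ ?_ ?_ ?_ ((integrableOn_rpow_mul_maj h0 h1).const_mul _) ?_).2
  · filter_upwards [isOpen_Ioo.mem_nhds hv] with w hw
    exact (integrableOn_psiQ (α := α) h0 h1 (hF w hw)).aestronglyMeasurable
  · exact integrableOn_psiQ h0 h1 (hF v hv)
  · exact (integrableOn_trR_yT (α := α) h0 h1 (hF v hv) _).aestronglyMeasurable
  · refine ae_restrict_of_forall_mem measurableSet_Ioi fun t (ht : 0 < t) w hw => ?_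
    rw [Real.norm_eq_abs, abs_mul, abs_of_nonneg (Real.rpow_nonneg ht.le _)]
    refine (mul_le_mul_of_nonneg_left (abs_trR_yT_le (hF w hw) (trR_le_max L) (le_max_left _ _) ht _)
      (Real.rpow_nonneg ht.le _)).trans (le_of_eq ?_)
    ring
  · exact ae_restrict_of_forall_mem measurableSet_Ioi fun t (ht : 0 < t) w hw =>
      (psiQ_seg_deriv h₀ h₁ ht (Ioo_subset_Icc_self hw)).const_mul _

theorem psiA_seg_integral
    (h0 : 0 < α) (h1 : α < 1) (h₀ : Feasible L B₀) (h₁ : Feasible L B₁) :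
    psiA α L B₁ - psiA α L B₀ =
      ∫ v in (0 : ℝ)..1, trR (palM α L (B₀ + (v : ℂ) • (B₁ - B₀)) * (B₁ - B₀)) := by
  have hm : MapsTo (fun v : ℝ => (L, B₀ + (v : ℂ) • (B₁ - B₀))) (Icc 0 1)
      {p | Feasible p.1 p.2} := fun v hv => feasible_seg h₀ h₁ hv
  have c1 := (psiA_continuousOn h0 h1).comp (continuous_seg L B₀ B₁).continuousOn hm
  have c2 := (palM_continuousOn h0 h1).comp (continuous_seg L B₀ B₁).continuousOn hm
  have c3 : ContinuousOn (fun v : ℝ => trR (palM α L (B₀ + (v : ℂ) • (B₁ - B₀)) * (B₁ - B₀)))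
      (Icc 0 1) :=
    continuous_trR.comp_continuousOn ((continuous_id.matrix_mul continuous_const).comp_continuousOn c2)
  rw [intervalIntegral.integral_eq_sub_of_hasDerivAt_of_le zero_le_one c1
    (fun v hv => psiA_seg_deriv h0 h1 h₀ h₁ hv)
    (c3.intervalIntegrable_of_Icc zero_le_one)]
  simp

/-! ## The normalising constant -/

theorem log_one_add_div_le {x : ℝ} (hx : 0 ≤ x) (ht : 0 < t) :
    |Real.log (1 + x / t)| ≤ 2 * (1 + Real.log (1 + x) + x) * maj t := by
  have h1 : 0 ≤ x / t := div_nonneg hx ht.le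
  have hl := Real.log_nonneg (show (1:ℝ) ≤ 1 + x by linarith)
  rw [abs_of_nonneg (Real.log_nonneg (by linarith)), maj, ← mul_div_assoc,
    le_div_iff₀ (by linarith)]
  rcases le_total t 1 with h | h
  · have h2 : Real.log (1 + x / t) ≤ Real.log (1 + x) + |Real.log t| := by
      rw [show 1 + x / t = (t + x) / t by field_simp, Real.log_div (by linarith) ht.ne']
      linarith [Real.log_le_log (by linarith) (show t + x ≤ 1 + x by linarith),
        neg_abs_le (Real.log t)]
    nlinarith [mul_le_mul_of_nonneg_right h2 (show (0:ℝ) ≤ 1 + t by linarith),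
      abs_nonneg (Real.log t), mul_nonneg hl (abs_nonneg (Real.log t)),
      mul_nonneg hx (abs_nonneg (Real.log t)),
      mul_nonneg (show 0 ≤ Real.log (1 + x) + |Real.log t| by positivity)
        (show 0 ≤ 1 - t by linarith)]
  · have h2 : Real.log (1 + x / t) ≤ x / t := by
      linarith [Real.log_le_sub_one_of_pos (show 0 < 1 + x / t by linarith)]
    have h3 : x / t * (1 + t) ≤ 2 * x := by
      rw [div_mul_eq_mul_div, div_le_iff₀ ht]; nlinarith
    nlinarith [mul_le_mul_of_nonneg_right h2 (show (0:ℝ) ≤ 1 + t by linarith),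
      abs_nonneg (Real.log t), mul_nonneg hl (abs_nonneg (Real.log t)),
      mul_nonneg hx (abs_nonneg (Real.log t))]

theorem continuousOn_log_one_add_div {x : ℝ} (hx : 0 ≤ x) :
    ContinuousOn (fun t => Real.log (1 + x / t)) (Ioi 0) := fun t (ht : 0 < t) =>
  ((continuousAt_const.add (continuousAt_const.div continuousAt_id ht.ne')).log (by
    show (1:ℝ) + x / t ≠ 0
    have := div_nonneg hx ht.le
    linarith)).continuousWithinAt

theorem integrableOn_log_kernel {x : ℝ} (hx : 0 ≤ x) (h0 : 0 < α) (h1 : α < 1) :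
    IntegrableOn (fun t => t ^ (α - 1) * Real.log (1 + x / t)) (Ioi 0) :=
  integrableOn_rpow_mul_of_le h0 h1 (continuousOn_log_one_add_div hx)
    fun _ ht => log_one_add_div_le hx ht

theorem kconst_pos' (h0 : 0 < α) (h1 : α < 1) : 0 < kconst α := by
  refine inv_pos.2 ((setIntegral_pos_iff_support_of_nonneg_ae
    (ae_restrict_of_forall_mem measurableSet_Ioi fun t (ht : 0 < t) => ?_)
    (integrableOn_log_kernel zero_le_one h0 h1)).2 ?_)
  · exact mul_nonneg (Real.rpow_nonneg ht.le _)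
      (Real.log_nonneg (by linarith [div_pos zero_lt_one ht]))
  · refine lt_of_lt_of_le (by simp : (0 : ENNReal) < volume (Ioi (0 : ℝ)))
      (measure_mono fun t (ht : 0 < t) => ⟨?_, ht⟩)
    exact mul_ne_zero (Real.rpow_pos_of_pos ht _).ne'
      (Real.log_pos (by linarith [div_pos zero_lt_one ht])).ne'

theorem kconst_integral {x : ℝ} (hx : 0 ≤ x) (h0 : 0 < α) (h1 : α < 1) :
    kconst α * ∫ t in Ioi (0 : ℝ), t ^ (α - 1) * Real.log (1 + x / t) = x ^ α := by
  rcases hx.eq_or_lt with rfl | hx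
  · simp [Real.zero_rpow h0.ne']
  have h := integral_comp_mul_left_Ioi (fun t => t ^ (α - 1) * Real.log (1 + x / t)) 0 hx
  rw [mul_zero, smul_eq_mul] at h
  have e : ∫ u in Ioi (0 : ℝ), (x * u) ^ (α - 1) * Real.log (1 + x / (x * u)) =
      x ^ (α - 1) * ∫ u in Ioi (0 : ℝ), u ^ (α - 1) * Real.log (1 + 1 / u) := by
    rw [← integral_const_mul]
    refine setIntegral_congr_fun measurableSet_Ioi fun u (hu : 0 < u) => ?_
    show (x * u) ^ (α - 1) * Real.log (1 + x / (x * u)) = _
    rw [Real.mul_rpow hx.le hu.le, div_mul_eq_div_div, div_self hx.ne', mul_assoc]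
  have hk := kconst_pos' h0 h1
  rw [eq_inv_mul_iff_mul_eq₀ hx.ne'] at h
  rw [← h, e, Real.rpow_sub_one hx.ne']
  unfold kconst at hk ⊢
  have hI := (inv_pos.1 hk).ne'
  field_simp

end Vale.Agent.P371.Calib
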