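import Vale.Agent.P371.Calib.TCalc

/-!
# P371: the integrated inequality, and concavity of the potential
-/

namespace Vale.Agent.P371.Calib

open Matrix MeasureTheory Set Filter Finset
open Vale.Agent.LT (MatDerivAt matDerivAt_const)
open scoped ComplexOrder Topology

variable {n : ℕ}

theorem trR_add (A B : CMat n) : trR (A + B) = trR A + trR B := by simp [trR]

theorem trR_sub (A B : CMat n) : trR (A - B) = trR A - trR B := by simp [trR]

theorem trR_smul (r : ℝ) (A : CMat n) : trR ((r : ℂ) • A) = r * trR A := by simp [trR]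

theorem muM_mul_self {L : CMat n} {t : ℝ} (hL : L.PosSemidef) (ht : 0 < t) :
    muM L t * muM L t = L + (t : ℂ) • 1 := by
  obtain ⟨V, l, h⟩ := exists_spec hL.1
  exact ((muM_spec h t).mul (muM_spec h t)).eq (h.add_smul_one t) fun k =>
    Real.mul_self_sqrt (by linarith [h.posSemidef_iff.1 hL k])

theorem sym_prod_eq {L B : CMat n} {t : ℝ} (hL : L.PosSemidef) (ht : 0 < t) :
    (1 / 2 : ℂ) • (apM L B t * amM L B t + amM L B t * apM L B t) - (t : ℂ) • 1 =
      L - rM L B * rM L B := by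
  have e1 : apM L B t = muM L t + rM L B := by simp only [apM, rM]; abel
  have e2 : amM L B t = muM L t - rM L B := by simp only [amM, rM]; abel
  have e3 : apM L B t * amM L B t + amM L B t * apM L B t =
      (2 : ℂ) • (muM L t * muM L t - rM L B * rM L B) := by
    rw [e1, e2, two_smul]; noncomm_ring
  rw [e3, muM_mul_self hL ht, smul_smul]
  norm_num
  abel

/-- The derivative of `t ↦ trR (yT L B t * X)`. -/
theorem trR_yT_deriv {L B : CMat n} {t : ℝ} (hF : Feasible L B) (ht : 0 < t) (X : CMat n) :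
    HasDerivAt (fun s => trR (yT L B s * X))
      (trR (kmat (apM L B t) (amM L B t) * X) - t⁻¹ * trR X) t := by
  refine (hasDerivAt_trR_mul (yT_deriv hF ht) X).congr_deriv ?_
  rw [Matrix.sub_mul, Matrix.smul_mul, Matrix.one_mul, trR_sub, trR_smul]

section main

variable (hper : ∀ (A B W : CMat n) (t : ℝ), 0 < t → A.PosDef → B.PosDef → W.PosSemidef →
    trR ((logM A + logM B - (Real.log t : ℂ) • 1 + (1 - (t : ℂ) • kmat A B)) * W) -
        trF (fun w => w * Real.log (1 + w / t)) W ≤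
      trR ((1 - (t : ℂ) • kmat A B) * ((1 / 2 : ℂ) • (A * B + B * A) - (t : ℂ) • 1)))

include hper

theorem main_ineq_pos {α : ℝ} {L B W : CMat n} (ha : 0 < α) (h1 : α < 1) (hF : Feasible L B)
    (hW : W.PosSemidef) :
    (1 + α) * trR (palM α L B * W) - trF (fun w => w ^ (1 + α)) W ≤
      α * trR (palM α L B * (L - rM L B * rM L B)) := by
  obtain ⟨U, w, hU⟩ := exists_spec hW.1
  have hw := hU.posSemidef_iff.1 hW
  set M := L - rM L B * rM L B with hM
  set f := fun t => trR (yT L B t * W) with hf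
  set g := fun t => trR (yT L B t * M) with hg
  set φ := fun t : ℝ => ∑ k, w k * Real.log (1 + w k / t) with hφ
  set Φ := fun t => t ^ (α - 1) * (α * (g t - f t) + φ t - f t) with hΦ
  set H := fun t => t ^ α * (g t - f t) with hH
  have hcf : ContinuousOn f (Ioi 0) := continuousOn_trR_yT hF W
  have hcg : ContinuousOn g (Ioi 0) := continuousOn_trR_yT hF M
  have hcφ : ContinuousOn φ (Ioi 0) :=
    continuousOn_finsetSum _ fun k _ => continuousOn_const.mul (continuousOn_log_one_add_div (hw k))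
  have hif : IntegrableOn (fun t => t ^ (α - 1) * f t) (Ioi 0) := integrableOn_trR_yT ha h1 hF W
  have hig : IntegrableOn (fun t => t ^ (α - 1) * g t) (Ioi 0) := integrableOn_trR_yT ha h1 hF M
  have hiφ : IntegrableOn (fun t => t ^ (α - 1) * φ t) (Ioi 0) := by
    simp only [hφ, Finset.mul_sum, mul_left_comm _ (w _)]
    exact integrable_finsetSum _ fun k _ => (integrableOn_log_kernel (hw k) ha h1).const_mul _
  have hiΦ : IntegrableOn Φ (Ioi 0) := by
    refine IntegrableOn.congr_fun ((((hig.sub hif).const_mul α).add hiφ).sub hif) (fun t _ => ?_)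
      measurableSet_Ioi
    simp only [hΦ, Pi.add_apply, Pi.sub_apply]; ring
  have hd : ∀ t, 0 < t → ∃ d, HasDerivAt H d t ∧ d ≤ Φ t := by
    intro t ht
    have df := trR_yT_deriv hF ht W
    have dg := trR_yT_deriv hF ht M
    refine ⟨_, (Real.hasDerivAt_rpow_const (p := α) (Or.inl ht.ne')).mul (dg.fun_sub df), ?_⟩
    have h := hper _ _ W t ht (apM_posDef hF ht) (amM_posDef hF ht) hW
    rw [sym_prod_eq hF.1 ht, hU.trF_eq, ← yT, Matrix.add_mul, Matrix.sub_mul 1, Matrix.sub_mul 1,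
      Matrix.smul_mul, Matrix.smul_mul, Matrix.one_mul, Matrix.one_mul, trR_add, trR_sub, trR_sub,
      trR_smul, trR_smul, ← hM] at h
    set kW := trR (kmat (apM L B t) (amM L B t) * W)
    set kM := trR (kmat (apM L B t) (amM L B t) * M)
    simp only [hΦ]
    have hp : t ^ α = t ^ (α - 1) * t := by
      rw [Real.rpow_sub_one ht.ne', div_mul_cancel₀ _ ht.ne']
    have e : α * t ^ (α - 1) * (g t - f t) + t ^ α * (kM - t⁻¹ * trR M - (kW - t⁻¹ * trR W)) =
        t ^ (α - 1) * (α * (g t - f t) + (t * kM - trR M - (t * kW - trR W))) := by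
      rw [hp]; field_simp
    rw [e]
    refine mul_le_mul_of_nonneg_left ?_ (Real.rpow_nonneg ht.le _)
    simp only [hf, hφ] at h ⊢
    linarith
  choose! d hd hdle using hd
  have key : 0 ≤ ∫ t in Ioi (0 : ℝ), Φ t := by
    set s : ℕ → Set ℝ := fun k => Ioc (1 / ((k : ℝ) + 1)) ((k : ℝ) + 1) with hs
    have hU' : (⋃ k, s k) = Set.Ioi 0 := by
      ext t
      simp only [hs, mem_iUnion, Set.mem_Ioc, Set.mem_Ioi]
      constructor
      · rintro ⟨k, hk, -⟩; exact lt_trans (by positivity) hk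
      · intro ht
        obtain ⟨k, hk⟩ := exists_nat_gt (max t t⁻¹)
        refine ⟨k, ?_, by linarith [le_max_left t t⁻¹]⟩
        rw [div_lt_iff₀ (by positivity)]
        have h2 : t⁻¹ < (k : ℝ) + 1 := by linarith [le_max_right t t⁻¹]
        have h3 := mul_lt_mul_of_pos_left h2 ht
        rwa [mul_inv_cancel₀ ht.ne'] at h3
    have hmono : Monotone s := fun i j hij => by
      have : (i : ℝ) ≤ j := Nat.cast_le.2 hij
      exact Ioc_subset_Ioc (one_div_le_one_div_of_le (by positivity) (by linarith)) (by linarith)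
    have l1 := tendsto_setIntegral_of_monotone (μ := volume) (f := Φ)
      (fun k => measurableSet_Ioc) hmono (hU' ▸ hiΦ)
    rw [hU'] at l1
    set S := ∑ i, ∑ j, ‖(M - W) i j‖
    have hb : ∀ t, 0 < t → |H t| ≤ majC (max 1 (trR L)) * S * (t ^ α * maj t) := fun t ht => by
      simp only [hH, hf, hg]
      rw [← trR_sub, ← Matrix.mul_sub, abs_mul, abs_of_nonneg (Real.rpow_nonneg ht.le _)]
      refine (mul_le_mul_of_nonneg_left
        (abs_trR_yT_le hF (trR_le_max L) (le_max_left _ _) ht (M - W))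
        (Real.rpow_nonneg ht.le _)).trans (le_of_eq ?_)
      ring
    have la : Tendsto (fun k : ℕ => H (1 / ((k : ℝ) + 1))) atTop (𝓝 0) := by
      have hk : Tendsto (fun k : ℕ => 1 / ((k : ℝ) + 1)) atTop (𝓝[>] 0) :=
        tendsto_nhdsWithin_iff.2 ⟨tendsto_one_div_add_atTop_nhds_zero_nat,
          Eventually.of_forall fun k => by show (0:ℝ) < _; positivity⟩
      refine squeeze_zero_norm (fun k => hb _ (by positivity)) ?_
      simpa using ((tendsto_rpow_mul_maj_zero ha).comp hk).const_mul _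
    have lb : Tendsto (fun k : ℕ => H ((k : ℝ) + 1)) atTop (𝓝 0) := by
      refine squeeze_zero_norm (fun k => hb _ (by positivity)) ?_
      simpa using ((tendsto_rpow_mul_maj_atTop h1).comp
        (tendsto_atTop_add_const_right _ 1 tendsto_natCast_atTop_atTop)).const_mul _
    have lab : Tendsto (fun k : ℕ => H ((k : ℝ) + 1) - H (1 / ((k : ℝ) + 1))) atTop (𝓝 0) := by
      simpa only [sub_zero] using lb.sub la
    refine le_of_tendsto_of_tendsto' lab l1 fun k => ?_
    have hab : 1 / ((k : ℝ) + 1) ≤ (k : ℝ) + 1 := by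
      rw [div_le_iff₀ (by positivity)]; nlinarith [Nat.cast_nonneg (α := ℝ) k]
    have hpos : ∀ t ∈ Icc (1 / ((k : ℝ) + 1)) ((k : ℝ) + 1), 0 < t :=
      fun t ht => lt_of_lt_of_le (by positivity) ht.1
    rw [← intervalIntegral.integral_of_le hab]
    exact intervalIntegral.sub_le_integral_of_hasDeriv_right_of_le hab
      (fun t ht => (hd t (hpos t ht)).continuousAt.continuousWithinAt)
      (fun t ht => (hd t (hpos t (Ioo_subset_Icc_self ht))).hasDerivWithinAt)
      (hiΦ.mono_set fun t ht => hpos t ht)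
      (fun t ht => hdle t (hpos t (Ioo_subset_Icc_self ht)))
  have hI : ∫ t in Ioi (0 : ℝ), Φ t = α * ((∫ t in Ioi (0 : ℝ), t ^ (α - 1) * g t) -
      ∫ t in Ioi (0 : ℝ), t ^ (α - 1) * f t) + (∫ t in Ioi (0 : ℝ), t ^ (α - 1) * φ t) -
      ∫ t in Ioi (0 : ℝ), t ^ (α - 1) * f t := by
    have i1 : IntegrableOn (fun t => α * (t ^ (α - 1) * g t - t ^ (α - 1) * f t)) (Set.Ioi 0) :=
      (hig.sub hif).const_mul α
    have i2 : IntegrableOn
        (fun t => α * (t ^ (α - 1) * g t - t ^ (α - 1) * f t) + t ^ (α - 1) * φ t) (Set.Ioi 0) :=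
      i1.add hiφ
    rw [setIntegral_congr_fun measurableSet_Ioi (g := fun t =>
      α * (t ^ (α - 1) * g t - t ^ (α - 1) * f t) + t ^ (α - 1) * φ t - t ^ (α - 1) * f t)
      fun t _ => by simp only [hΦ]; ring]
    rw [integral_sub i2 hif, integral_add i1 hiφ, integral_const_mul, integral_sub hig hif]
  have hφI : kconst α * (∫ t in Ioi (0 : ℝ), t ^ (α - 1) * φ t) = trF (fun w => w ^ (1 + α)) W := by
    simp only [hφ, Finset.mul_sum, mul_left_comm _ (w _), hU.trF_eq]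
    rw [integral_finsetSum _ fun k _ => (integrableOn_log_kernel (hw k) ha h1).const_mul _,
      Finset.mul_sum]
    refine sum_congr rfl fun k _ => ?_
    rw [integral_const_mul, mul_left_comm, kconst_integral (hw k) ha h1,
      Real.rpow_add_of_nonneg (hw k) zero_le_one ha.le, Real.rpow_one]
  have hk := mul_nonneg (kconst_pos' ha h1).le key
  rw [hI] at hk
  rw [trR_palM_mul ha h1 hF, trR_palM_mul ha h1 hF, ← hφI]
  nlinarith

theorem main_ineq {α : ℝ} {L B W : CMat n} (h0 : 1 / 2 < α) (h1 : α < 1) (hF : Feasible L B)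
    (hW : W.PosSemidef) :
    (1 + α) * trR (palM α L B * W) - trF (fun w => w ^ (1 + α)) W ≤
      α * trR (palM α L B * (L - rM L B * rM L B)) :=
  main_ineq_pos hper (by linarith) h1 hF hW

end main

theorem psiA_mvt {α : ℝ} {L B₀ B₁ : CMat n} (h0 : 1 / 2 < α) (h1 : α < 1)
    (h₀ : Feasible L B₀) (h₁ : Feasible L B₁) : ∃ θ ∈ Icc (0 : ℝ) 1,
      psiA α L B₁ - psiA α L B₀ =
        trR (palM α L (B₀ + (θ : ℂ) • (B₁ - B₀)) * (B₁ - B₀)) := by
  have ha : 0 < α := by linarith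
  have hm : MapsTo (fun w : ℝ => (L, B₀ + (w : ℂ) • (B₁ - B₀))) (Icc 0 1)
      {p | Feasible p.1 p.2} := fun w hw => feasible_seg h₀ h₁ hw
  have c1 := (psiA_continuousOn ha h1).comp (continuous_seg L B₀ B₁).continuousOn hm
  simp only [Function.comp_def] at c1
  obtain ⟨c, hc, he⟩ := exists_hasDerivAt_eq_slope
    (fun w : ℝ => psiA α L (B₀ + (w : ℂ) • (B₁ - B₀)))
    (fun w : ℝ => trR (palM α L (B₀ + (w : ℂ) • (B₁ - B₀)) * (B₁ - B₀))) zero_lt_one
    c1
    (fun w hw => psiA_seg_deriv ha h1 h₀ h₁ hw)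
  exact ⟨c, Ioo_subset_Icc_self hc, by simpa using he.symm⟩

theorem psiA_continuous {α : ℝ} (h0 : 1 / 2 < α) (h1 : α < 1) :
    ContinuousOn (fun p : CMat n × CMat n => psiA α p.1 p.2) {p | Feasible p.1 p.2} :=
  psiA_continuousOn (by linarith) h1

theorem palM_continuous {α : ℝ} (h0 : 1 / 2 < α) (h1 : α < 1) :
    ContinuousOn (fun p : CMat n × CMat n => palM α p.1 p.2) {p | Feasible p.1 p.2} :=
  palM_continuousOn (by linarith) h1

section concave

variable
  (hconc : ∀ (B Q₀ Q₁ : CMat n) (t : ℝ), 0 < t → B.PosSemidef → (Q₀ - B).PosDef →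
    (Q₁ - B).PosDef → ∀ a b : ℝ, 0 ≤ a → 0 ≤ b → a + b = 1 →
      a * psiQ Q₀ B t + b * psiQ Q₁ B t ≤ psiQ ((a : ℂ) • Q₀ + (b : ℂ) • Q₁) B t)
  (hmono : ∀ (B Q₀ Q₁ : CMat n) (t : ℝ), 0 < t → B.PosSemidef → (Q₀ - B).PosDef →
    (Q₁ - Q₀).PosSemidef → psiQ Q₀ B t ≤ psiQ Q₁ B t)
  (hsqrt : ∀ (L₀ L₁ : CMat n), L₀.PosSemidef → L₁.PosSemidef → ∀ a b : ℝ, 0 ≤ a → 0 ≤ b →
    a + b = 1 →
      (sqrtM ((a : ℂ) • L₀ + (b : ℂ) • L₁) -
        ((a : ℂ) • sqrtM L₀ + (b : ℂ) • sqrtM L₁)).PosSemidef)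

include hconc hmono hsqrt in
theorem psiA_concave {α : ℝ} {L₀ L₁ B : CMat n} (h0 : 1 / 2 < α) (h1 : α < 1)
    (hF₀ : Feasible L₀ B) (hF₁ : Feasible L₁ B) {a b : ℝ} (ha : 0 ≤ a) (hb : 0 ≤ b)
    (hab : a + b = 1) :
    a * psiA α L₀ B + b * psiA α L₁ B ≤ psiA α ((a : ℂ) • L₀ + (b : ℂ) • L₁) B := by
  have hα : 0 < α := by linarith
  have ha' : (0 : ℂ) ≤ (a : ℂ) := Complex.zero_le_real.2 ha
  have hb' : (0 : ℂ) ≤ (b : ℂ) := Complex.zero_le_real.2 hb
  have habC : (a : ℂ) + (b : ℂ) = 1 := by exact_mod_cast hab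
  set L := (a : ℂ) • L₀ + (b : ℂ) • L₁
  have hS : (sqrtM L - ((a : ℂ) • sqrtM L₀ + (b : ℂ) • sqrtM L₁)).PosSemidef :=
    hsqrt L₀ L₁ hF₀.1 hF₁.1 a b ha hb hab
  have hF : Feasible L B := by
    refine ⟨(hF₀.1.smul ha').add (hF₁.1.smul hb'), hF₀.2.1, ?_⟩
    have h2 : (0 : ℂ) ≤ 2 := by norm_num
    convert ((hF₀.2.2.smul ha').add (hF₁.2.2.smul hb')).add (hS.smul h2) using 1
    rw [show (b : ℂ) = 1 - (a : ℂ) by rw [← habC]; ring]
    module
  have hi₀ := integrableOn_psiQ (α := α) hα h1 hF₀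
  have hi₁ := integrableOn_psiQ (α := α) hα h1 hF₁
  rw [psiA, psiA, psiA, mul_left_comm a, mul_left_comm b, ← mul_add]
  refine mul_le_mul_of_nonneg_left ?_ (kconst_pos' hα h1).le
  rw [← integral_const_mul, ← integral_const_mul, ← integral_add (hi₀.const_mul a) (hi₁.const_mul b)]
  refine setIntegral_mono_on ((hi₀.const_mul a).add (hi₁.const_mul b))
    (integrableOn_psiQ hα h1 hF) measurableSet_Ioi fun t (ht : 0 < t) => ?_
  show a * (t ^ (α - 1) * psiQ (qM L₀ t) B t) + b * (t ^ (α - 1) * psiQ (qM L₁ t) B t) ≤ _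
  rw [mul_left_comm a, mul_left_comm b, ← mul_add]
  refine mul_le_mul_of_nonneg_left ?_ (Real.rpow_nonneg ht.le _)
  have p₀ : (qM L₀ t - B).PosDef := apM_posDef hF₀ ht
  have p₁ : (qM L₁ t - B).PosDef := apM_posDef hF₁ ht
  refine (hconc B _ _ t ht hF₀.2.1 p₀ p₁ a b ha hb hab).trans (hmono B _ _ t ht hF₀.2.1 ?_ ?_)
  · have e : (a : ℂ) • qM L₀ t + (b : ℂ) • qM L₁ t - B =
        (a : ℂ) • (qM L₀ t - B) + (b : ℂ) • (qM L₁ t - B) := by
      rw [show (b : ℂ) = 1 - (a : ℂ) by rw [← habC]; ring]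
      module
    rw [e]
    rcases ha.eq_or_lt with rfl | ha0
    · rw [zero_add] at hab; subst hab; simpa using p₁
    · exact (p₀.smul (Complex.zero_lt_real.2 ha0)).add_posSemidef (p₁.posSemidef.smul hb')
  · obtain ⟨V₀, l₀, hl₀⟩ := exists_spec hF₀.1.1
    obtain ⟨V₁, l₁, hl₁⟩ := exists_spec hF₁.1.1
    have q₀ : (L₀ + (t : ℂ) • 1).PosSemidef :=
      (hl₀.add_smul_one t).posSemidef_iff.2 fun k => by linarith [hl₀.posSemidef_iff.1 hF₀.1 k]
    have q₁ : (L₁ + (t : ℂ) • 1).PosSemidef :=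
      (hl₁.add_smul_one t).posSemidef_iff.2 fun k => by linarith [hl₁.posSemidef_iff.1 hF₁.1 k]
    have hM := hsqrt _ _ q₀ q₁ a b ha hb hab
    have e : (a : ℂ) • (L₀ + (t : ℂ) • (1 : CMat n)) + (b : ℂ) • (L₁ + (t : ℂ) • 1) =
        L + (t : ℂ) • 1 := by
      simp only [L]
      rw [show (b : ℂ) = 1 - (a : ℂ) by rw [← habC]; ring]
      module
    rw [e] at hM
    convert hM.add hS using 1
    simp only [qM, muM]
    module

include hmono in
theorem psiA_shift_mono {α τ : ℝ} {L B : CMat n} (h0 : 1 / 2 < α) (h1 : α < 1)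
    (hF : Feasible L B) (hτ : 0 ≤ τ) :
    psiA α L B ≤ psiA α ((sqrtM L + (τ : ℂ) • 1) * (sqrtM L + (τ : ℂ) • 1)) B := by
  have hα : 0 < α := by linarith
  set L' := (sqrtM L + (τ : ℂ) • 1) * (sqrtM L + (τ : ℂ) • 1)
  obtain ⟨V, l, h⟩ := exists_spec hF.1.1
  have h0l := h.posSemidef_iff.1 hF.1
  have hs := h.sqrtM.add_smul_one τ
  have h' : Spec L' V fun k => (√(l k) + τ) * (√(l k) + τ) := hs.mul hs
  have hsq : sqrtM L' = sqrtM L + (τ : ℂ) • 1 := h'.sqrtM.eq hs fun k =>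
    Real.sqrt_mul_self (add_nonneg (Real.sqrt_nonneg _) hτ)
  have hF' : Feasible L' B := by
    refine ⟨h'.posSemidef_iff.2 fun k => mul_self_nonneg _, hF.2.1, ?_⟩
    rw [hsq]
    have h2 : (0 : ℂ) ≤ ((2 * τ : ℝ) : ℂ) := Complex.zero_le_real.2 (by linarith)
    convert hF.2.2.add (Matrix.PosSemidef.one.smul h2) using 1
    push_cast
    module
  refine mul_le_mul_of_nonneg_left ?_ (kconst_pos' hα h1).le
  refine setIntegral_mono_on (integrableOn_psiQ hα h1 hF) (integrableOn_psiQ hα h1 hF')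
    measurableSet_Ioi fun t (ht : 0 < t) => ?_
  refine mul_le_mul_of_nonneg_left (hmono B _ _ t ht hF.2.1 (apM_posDef hF ht) ?_)
    (Real.rpow_nonneg ht.le _)
  refine ((qM_spec h' t).sub (qM_spec h t)).posSemidef_iff.2 fun k => ?_
  have hk := Real.sqrt_nonneg (l k)
  have h3 : l k ≤ (√(l k) + τ) * (√(l k) + τ) := by
    nlinarith [Real.mul_self_sqrt (h0l k)]
  linarith [Real.sqrt_le_sqrt h3, Real.sqrt_le_sqrt (show l k + t ≤ _ + t by linarith [h3] :
    l k + t ≤ (√(l k) + τ) * (√(l k) + τ) + t)]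

end concave

end Vale.Agent.P371.Calib
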