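import Vale.Agent.P371.Calib.EndDefs
import Vale.Agent.P371.Calib.ValueBasic
import Vale.Agent.P371.Calib.Endpoints
import Vale.Agent.P371.Calib.TInt
import Vale.Agent.P371.Calib.Concave

/-!
# P371: attainment and stability of the two optimisations in the calibration
-/

namespace Vale.Agent.P371.Calib

open Matrix MeasureTheory Set Filter
open scoped ComplexOrder Topology

variable {n : ℕ}

/-! ### Traces -/

theorem trR_one : trR (1 : CMat n) = n := by simp [trR]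

theorem trR_zero : trR (0 : CMat n) = 0 := by simp [trR]

theorem trR_nonneg {X : CMat n} (hX : X.PosSemidef) : 0 ≤ trR X := by
  obtain ⟨V, a, h⟩ := exists_spec hX.isHermitian
  rw [h.trR_eq]
  exact Finset.sum_nonneg fun i _ => h.posSemidef_iff.1 hX i

theorem norm_entry_le_trR {X : CMat n} (hX : X.PosSemidef) (i j : Fin n) : ‖X i j‖ ≤ trR X := by
  obtain ⟨V, a, h⟩ := exists_spec hX.isHermitian
  rw [h.trR_eq]
  conv_lhs => rw [h.2.2, Matrix.mul_apply]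
  refine (norm_sum_le _ _).trans (Finset.sum_le_sum fun k _ => ?_)
  have ha := h.posSemidef_iff.1 hX k
  rw [mul_diagonal, conjTranspose_apply, norm_mul, norm_mul, norm_star, Complex.norm_real,
    Real.norm_eq_abs, abs_of_nonneg ha]
  calc ‖V i k‖ * a k * ‖V j k‖ ≤ 1 * a k * 1 :=
        mul_le_mul (mul_le_mul_of_nonneg_right (h.norm_entry_le_one i k) ha)
          (h.norm_entry_le_one j k) (norm_nonneg _) (by linarith)
    _ = a k := by ring

theorem smul_trR_sub_posSemidef {X : CMat n} (hX : X.PosSemidef) :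
    ((trR X : ℂ) • 1 - X).PosSemidef := by
  obtain ⟨V, a, h⟩ := exists_spec hX.isHermitian
  have h' := (h.smul (-1)).add_smul_one (trR X)
  rw [show ((trR X : ℂ) • 1 - X) = ((-1 : ℝ) : ℂ) • X + (trR X : ℂ) • 1 by
    push_cast; rw [neg_one_smul]; abel, h'.posSemidef_iff]
  intro i
  rw [h.trR_eq]
  have := Finset.single_le_sum (f := a) (fun k _ => h.posSemidef_iff.1 hX k) (Finset.mem_univ i)
  linarith

/-- The sum of the absolute values of the entries. -/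
noncomputable def N1 (X : CMat n) : ℝ := ∑ i, ∑ j, ‖X i j‖

theorem N1_nonneg (X : CMat n) : 0 ≤ N1 X :=
  Finset.sum_nonneg fun _ _ => Finset.sum_nonneg fun _ _ => norm_nonneg _

theorem continuous_N1 : Continuous (N1 (n := n)) :=
  continuous_finsetSum _ fun i _ => continuous_finsetSum _ fun j _ =>
    (continuous_id.matrix_elem i j).norm

theorem N1_zero : N1 (0 : CMat n) = 0 := by simp [N1]

theorem norm_le_N1 (X : CMat n) (i j : Fin n) : ‖X i j‖ ≤ N1 X :=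
  (Finset.single_le_sum (f := fun j => ‖X i j‖) (fun _ _ => norm_nonneg _)
    (Finset.mem_univ j)).trans (Finset.single_le_sum (f := fun i => ∑ j, ‖X i j‖)
      (fun _ _ => Finset.sum_nonneg fun _ _ => norm_nonneg _) (Finset.mem_univ i))

theorem N1_smul_add_posSemidef {E : CMat n} (hE : E.IsHermitian) :
    ((N1 E : ℂ) • 1 + E).PosSemidef := by
  obtain ⟨V, a, h⟩ := exists_spec hE
  rw [add_comm, (h.add_smul_one (N1 E)).posSemidef_iff]
  intro i
  have := (abs_le.1 (h.abs_eig_le i)).1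
  unfold N1
  linarith

theorem abs_trR_mul_le_N1 (X Y : CMat n) : |trR (X * Y)| ≤ N1 X * N1 Y := by
  refine (Complex.abs_re_le_norm _).trans ?_
  simp only [Matrix.trace, Matrix.diag, Matrix.mul_apply]
  rw [N1, Finset.sum_mul]
  refine (norm_sum_le _ _).trans (Finset.sum_le_sum fun i _ => ?_)
  rw [Finset.sum_mul]
  refine (norm_sum_le _ _).trans (Finset.sum_le_sum fun j _ => ?_)
  rw [norm_mul]
  exact mul_le_mul_of_nonneg_left (norm_le_N1 Y j i) (norm_nonneg _)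

theorem isCompact_psd_le (K : ℝ) : IsCompact {X : CMat n | X.PosSemidef ∧ trR X ≤ K} := by
  have hc : IsCompact (univ.pi fun _ : Fin n => univ.pi fun _ : Fin n =>
      Metric.closedBall (0 : ℂ) K) :=
    isCompact_univ_pi fun _ => isCompact_univ_pi fun _ => isCompact_closedBall _ _
  exact IsCompact.of_isClosed_subset (X := CMat n) hc
    (isClosed_posSemidef.inter (isClosed_le continuous_trR continuous_const))
    fun X hX i _ j _ => mem_closedBall_zero_iff.2 ((norm_entry_le_trR hX.1 i j).trans hX.2)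

/-! ### The parameters -/

/-- The admissible parameters. -/
def InPar (δ T R₀ : ℝ) (P G : CMat n) : Prop := P.PosSemidef ∧ trR P ≤ R₀ ∧ G ∈ box δ T

/-- `L` attains the inner supremum. -/
def IsMax (α ε : ℝ) (P G B L : CMat n) : Prop :=
  Feasible L B ∧ ∀ L', Feasible L' B → obj α ε P G L' B ≤ obj α ε P G L B

/-- `B` attains the outer infimum. -/
def IsMin (α ε : ℝ) (P G B : CMat n) : Prop :=
  B.PosSemidef ∧ ∀ B', B'.PosSemidef → innerV α ε P G B ≤ innerV α ε P G B'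

variable {α ε δ T R₀ : ℝ}

theorem InPar.trR_G {P G : CMat n} (h : InPar δ T R₀ P G) {X : CMat n} (hX : X.PosSemidef) :
    δ * trR X ≤ trR (X * G) ∧ trR (X * G) ≤ |T| * trR X := by
  obtain ⟨h1, h2⟩ := trR_mul_bounds X G δ T hX h.2.2.1 h.2.2.2
  exact ⟨h1, h2.trans (mul_le_mul_of_nonneg_right (le_abs_self T) (trR_nonneg hX))⟩

theorem trR_mul_sqrtM_le {P L : CMat n} (hP : P.PosSemidef) (hL : L.PosSemidef) :
    trR (P * sqrtM L) ≤ √(trR L) * trR P := by
  refine (trR_mul_bounds P (sqrtM L) 0 _ hP (by simpa using (sqrtM_facts L hL).1) ?_).2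
  obtain ⟨V, a, h⟩ := exists_spec hL.isHermitian
  rw [show ((√(trR L) : ℂ) • 1 - sqrtM L) = ((-1 : ℝ) : ℂ) • sqrtM L + (√(trR L) : ℂ) • 1 by
    push_cast; rw [neg_one_smul]; abel, ((h.sqrtM.smul (-1)).add_smul_one _).posSemidef_iff]
  intro i
  have ha := h.posSemidef_iff.1 hL
  have : √(a i) ≤ √(trR L) := Real.sqrt_le_sqrt (by
    rw [h.trR_eq]; exact Finset.single_le_sum (fun k _ => ha k) (Finset.mem_univ i))
  linarith

/-! ### The inner supremum -/

theorem level_bound (hα : 1 / 2 < α) (hα' : α < 1) (hε : 0 < ε) (hδ : 0 < δ) (R₀ T β c₀ : ℝ) :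
    ∃ K : ℝ, ∀ P G L B : CMat n, InPar δ T R₀ P G → Feasible L B → trR B ≤ β →
      c₀ ≤ obj α ε P G L B → trR L ≤ K := by
  obtain ⟨C, hC⟩ := psiA_upper (n := n) α hα hα'
  set K₂ : ℝ := |R₀| + |C| * |β| + δ + |c₀|
  refine ⟨(K₂ / δ) ^ (1 / (1 - α)), fun P G L B hp hF hB hc => ?_⟩
  have hB0 := trR_nonneg hF.2.1
  have hL0 := trR_nonneg hF.1
  set x := 1 + trR L with hx
  have hx1 : 1 ≤ x := by linarith
  have hxa : 1 ≤ x ^ α := Real.one_le_rpow hx1 (by linarith)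
  have h1 : trR (P * rM L B) ≤ |R₀| * x ^ α := by
    rw [rM, Matrix.mul_sub, trR_sub]
    have e1 := trR_mul_nonneg hp.1 hF.2.1
    have e2 := trR_mul_sqrtM_le hp.1 hF.1
    have e3 : √(trR L) ≤ x ^ α := by
      rw [Real.sqrt_eq_rpow]
      calc trR L ^ (1 / 2 : ℝ) ≤ x ^ (1 / 2 : ℝ) :=
            Real.rpow_le_rpow hL0 (by linarith) (by norm_num)
        _ ≤ x ^ α := Real.rpow_le_rpow_of_exponent_le hx1 hα.le
    have e4 : √(trR L) * trR P ≤ x ^ α * |R₀| :=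
      mul_le_mul e3 (hp.2.1.trans (le_abs_self _)) (trR_nonneg hp.1) (by linarith)
    linarith
  have h2 : psiA α L B ≤ |C| * |β| * x ^ α :=
    (hC L B hF).trans (mul_le_mul_of_nonneg_right
      ((mul_le_mul_of_nonneg_right (le_abs_self C) hB0).trans
        (mul_le_mul_of_nonneg_left (hB.trans (le_abs_self β)) (abs_nonneg C))) (by linarith))
  have h3 := (hp.trR_G hF.1).1
  have h4 : 0 ≤ ε * trR (L + 1)⁻¹ := mul_nonneg hε.le (trInv_bounds L hF.1).1
  unfold obj at hc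
  have h5 : δ * x ≤ K₂ * x ^ α := by
    have := mul_le_mul_of_nonneg_left hxa (show 0 ≤ δ + |c₀| by positivity)
    nlinarith [neg_abs_le c₀]
  have h6 : x ^ (1 - α) ≤ K₂ / δ := by
    rw [le_div_iff₀ hδ, Real.rpow_sub (by linarith), Real.rpow_one, div_mul_eq_mul_div,
      div_le_iff₀ (Real.rpow_pos_of_pos (by linarith) _)]
    linarith
  calc trR L ≤ x := by linarith
    _ = (x ^ (1 - α)) ^ (1 / (1 - α)) := by
        rw [← Real.rpow_mul (by linarith), mul_one_div_cancel (by linarith), Real.rpow_one]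
    _ ≤ _ := Real.rpow_le_rpow (Real.rpow_nonneg (by linarith) _) h6
        (one_div_nonneg.2 (by linarith))

theorem rM_quarter {B : CMat n} (hB : B.PosSemidef) :
    rM ((1 / 4 : ℂ) • (B * B)) B = -((1 / 2 : ℂ) • B) := by
  have e : (1 / 4 : ℂ) • (B * B) = ((1 / 2 : ℂ) • B) * ((1 / 2 : ℂ) • B) := by
    rw [Matrix.smul_mul, Matrix.mul_smul, smul_smul]; norm_num
  have hS : ((1 / 2 : ℂ) • B).PosSemidef := hB.smul (by
    rw [Complex.le_def]; norm_num)
  rw [rM, e, sqrtM_of_sq _ hS]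
  module

theorem jconst_nonneg (α : ℝ) : 0 ≤ jconst α :=
  intervalIntegral.integral_nonneg (by norm_num) fun σ hσ =>
    Real.rpow_nonneg (by nlinarith [hσ.1, hσ.2]) _

theorem psiA_quarter_nonneg (hα : 1 / 2 < α) (hα' : α < 1) {B : CMat n} (hB : B.PosSemidef) :
    0 ≤ psiA α ((1 / 4 : ℂ) • (B * B)) B := by
  rw [psiA_half α B hα hα' hB]
  obtain ⟨V, b, h⟩ := exists_spec hB.isHermitian
  have h2 : (1 / 2 : ℂ) • B = ((1 / 2 : ℝ) : ℂ) • B := by norm_num
  rw [h2, (h.smul _).trF_eq]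
  exact mul_nonneg (jconst_nonneg α) (Finset.sum_nonneg fun i _ =>
    Real.rpow_nonneg (mul_nonneg (by norm_num) (h.posSemidef_iff.1 hB i)) _)

theorem quarter_lower (hα : 1 / 2 < α) (hα' : α < 1) (hε : 0 < ε) {P G B : CMat n}
    (hp : InPar δ T R₀ P G) (hB : B.PosSemidef) :
    -(|R₀| * trR B + |T| * trR B ^ 2 + ε * n) ≤ obj α ε P G ((1 / 4 : ℂ) • (B * B)) B := by
  have hF := feasible_quarter B hB
  have hB0 := trR_nonneg hB
  have hq : trR ((1 / 4 : ℂ) • (B * B)) = 1 / 4 * trR (B * B) := by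
    have := trR_smul (1 / 4) (B * B)
    push_cast at this
    exact this
  have h1 : trR (B * B) ≤ trR B * trR B :=
    (trR_mul_bounds B B 0 _ hB (by simpa using hB) (smul_trR_sub_posSemidef hB)).2
  have h2 : trR (P * B) ≤ |R₀| * trR B :=
    ((trR_mul_bounds P B 0 _ hp.1 (by simpa using hB) (smul_trR_sub_posSemidef hB)).2).trans
      (by rw [mul_comm]; exact mul_le_mul_of_nonneg_right (hp.2.1.trans (le_abs_self _)) hB0)
  have h3 := (hp.trR_G hF.1).2
  have h4 := psiA_quarter_nonneg hα hα' hB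
  have h5 := mul_le_mul_of_nonneg_left (trInv_bounds _ hF.1).2 hε.le
  have h6 : trR (P * rM ((1 / 4 : ℂ) • (B * B)) B) = -(1 / 2 * trR (P * B)) := by
    rw [rM_quarter hB]
    have := trR_smul (1 / 2) (P * B)
    push_cast at this
    simp only [Matrix.mul_neg, Matrix.mul_smul, trR, Matrix.trace_neg, Complex.neg_re] at this ⊢
    rw [this]
  have h7 : |T| * (1 / 4 * trR (B * B)) ≤ |T| * trR B ^ 2 :=
    mul_le_mul_of_nonneg_left (by nlinarith) (abs_nonneg T)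
  rw [hq] at h3
  unfold obj
  rw [h6]
  have := trR_mul_nonneg hp.1 hB
  linarith

theorem tendsto_obj {ι : Type*} {l : Filter ι} (hα : 1 / 2 < α) (hα' : α < 1)
    {P G L B : ι → CMat n} {P₀ G₀ L₀ B₀ : CMat n} (hP : Tendsto P l (𝓝 P₀))
    (hG : Tendsto G l (𝓝 G₀)) (hL : Tendsto L l (𝓝 L₀)) (hB : Tendsto B l (𝓝 B₀))
    (hF : ∀ᶠ i in l, Feasible (L i) (B i)) (hF₀ : Feasible L₀ B₀) :
    Tendsto (fun i => obj α ε (P i) (G i) (L i) (B i)) l (𝓝 (obj α ε P₀ G₀ L₀ B₀)) := by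
  have hs : Tendsto (fun i => sqrtM (L i)) l (𝓝 (sqrtM L₀)) :=
    (sqrtM_cont L₀ hF₀.1).tendsto.comp (tendsto_nhdsWithin_iff.2 ⟨hL, hF.mono fun i h => h.1⟩)
  have hm₀ : ((L₀, B₀) : CMat n × CMat n) ∈ {p : CMat n × CMat n | Feasible p.1 p.2} := hF₀
  have hc : ContinuousWithinAt (fun p : CMat n × CMat n => psiA α p.1 p.2)
      {p : CMat n × CMat n | Feasible p.1 p.2} (L₀, B₀) := psiA_continuousOn (show (0:ℝ) < α by linarith) hα' _ hm₀
  have hLB : Tendsto (fun i => (L i, B i)) l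
      (𝓝[{p : CMat n × CMat n | Feasible p.1 p.2}] (L₀, B₀)) :=
    tendsto_nhdsWithin_iff.2 ⟨hL.prodMk_nhds hB, hF⟩
  have hψ : Tendsto (fun i => psiA α (L i) (B i)) l (𝓝 (psiA α L₀ B₀)) :=
    Filter.Tendsto.comp (g := fun p : CMat n × CMat n => psiA α p.1 p.2)
      (f := fun i => (L i, B i)) hc hLB
  have hi : Tendsto (fun i => (L i + 1)⁻¹) l (𝓝 (L₀ + 1)⁻¹) :=
    (continuousAt_inv (PosDef.posSemidef_add hF₀.1 PosDef.one)).tendsto.comp (hL.add tendsto_const_nhds)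
  have t1 : Tendsto (fun i => trR (P i * (sqrtM (L i) - B i))) l
      (𝓝 (trR (P₀ * (sqrtM L₀ - B₀)))) := (continuous_trR.tendsto _).comp (hP.mul (hs.sub hB))
  have t2 : Tendsto (fun i => trR (L i * G i)) l (𝓝 (trR (L₀ * G₀))) :=
    (continuous_trR.tendsto _).comp (hL.mul hG)
  have t3 : Tendsto (fun i => trR (L i + 1)⁻¹) l (𝓝 (trR (L₀ + 1)⁻¹)) :=
    (continuous_trR.tendsto _).comp hi
  simp only [obj, rM]
  exact ((t1.sub t2).add hψ).sub (t3.const_mul ε)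

theorem exists_isMax (hα : 1 / 2 < α) (hα' : α < 1) (hε : 0 < ε) (hδ : 0 < δ) {P G B : CMat n}
    (hp : InPar δ T R₀ P G) (hB : B.PosSemidef) : ∃ L, IsMax α ε P G B L := by
  set L₁ := (1 / 4 : ℂ) • (B * B)
  have hF₁ := feasible_quarter B hB
  obtain ⟨K, hK⟩ := level_bound (n := n) hα hα' hε hδ R₀ T (trR B) (obj α ε P G L₁ B)
  set s := {L : CMat n | Feasible L B ∧ trR L ≤ K}
  have hs : IsCompact s := by
    refine (isCompact_psd_le (n := n) K).of_isClosed_subset ?_ fun L hL => ⟨hL.1.1, hL.2⟩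
    exact (feasible_closed.preimage (continuous_id.prodMk continuous_const)).inter
      (isClosed_le continuous_trR continuous_const)
  have h₁ : L₁ ∈ s := ⟨hF₁, hK P G L₁ B hp hF₁ le_rfl le_rfl⟩
  have hc : ContinuousOn (fun L => obj α ε P G L B) s := fun L hL =>
    tendsto_obj hα hα' tendsto_const_nhds tendsto_const_nhds
      (tendsto_id.mono_left nhdsWithin_le_nhds) tendsto_const_nhds
      (eventually_nhdsWithin_of_forall fun L hL => hL.1) hL.1
  obtain ⟨L, hL, hmax⟩ := hs.exists_isMaxOn ⟨L₁, h₁⟩ hc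
  refine ⟨L, hL.1, fun L' hL' => ?_⟩
  rcases le_or_gt (obj α ε P G L₁ B) (obj α ε P G L' B) with h | h
  · exact hmax ⟨hL', hK P G L' B hp hL' le_rfl h⟩
  · exact h.le.trans (hmax h₁)

theorem trR_mul_sqrtM_concave {P L₀ L₁ : CMat n} (hP : P.PosSemidef) (h₀ : L₀.PosSemidef)
    (h₁ : L₁.PosSemidef) :
    1 / 2 * trR (P * sqrtM L₀) + 1 / 2 * trR (P * sqrtM L₁) ≤
      trR (P * sqrtM (((1 / 2 : ℝ) : ℂ) • L₀ + ((1 / 2 : ℝ) : ℂ) • L₁)) := by
  have h := trR_mul_nonneg hP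
    (sqrtM_sub_posSemidef L₀ L₁ h₀ h₁ (1 / 2) (1 / 2) (by norm_num) (by norm_num) (by norm_num))
  rw [Matrix.mul_sub, trR_sub, Matrix.mul_add, trR_add, Matrix.mul_smul, Matrix.mul_smul,
    trR_smul, trR_smul] at h
  linarith

theorem isMax_unique (hα : 1 / 2 < α) (hα' : α < 1) (hε : 0 < ε) {P G B L₀ L₁ : CMat n}
    (hP : P.PosSemidef) (h₀ : IsMax α ε P G B L₀) (h₁ : IsMax α ε P G B L₁) : L₀ = L₁ := by
  by_contra hne
  have hF := feasible_convex L₀ L₁ B h₀.1 h₁.1 (1 / 2) (1 / 2) (by norm_num) (by norm_num)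
    (by norm_num)
  have e1 := trR_mul_sqrtM_concave hP h₀.1.1 h₁.1.1
  have e2 := psiA_concave
    (fun _ _ _ _ ht hB p q _ _ x y z => psiQ_concave ht hB p q x y z)
    (fun _ _ _ _ => psiQ_mono) sqrtM_sub_posSemidef hα hα' h₀.1 h₁.1 (a := 1 / 2) (b := 1 / 2) (by norm_num) (by norm_num)
    (by norm_num)
  have e3 := mul_lt_mul_of_pos_left (trInv_strict L₀ L₁ h₀.1.1 h₁.1.1 hne) hε
  have e4 := h₀.2 _ hF
  have e5 := h₀.2 _ h₁.1
  have e6 := h₁.2 _ h₀.1
  have c : ((1 / 2 : ℝ) : ℂ) = (1 / 2 : ℂ) := by norm_num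
  have e7 : trR ((((1 / 2 : ℝ) : ℂ) • L₀ + ((1 / 2 : ℝ) : ℂ) • L₁) * G) =
      1 / 2 * trR (L₀ * G) + 1 / 2 * trR (L₁ * G) := by
    rw [Matrix.add_mul, trR_add, Matrix.smul_mul, Matrix.smul_mul, trR_smul, trR_smul]
  simp only [obj, rM, Matrix.mul_sub, trR_sub] at e4 e5 e6
  rw [← c] at e3
  rw [e7] at e4
  linarith

theorem innerV_eq {P G B L : CMat n} (h : IsMax α ε P G B L) :
    innerV α ε P G B = obj α ε P G L B :=
  IsGreatest.csSup_eq ⟨⟨L, h.1, rfl⟩, fun _ ⟨L', hL', e⟩ => e ▸ h.2 L' hL'⟩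

theorem le_innerV (hα : 1 / 2 < α) (hα' : α < 1) (hε : 0 < ε) (hδ : 0 < δ) {P G B L : CMat n}
    (hp : InPar δ T R₀ P G) (hF : Feasible L B) : obj α ε P G L B ≤ innerV α ε P G B := by
  obtain ⟨L', hL'⟩ := exists_isMax hα hα' hε hδ hp hF.2.1
  rw [innerV_eq hL']
  exact hL'.2 L hF

theorem isMax_bound (hα : 1 / 2 < α) (hα' : α < 1) (hε : 0 < ε) (hδ : 0 < δ) (R₀ T β : ℝ) :
    ∃ K : ℝ, ∀ P G B L : CMat n, InPar δ T R₀ P G → B.PosSemidef → trR B ≤ β →
      IsMax α ε P G B L → trR L ≤ K := by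
  obtain ⟨K, hK⟩ := level_bound (n := n) hα hα' hε hδ R₀ T β
    (-(|R₀| * |β| + |T| * |β| ^ 2 + ε * n))
  refine ⟨K, fun P G B L hp hB hβ hL => hK P G L B hp hL.1 hβ ?_⟩
  refine le_trans ?_ ((quarter_lower hα hα' hε hp hB).trans (hL.2 _ (feasible_quarter B hB)))
  have h0 := trR_nonneg hB
  have h1 : trR B ≤ |β| := hβ.trans (le_abs_self _)
  have h2 : trR B ^ 2 ≤ |β| ^ 2 := pow_le_pow_left₀ h0 h1 2
  nlinarith [mul_le_mul_of_nonneg_left h1 (abs_nonneg R₀),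
    mul_le_mul_of_nonneg_left h2 (abs_nonneg T)]

theorem sq_shift_sqrtM {L : CMat n} (hL : L.PosSemidef) {τ : ℝ} (hτ : 0 ≤ τ) :
    ((sqrtM L + (τ : ℂ) • 1) * (sqrtM L + (τ : ℂ) • 1)).PosSemidef ∧
      sqrtM ((sqrtM L + (τ : ℂ) • 1) * (sqrtM L + (τ : ℂ) • 1)) = sqrtM L + (τ : ℂ) • 1 := by
  obtain ⟨V, a, h⟩ := exists_spec hL.isHermitian
  have h' := h.sqrtM.add_smul_one τ
  refine ⟨(h'.mul h').posSemidef_iff.2 fun i => mul_self_nonneg _,
    sqrtM_of_sq _ (h'.posSemidef_iff.2 fun i => ?_)⟩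
  positivity

theorem tendsto_isMax (hα : 1 / 2 < α) (hα' : α < 1) (hε : 0 < ε) (hδ : 0 < δ)
    {P G B L : ℕ → CMat n} {P₀ G₀ B₀ L₀ : CMat n} (hp : ∀ k, InPar δ T R₀ (P k) (G k))
    (hL : ∀ k, IsMax α ε (P k) (G k) (B k) (L k)) (hp₀ : InPar δ T R₀ P₀ G₀)
    (hP : Tendsto P atTop (𝓝 P₀)) (hG : Tendsto G atTop (𝓝 G₀)) (hB : Tendsto B atTop (𝓝 B₀))
    (hL₀ : IsMax α ε P₀ G₀ B₀ L₀) : Tendsto L atTop (𝓝 L₀) := by
  obtain ⟨β, hβ⟩ := ((continuous_trR.tendsto B₀).comp hB).bddAbove_range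
  obtain ⟨K, hK⟩ := isMax_bound (n := n) hα hα' hε hδ R₀ T β
  have hmem : ∀ k, L k ∈ {X : CMat n | X.PosSemidef ∧ trR X ≤ K} := fun k =>
    ⟨(hL k).1.1, hK _ _ _ _ (hp k) (hL k).1.2.1 (hβ ⟨k, rfl⟩) (hL k)⟩
  have : FirstCountableTopology (CMat n) :=
    inferInstanceAs (FirstCountableTopology (Fin n → Fin n → ℂ))
  refine tendsto_of_subseq_tendsto fun ns hns => ?_
  obtain ⟨L', -, φ, hφ, hlim⟩ := (isCompact_psd_le (n := n) K).tendsto_subseq fun k => hmem (ns k)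
  refine ⟨φ, ?_⟩
  have hk := hns.comp hφ.tendsto_atTop
  have hF' : Feasible L' B₀ := feasible_closed.mem_of_tendsto (hlim.prodMk_nhds (hB.comp hk))
    (Eventually.of_forall fun k => (hL _).1)
  suffices IsMax α ε P₀ G₀ B₀ L' from isMax_unique hα hα' hε hp₀.1 hL₀ this ▸ hlim
  refine ⟨hF', fun L'' hF'' => ?_⟩
  set τ : ℕ → ℝ := fun k => N1 (B₀ - B k) / 2 with hτ
  have hτ0 : Tendsto τ atTop (𝓝 0) := by
    have := ((continuous_N1.tendsto (0 : CMat n)).comp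
      (by simpa using (tendsto_const_nhds (x := B₀)).sub hB :
        Tendsto (fun k => B₀ - B k) atTop (𝓝 0))).div_const
        (2 : ℝ)
    simpa [hτ, Function.comp_def, N1_zero] using this
  set L₂ : ℕ → CMat n := fun k =>
    (sqrtM L'' + (τ k : ℂ) • 1) * (sqrtM L'' + (τ k : ℂ) • 1)
  have hF₂ : ∀ k, Feasible (L₂ k) (B k) := fun k => by
    obtain ⟨h1, h2⟩ := sq_shift_sqrtM hF''.1 (div_nonneg (N1_nonneg (B₀ - B k)) two_pos.le)
    refine ⟨h1, (hL k).1.2.1, ?_⟩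
    rw [h2]
    have e : (2 : ℂ) • (sqrtM L'' + (τ k : ℂ) • 1) - B k =
        ((2 : ℂ) • sqrtM L'' - B₀) + ((N1 (B₀ - B k) : ℂ) • 1 + (B₀ - B k)) := by
      simp only [hτ]
      push_cast
      module
    rw [e]
    exact hF''.2.2.add (N1_smul_add_posSemidef
      (hF''.2.1.isHermitian.sub (hL k).1.2.1.isHermitian))
  have hL₂ : Tendsto L₂ atTop (𝓝 L'') := by
    have h1 : Tendsto (fun k => sqrtM L'' + (τ k : ℂ) • (1 : CMat n)) atTop
        (𝓝 (sqrtM L'' + ((0 : ℝ) : ℂ) • 1)) :=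
      (((Complex.continuous_ofReal.tendsto 0).comp hτ0).smul_const _).const_add _
    simpa [L₂, (sqrtM_facts L'' hF''.1).2] using h1.mul h1
  exact le_of_tendsto_of_tendsto
    (tendsto_obj hα hα' (hP.comp hk) (hG.comp hk) (hL₂.comp hk) (hB.comp hk)
      (Eventually.of_forall fun k => hF₂ _) hF'')
    (tendsto_obj hα hα' (hP.comp hk) (hG.comp hk) hlim (hB.comp hk)
      (Eventually.of_forall fun k => (hL _).1) hF')
    (Eventually.of_forall fun k => (hL _).2 _ (hF₂ _))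

/-! ### The outer infimum -/

theorem continuousOn_innerV (hα : 1 / 2 < α) (hα' : α < 1) (hε : 0 < ε) (hδ : 0 < δ)
    {P G : CMat n} (hp : InPar δ T R₀ P G) :
    ContinuousOn (fun B => innerV α ε P G B) {B | B.PosSemidef} := by
  have : FirstCountableTopology (CMat n) :=
    inferInstanceAs (FirstCountableTopology (Fin n → Fin n → ℂ))
  intro B₀ hB₀
  refine tendsto_of_seq_tendsto fun u hu => ?_
  obtain ⟨h1, h2⟩ := tendsto_nhdsWithin_iff.1 hu
  obtain ⟨k0, hk0⟩ := eventually_atTop.1 h2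
  refine (tendsto_add_atTop_iff_nat k0).1 ?_
  have hu' : Tendsto (fun k => u (k + k0)) atTop (𝓝 B₀) := (tendsto_add_atTop_iff_nat k0).2 h1
  choose L hL using fun k =>
    exists_isMax hα hα' hε hδ hp (hk0 (k + k0) (Nat.le_add_left _ _))
  obtain ⟨L₀, hL₀⟩ := exists_isMax hα hα' hε hδ hp hB₀
  have hlim := tendsto_isMax hα hα' hε hδ (fun _ => hp) hL hp tendsto_const_nhds
    tendsto_const_nhds hu' hL₀
  simp only [Function.comp_apply]
  rw [innerV_eq hL₀]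
  simp only [innerV_eq (hL _)]
  exact tendsto_obj hα hα' tendsto_const_nhds tendsto_const_nhds hlim hu'
    (Eventually.of_forall fun k => (hL k).1) hL₀.1

theorem outer_coercive (hα : 1 / 2 < α) (hα' : α < 1) (hε : 0 < ε) (hδ : 0 < δ) (R₀ T : ℝ) :
    ∃ β : ℝ, 0 ≤ β ∧ ∀ P G B : CMat n, InPar δ T R₀ P G → B.PosSemidef → β < trR B →
      innerV α ε P G 0 < innerV α ε P G B := by
  obtain hn | hn := isEmpty_or_nonempty (Fin n)
  · refine ⟨0, le_rfl, fun P G B _ _ h => absurd h ?_⟩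
    simp [trR, Matrix.trace]
  obtain ⟨c, hc, hlow⟩ := psiA_scalar_lower (n := n) α hα hα'
  set U₀ : ℝ := R₀ ^ 2 / (4 * δ) + 1 with hU
  set Kb : ℝ := (|T| * n + U₀ + ε * n) / c + 1
  have hU0 : 0 < U₀ := by positivity
  refine ⟨n * (max Kb 1) ^ (1 / (2 * α - 1)), by positivity, fun P G B hp hB hβ => ?_⟩
  have h0 : innerV α ε P G 0 < U₀ := by
    obtain ⟨L, hL⟩ := exists_isMax hα hα' hε hδ hp (PosSemidef.zero (n := Fin n) (R := ℂ))
    rw [innerV_eq hL, obj, psiA_zero α L, rM, sub_zero]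
    have e1 := trR_mul_sqrtM_le hp.1 hL.1.1
    have e2 := (hp.trR_G hL.1.1).1
    have e3 : 0 ≤ ε * trR (L + 1)⁻¹ := mul_nonneg hε.le (trInv_bounds L hL.1.1).1
    have hy := Real.mul_self_sqrt (trR_nonneg hL.1.1)
    set y := √(trR L)
    have e4 : y * R₀ - δ * (y * y) ≤ R₀ ^ 2 / (4 * δ) := by
      rw [le_div_iff₀ (by positivity)]
      nlinarith [sq_nonneg (R₀ - 2 * δ * y)]
    have e5 : y * trR P ≤ y * R₀ := mul_le_mul_of_nonneg_left hp.2.1 (Real.sqrt_nonneg _)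
    rw [hy] at e4
    rw [hU]
    linarith
  obtain ⟨V, u, h⟩ := exists_spec hB.isHermitian
  have hu := h.posSemidef_iff.1 hB
  obtain ⟨i, -, hi⟩ := Finset.exists_max_image Finset.univ u Finset.univ_nonempty
  set b := u i with hb
  have hub : ∀ j, u j ≤ b := fun j => hi j (Finset.mem_univ j)
  have hb0 : 0 ≤ b := hu i
  have hbB : ((b : ℂ) • 1 - B).PosSemidef := by
    rw [show (b : ℂ) • 1 - B = ((-1 : ℝ) : ℂ) • B + (b : ℂ) • 1 by
      push_cast; rw [neg_one_smul]; abel, ((h.smul (-1)).add_smul_one b).posSemidef_iff]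
    intro j
    linarith [hub j]
  have hF := feasible_scalar B b hB hb0 hbB
  have hT : trR B ≤ n * b := by
    rw [h.trR_eq]
    exact (Finset.sum_le_sum fun j _ => hub j).trans (by simp)
  have hsq : sqrtM (((b ^ 2 : ℝ) : ℂ) • (1 : CMat n)) = (b : ℂ) • 1 := by
    have := sqrtM_of_sq ((b : ℂ) • (1 : CMat n))
      (PosSemidef.one.smul (Complex.zero_le_real.2 hb0))
    rw [Matrix.smul_mul, Matrix.mul_smul, Matrix.one_mul, smul_smul, ← Complex.ofReal_mul] at this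
    rwa [sq]
  have e1 : 0 ≤ trR (P * rM (((b ^ 2 : ℝ) : ℂ) • 1) B) := by
    rw [rM, hsq]; exact trR_mul_nonneg hp.1 hbB
  have e2 : trR ((((b ^ 2 : ℝ) : ℂ) • (1 : CMat n)) * G) ≤ |T| * (n * b ^ 2) := by
    refine (hp.trR_G hF.1).2.trans (le_of_eq ?_)
    rw [trR_smul, trR_one]; ring
  have e3 := hlow B V u b h hu hub i rfl
  have e4 := mul_le_mul_of_nonneg_left (trInv_bounds _ hF.1).2 hε.le
  have e5 := le_innerV hα hα' hε hδ hp hF
  have hn0 : (0 : ℝ) < n := by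
    have : 0 < n := Fin.pos_iff_nonempty.2 hn
    exact_mod_cast this
  have hbig : (max Kb 1) ^ (1 / (2 * α - 1)) < b := by nlinarith
  have hb1 : 1 ≤ b :=
    (Real.one_le_rpow (le_max_right _ _) (one_div_nonneg.2 (by linarith))).trans hbig.le
  have hpow : Kb ≤ b ^ (2 * α - 1) := by
    have := Real.rpow_le_rpow (by positivity) hbig.le (show 0 ≤ 2 * α - 1 by linarith)
    rw [← Real.rpow_mul (by positivity), one_div_mul_cancel (by linarith), Real.rpow_one] at this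
    exact (le_max_left _ _).trans this
  have e6 : (|T| * n + U₀ + ε * n) * b ^ 2 ≤ c * b ^ (2 * α + 1) := by
    rw [show (2 * α + 1) = (2 * α - 1) + 2 by ring, Real.rpow_add (by linarith), ← mul_assoc,
      Real.rpow_two]
    refine mul_le_mul_of_nonneg_right ?_ (sq_nonneg b)
    rw [← div_le_iff₀' hc]
    simp only [Kb] at hpow
    linarith
  have e7 : U₀ + ε * n ≤ (U₀ + ε * n) * b ^ 2 :=
    le_mul_of_one_le_right (by positivity) (one_le_pow₀ hb1)
  unfold obj at e5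
  nlinarith

theorem exists_isMin (hα : 1 / 2 < α) (hα' : α < 1) (hε : 0 < ε) (hδ : 0 < δ) (R₀ T : ℝ) :
    ∃ β : ℝ, ∀ P G : CMat n, InPar δ T R₀ P G →
      (∃ B, IsMin α ε P G B) ∧ ∀ B, IsMin α ε P G B → trR B ≤ β := by
  obtain ⟨β, hβ0, hβ⟩ := outer_coercive (n := n) hα hα' hε hδ R₀ T
  refine ⟨β, fun P G hp => ⟨?_, fun B hB => ?_⟩⟩
  · have h0 : (0 : CMat n) ∈ {X : CMat n | X.PosSemidef ∧ trR X ≤ β} :=
      ⟨PosSemidef.zero, by rw [trR_zero]; exact hβ0⟩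
    obtain ⟨B, hB, hmin⟩ := (isCompact_psd_le (n := n) β).exists_isMinOn ⟨0, h0⟩
      ((continuousOn_innerV hα hα' hε hδ hp).mono fun X hX => hX.1)
    refine ⟨B, hB.1, fun B' hB' => ?_⟩
    rcases le_or_gt (trR B') β with h | h
    · exact hmin ⟨hB', h⟩
    · exact (hmin h0).trans (hβ P G B' hp hB' h).le
  · by_contra h
    exact absurd (hB.2 0 PosSemidef.zero) (not_le.2 (hβ P G B hp hB.1 (not_le.1 h)))

theorem value_eq {P G B : CMat n} (h : IsMin α ε P G B) :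
    value α ε P G = innerV α ε P G B :=
  IsLeast.csInf_eq ⟨⟨B, h.1, rfl⟩, fun _ ⟨B', hB', e⟩ => e ▸ h.2 B' hB'⟩

end Vale.Agent.P371.Calib
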